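import Mathlib

/-!
Definitions used in the P256 statement.
-/

namespace Vale.Agent.P256

open MvPolynomial

variable {n : ℕ}

/-- `p` is hyperbolic with respect to `e`: `p e > 0` and all complex roots of
`z ↦ p (z e - x)` are real, for every real `x`. -/
def IsHyperbolicPoly (p : MvPolynomial (Fin n) ℝ) (e : Fin n → ℝ) : Prop :=
  0 < MvPolynomial.eval e p ∧ ∀ (x : Fin n → ℝ) (z : ℂ),
    MvPolynomial.aeval (fun i => z * (e i : ℂ) - (x i : ℂ)) p = 0 → z.im = 0

/-- the closed hyperbolicity cone `{x : every root of t ↦ p (t e - x) is ≥ 0}`. -/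
def hypCone (p : MvPolynomial (Fin n) ℝ) (e : Fin n → ℝ) : Set (Fin n → ℝ) :=
  {x | ∀ t : ℝ, MvPolynomial.eval (t • e - x) p = 0 → 0 ≤ t}

/-- `S` is a spectrahedral shadow. -/
def IsSpectrahedralShadow (S : Set (Fin n → ℝ)) : Prop :=
  ∃ (k N : ℕ) (A₀ : Matrix (Fin N) (Fin N) ℝ) (A : Fin n → Matrix (Fin N) (Fin N) ℝ)
    (B : Fin k → Matrix (Fin N) (Fin N) ℝ),
    A₀.IsSymm ∧ (∀ i, (A i).IsSymm) ∧ (∀ j, (B j).IsSymm) ∧
      S = {x | ∃ u : Fin k → ℝ, (A₀ + ∑ i, x i • A i + ∑ j, u j • B j).PosSemidef}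

/-- the polynomial `q(a + X)`. -/
noncomputable def shiftPoly (a : Fin n → ℝ) (q : MvPolynomial (Fin n) ℝ) :
    MvPolynomial (Fin n) ℝ :=
  MvPolynomial.aeval (fun i => MvPolynomial.C (a i) + MvPolynomial.X i) q

/-- `a` is an ordinary singular point: if `p_k` is the degree-`k` part of `p(a + X)` and `p_m` the
lowest nonzero one, then at every `s` off the line `ℝa` that lies on the boundary of the
hyperbolicity cone of `p_m` (that is, `p_m (s + t e) > 0` for all `t > 0` and `p_m s = 0`), the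
gradient of `p_m` is nonzero and the line `a + ℝ s` is not contained in the zero set of `p`. -/
def IsOrdinarySingular (p : MvPolynomial (Fin n) ℝ) (e a : Fin n → ℝ) : Prop :=
  ∃ m, (∀ j < m, homogeneousComponent j (shiftPoly a p) = 0) ∧
    homogeneousComponent m (shiftPoly a p) ≠ 0 ∧
    ∀ s : Fin n → ℝ, (∀ c : ℝ, s ≠ c • a) →
      (∀ t : ℝ, 0 < t → 0 < MvPolynomial.eval (s + t • e) (homogeneousComponent m (shiftPoly a p))) →
      MvPolynomial.eval s (homogeneousComponent m (shiftPoly a p)) = 0 →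
        (∃ i, MvPolynomial.eval s
          (MvPolynomial.pderiv i (homogeneousComponent m (shiftPoly a p))) ≠ 0) ∧
        (∃ t : ℝ, MvPolynomial.eval (a + t • s) p ≠ 0)

end Vale.Agent.P256
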