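import Mathlib

/-!
Finite factorisations of kernels.

`SOSKer U V S` : on `U × V` the kernel `S x y` is `f(x)ᵀ G(y) f(x)` with finitely many
coordinates and `G(y)` positive semidefinite.
-/

namespace Vale.Agent.P256

open Filter Topology Matrix

variable {α β : Type}

/-- `S` is, on `U × V`, a quadratic form in finitely many functions of `x`, whose coefficient
matrix depends only on `y` and is positive semidefinite. -/
def SOSKer (U : Set α) (V : Set β) (S : α → β → ℝ) : Prop :=
  ∃ (J : Type) (_ : Fintype J) (f : α → J → ℝ) (G : β → Matrix J J ℝ),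
    (∀ y ∈ V, (G y).PosSemidef) ∧
      ∀ x ∈ U, ∀ y ∈ V, S x y = ∑ i, ∑ j, G y i j * (f x i * f x j)

/-- `F` is a finite sum of products of a function of `x` and a function of `y`. -/
def IsSep (F : α → β → ℝ) : Prop :=
  ∃ (K : Type) (_ : Fintype K) (f : K → α → ℝ) (g : K → β → ℝ), ∀ x y, F x y = ∑ k, f k x * g k y

/-- `F` is a finite sum of products of functions having limits along `l`, `l'`; `c` is the limit. -/
def SepTendsto (l : Filter α) (l' : Filter β) (F : α → β → ℝ) (c : ℝ) : Prop :=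
  ∃ (K : Type) (_ : Fintype K) (f : K → α → ℝ) (g : K → β → ℝ) (u v : K → ℝ),
    (∀ x y, F x y = ∑ k, f k x * g k y) ∧ (∀ k, Tendsto (f k) l (𝓝 (u k))) ∧
      (∀ k, Tendsto (g k) l' (𝓝 (v k))) ∧ c = ∑ k, u k * v k

section SepTendsto

variable {l : Filter α} {l' : Filter β}

theorem SepTendsto.of_left {f : α → ℝ} {c : ℝ} (h : Tendsto f l (𝓝 c)) :
    SepTendsto l l' (fun x _ => f x) c :=
  ⟨Unit, inferInstance, fun _ => f, fun _ _ => 1, fun _ => c, fun _ => 1, by simp, fun _ => h,
    fun _ => tendsto_const_nhds, by simp⟩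

theorem SepTendsto.of_right {g : β → ℝ} {c : ℝ} (h : Tendsto g l' (𝓝 c)) :
    SepTendsto l l' (fun _ y => g y) c :=
  ⟨Unit, inferInstance, fun _ _ => 1, fun _ => g, fun _ => 1, fun _ => c, by simp,
    fun _ => tendsto_const_nhds, fun _ => h, by simp⟩

theorem SepTendsto.const (c : ℝ) : SepTendsto l l' (fun _ _ => c) c :=
  SepTendsto.of_left tendsto_const_nhds

theorem SepTendsto.congr {F F' : α → β → ℝ} {c c' : ℝ} (h : SepTendsto l l' F c)
    (hF : ∀ x y, F' x y = F x y) (hc : c' = c) : SepTendsto l l' F' c' := by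
  subst hc
  obtain ⟨K, _, f, g, u, v, h1, h2, h3, h4⟩ := h
  exact ⟨K, inferInstance, f, g, u, v, fun x y => by rw [hF, h1], h2, h3, h4⟩

theorem SepTendsto.add {F F' : α → β → ℝ} {c c' : ℝ} (h : SepTendsto l l' F c)
    (h' : SepTendsto l l' F' c') : SepTendsto l l' (fun x y => F x y + F' x y) (c + c') := by
  obtain ⟨K, _, f, g, u, v, h1, h2, h3, h4⟩ := h
  obtain ⟨K', _, f', g', u', v', h1', h2', h3', h4'⟩ := h'
  refine ⟨K ⊕ K', inferInstance, Sum.elim f f', Sum.elim g g', Sum.elim u u', Sum.elim v v',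
    ?_, ?_, ?_, ?_⟩
  · intro x y; simp [h1, h1']
  · rintro (k | k)
    · exact h2 k
    · exact h2' k
  · rintro (k | k)
    · exact h3 k
    · exact h3' k
  · simp [h4, h4']

theorem SepTendsto.mul {F F' : α → β → ℝ} {c c' : ℝ} (h : SepTendsto l l' F c)
    (h' : SepTendsto l l' F' c') : SepTendsto l l' (fun x y => F x y * F' x y) (c * c') := by
  obtain ⟨K, _, f, g, u, v, h1, h2, h3, h4⟩ := h
  obtain ⟨K', _, f', g', u', v', h1', h2', h3', h4'⟩ := h'
  refine ⟨K × K', inferInstance, fun p x => f p.1 x * f' p.2 x, fun p y => g p.1 y * g' p.2 y,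
    fun p => u p.1 * u' p.2, fun p => v p.1 * v' p.2, ?_, ?_, ?_, ?_⟩
  · intro x y
    simp only [h1, h1']
    rw [Finset.sum_mul_sum, Fintype.sum_prod_type]
    exact Finset.sum_congr rfl fun a _ => Finset.sum_congr rfl fun b _ => by ring
  · exact fun p => (h2 p.1).mul (h2' p.2)
  · exact fun p => (h3 p.1).mul (h3' p.2)
  · simp only [h4, h4']
    rw [Finset.sum_mul_sum, Fintype.sum_prod_type]
    exact Finset.sum_congr rfl fun a _ => Finset.sum_congr rfl fun b _ => by ring

theorem SepTendsto.const_mul {F : α → β → ℝ} {c : ℝ} (a : ℝ) (h : SepTendsto l l' F c) :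
    SepTendsto l l' (fun x y => a * F x y) (a * c) :=
  (SepTendsto.const a).mul h

theorem SepTendsto.neg {F : α → β → ℝ} {c : ℝ} (h : SepTendsto l l' F c) :
    SepTendsto l l' (fun x y => -F x y) (-c) :=
  (h.const_mul (-1)).congr (fun _ _ => by ring) (by ring)

theorem SepTendsto.sub {F F' : α → β → ℝ} {c c' : ℝ} (h : SepTendsto l l' F c)
    (h' : SepTendsto l l' F' c') : SepTendsto l l' (fun x y => F x y - F' x y) (c - c') :=
  (h.add h'.neg).congr (fun _ _ => by ring) (by ring)

theorem SepTendsto.sum {ι : Type} (s : Finset ι) {F : ι → α → β → ℝ} {c : ι → ℝ}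
    (h : ∀ i ∈ s, SepTendsto l l' (F i) (c i)) :
    SepTendsto l l' (fun x y => ∑ i ∈ s, F i x y) (∑ i ∈ s, c i) := by
  classical
  induction s using Finset.induction_on with
  | empty => exact (SepTendsto.const 0).congr (fun _ _ => by simp) (by simp)
  | insert a s has ih =>
    exact ((h a (Finset.mem_insert_self a s)).add
      (ih fun i hi => h i (Finset.mem_insert_of_mem hi))).congr
      (fun _ _ => by rw [Finset.sum_insert has]) (by rw [Finset.sum_insert has])

theorem SepTendsto.isSep {F : α → β → ℝ} {c : ℝ} (h : SepTendsto l l' F c) : IsSep F := by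
  obtain ⟨K, _, f, g, u, v, h1, -, -, -⟩ := h
  exact ⟨K, inferInstance, f, g, h1⟩

/-- centred form: `F - c` is a sum of products whose limit products vanish factorwise. -/
theorem SepTendsto.centred {F : α → β → ℝ} {c : ℝ} (h : SepTendsto l l' F c) :
    ∃ (T : Type) (_ : Fintype T) (p : T → α → ℝ) (q : T → β → ℝ),
      (∀ x y, F x y = c + ∑ t, p t x * q t y) ∧
      ∀ δ > 0, ∃ a b : T → ℝ, (∀ t, 0 ≤ a t) ∧ (∀ t, 0 ≤ b t) ∧ (∀ t, a t * b t = δ) ∧
        (∀ t, ∀ᶠ x in l, |p t x| ≤ a t) ∧ (∀ t, ∀ᶠ y in l', |q t y| ≤ b t) := by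
  obtain ⟨K, _, f, g, u, v, h1, h2, h3, h4⟩ := h
  refine ⟨K ⊕ K, inferInstance, Sum.elim (fun k x => f k x - u k) (fun k _ => u k),
    Sum.elim g (fun k y => g k y - v k), ?_, ?_⟩
  · intro x y
    simp only [h1, h4, Fintype.sum_sum_type, Sum.elim_inl, Sum.elim_inr]
    rw [← Finset.sum_add_distrib, ← Finset.sum_add_distrib]
    exact Finset.sum_congr rfl fun k _ => by ring
  · intro δ hδ
    refine ⟨Sum.elim (fun k => δ / (|v k| + 1)) (fun k => |u k| + 1),
      Sum.elim (fun k => |v k| + 1) (fun k => δ / (|u k| + 1)), ?_, ?_, ?_, ?_, ?_⟩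
    · rintro (k | k) <;> simp only [Sum.elim_inl, Sum.elim_inr] <;> positivity
    · rintro (k | k) <;> simp only [Sum.elim_inl, Sum.elim_inr] <;> positivity
    · rintro (k | k) <;> simp only [Sum.elim_inl, Sum.elim_inr] <;> field_simp
    · rintro (k | k)
      · have hd : Tendsto (fun x => |f k x - u k|) l (𝓝 0) := by
          simpa using ((h2 k).sub_const (u k)).abs
        exact hd.eventually (ge_mem_nhds (div_pos hδ (by positivity)))
      · refine Eventually.of_forall fun x => ?_
        simp only [Sum.elim_inr]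
        linarith
    · rintro (k | k)
      · exact (h3 k).abs.eventually (ge_mem_nhds (by simp))
      · have hd : Tendsto (fun y => |g k y - v k|) l' (𝓝 0) := by
          simpa using ((h3 k).sub_const (v k)).abs
        exact hd.eventually (ge_mem_nhds (div_pos hδ (by positivity)))

end SepTendsto

section SOSKer

variable {U : Set α} {V : Set β} {S S' : α → β → ℝ}

theorem SOSKer.congr (h : SOSKer U V S) (hS : ∀ x ∈ U, ∀ y ∈ V, S' x y = S x y) :
    SOSKer U V S' := by
  obtain ⟨J, _, f, G, hG, hs⟩ := h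
  exact ⟨J, inferInstance, f, G, hG, fun x hx y hy => by rw [hS x hx y hy, hs x hx y hy]⟩

theorem SOSKer.mono {U' : Set α} {V' : Set β} (h : SOSKer U V S) (hU : U' ⊆ U) (hV : V' ⊆ V) :
    SOSKer U' V' S := by
  obtain ⟨J, _, f, G, hG, hs⟩ := h
  exact ⟨J, inferInstance, f, G, fun y hy => hG y (hV hy),
    fun x hx y hy => hs x (hU hx) y (hV hy)⟩

theorem SOSKer.zero : SOSKer U V (fun _ _ => 0) :=
  ⟨Empty, inferInstance, fun _ i => i.elim, fun _ => 0, fun _ _ => Matrix.PosSemidef.zero, by simp⟩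

theorem SOSKer.add (h : SOSKer U V S) (h' : SOSKer U V S') :
    SOSKer U V (fun x y => S x y + S' x y) := by
  classical
  obtain ⟨J, _, f, G, hG, hs⟩ := h
  obtain ⟨J', _, f', G', hG', hs'⟩ := h'
  refine ⟨J ⊕ J', inferInstance, fun x => Sum.elim (f x) (f' x),
    fun y => Matrix.fromBlocks (G y) 0 0 (G' y), ?_, ?_⟩
  · intro y hy
    refine Matrix.PosSemidef.of_dotProduct_mulVec_nonneg
      (Matrix.IsHermitian.fromBlocks (hG y hy).1 (by simp) (hG' y hy).1) ?_
    intro z
    have h1 := (hG y hy).dotProduct_mulVec_nonneg (fun i => z (Sum.inl i))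
    have h2 := (hG' y hy).dotProduct_mulVec_nonneg (fun i => z (Sum.inr i))
    simp only [dotProduct, Matrix.mulVec, Fintype.sum_sum_type, Matrix.fromBlocks_apply₁₁,
      Matrix.fromBlocks_apply₁₂, Matrix.fromBlocks_apply₂₁, Matrix.fromBlocks_apply₂₂,
      Matrix.zero_apply, zero_mul, Finset.sum_const_zero, add_zero, zero_add, Pi.star_apply,
      star_trivial] at h1 h2 ⊢
    exact add_nonneg h1 h2
  · intro x hx y hy
    simp [hs x hx y hy, hs' x hx y hy, Fintype.sum_sum_type]

theorem SOSKer.sum {ι : Type} (s : Finset ι) {S : ι → α → β → ℝ}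
    (h : ∀ i ∈ s, SOSKer U V (S i)) : SOSKer U V (fun x y => ∑ i ∈ s, S i x y) := by
  classical
  induction s using Finset.induction_on with
  | empty => exact SOSKer.zero.congr (fun _ _ _ _ => by simp)
  | insert a s has ih =>
    exact ((h a (Finset.mem_insert_self a s)).add
      (ih fun i hi => h i (Finset.mem_insert_of_mem hi))).congr
      (fun _ _ _ _ => by rw [Finset.sum_insert has])

theorem SOSKer.weight (h : SOSKer U V S) {a : α → ℝ} {b : β → ℝ} (ha : ∀ x ∈ U, 0 ≤ a x)
    (hb : ∀ y ∈ V, 0 ≤ b y) : SOSKer U V (fun x y => a x * b y * S x y) := by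
  obtain ⟨J, _, f, G, hG, hs⟩ := h
  refine ⟨J, inferInstance, fun x i => Real.sqrt (a x) * f x i, fun y => b y • G y, ?_, ?_⟩
  · exact fun y hy => (hG y hy).smul (hb y hy)
  · intro x hx y hy
    simp only [hs x hx y hy, Matrix.smul_apply, smul_eq_mul, Finset.mul_sum]
    refine Finset.sum_congr rfl fun i _ => Finset.sum_congr rfl fun j _ => ?_
    nth_rw 1 [← Real.mul_self_sqrt (ha x hx)]
    ring

theorem SOSKer.quadratic {ι : Type} [Fintype ι] {A : Matrix ι ι ℝ} (hA : A.PosSemidef)
    {v : ι → α → β → ℝ} (hv : ∀ i, IsSep (v i)) :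
    SOSKer U V (fun x y => ∑ i, ∑ j, A i j * (v i x y * v j x y)) := by
  classical
  choose K hK f g hfg using hv
  let C : β → Matrix ι ((i : ι) × K i) ℝ := fun y i p => if p.1 = i then g p.1 p.2 y else 0
  refine ⟨(i : ι) × K i, inferInstance, fun x p => f p.1 p.2 x, fun y => (C y)ᴴ * A * C y,
    fun y _ => hA.conjTranspose_mul_mul_same _, ?_⟩
  intro x _ y _
  have key : ∀ i, v i x y = ∑ p : (i : ι) × K i, C y i p * f p.1 p.2 x := by
    intro i
    rw [hfg, Fintype.sum_sigma, Finset.sum_eq_single i]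
    · exact Finset.sum_congr rfl fun k _ => by simp [C, mul_comm]
    · intro j _ hji
      exact Finset.sum_eq_zero fun k _ => by simp [C, hji]
    · simp
  simp only [key, Matrix.mul_apply, Matrix.conjTranspose_apply, star_trivial]
  simp only [Finset.mul_sum, Finset.sum_mul]
  calc ∑ i, ∑ j, ∑ q, ∑ p, A i j * (C y i p * f p.1 p.2 x * (C y j q * f q.1 q.2 x))
      = ∑ i, ∑ j, ∑ p, ∑ q, A i j * (C y i p * f p.1 p.2 x * (C y j q * f q.1 q.2 x)) :=
        Finset.sum_congr rfl fun i _ => Finset.sum_congr rfl fun j _ => Finset.sum_comm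
    _ = ∑ p, ∑ q, ∑ i, ∑ j, A i j * (C y i p * f p.1 p.2 x * (C y j q * f q.1 q.2 x)) := by
        calc _ = ∑ i, ∑ p, ∑ j, ∑ q, _ := Finset.sum_congr rfl fun i _ => Finset.sum_comm
          _ = ∑ i, ∑ p, ∑ q, ∑ j, _ :=
            Finset.sum_congr rfl fun i _ => Finset.sum_congr rfl fun p _ => Finset.sum_comm
          _ = ∑ p, ∑ i, ∑ q, ∑ j, _ := Finset.sum_comm
          _ = _ := Finset.sum_congr rfl fun p _ => Finset.sum_comm
    _ = _ := by
        refine Finset.sum_congr rfl fun p _ => Finset.sum_congr rfl fun q _ => ?_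
        rw [Finset.sum_comm]
        exact Finset.sum_congr rfl fun j _ => Finset.sum_congr rfl fun i _ => by ring

theorem SOSKer.sq {F : α → β → ℝ} (hF : IsSep F) :
    SOSKer U V (fun x y => F x y ^ 2) :=
  (SOSKer.quadratic (A := (1 : Matrix Unit Unit ℝ)) Matrix.PosSemidef.one
    (v := fun _ => F) (fun _ => hF)).congr (fun _ _ _ _ => by simp [← pow_two])

theorem SOSKer.const {c : ℝ} (hc : 0 ≤ c) : SOSKer U V (fun _ _ => c) := by
  have h1 : IsSep (fun (_ : α) (_ : β) => (1 : ℝ)) :=
    ⟨Unit, inferInstance, fun _ _ => 1, fun _ _ => 1, by simp⟩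
  exact ((SOSKer.sq h1).weight (a := fun _ => c) (b := fun _ => 1) (fun _ _ => hc)
    (fun _ _ => zero_le_one)).congr (fun _ _ _ _ => by simp)

/-- rectangles covering `U × V` glue. -/
theorem SOSKer.glue {ι : Type} (s : Finset ι) (Ui : ι → Set α) (Vi : ι → Set β)
    (h : ∀ i ∈ s, SOSKer (Ui i ∩ U) (Vi i ∩ V) S)
    (hcov : ∀ x ∈ U, ∀ y ∈ V, ∃ i ∈ s, x ∈ Ui i ∧ y ∈ Vi i) : SOSKer U V S := by
  classical
  let σ : α → Finset ι := fun x => s.filter fun i => x ∈ Ui i
  let τ : β → Finset ι := fun y => s.filter fun i => y ∈ Vi i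
  have piece : ∀ P ∈ s.powerset, ∀ Q ∈ s.powerset,
      SOSKer U V (fun x y => if σ x = P ∧ τ y = Q then S x y else 0) := by
    intro P _ Q _
    by_cases hne : (P ∩ Q).Nonempty
    · obtain ⟨i, hi⟩ := hne
      rw [Finset.mem_inter] at hi
      by_cases his : i ∈ s
      · obtain ⟨J, _, f, G, hG, hs⟩ := h i his
        refine ⟨J, inferInstance, fun x j => if σ x = P then f x j else 0,
          fun y => if τ y = Q then G y else 0, ?_, ?_⟩
        · intro y hy
          by_cases hQ : τ y = Q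
          · have : y ∈ Vi i := (Finset.mem_filter.mp (hQ ▸ hi.2 : i ∈ τ y)).2
            simp only [if_pos hQ]
            exact hG y ⟨this, hy⟩
          · simp only [if_neg hQ]
            exact Matrix.PosSemidef.zero
        · intro x hx y hy
          by_cases hP : σ x = P
          · by_cases hQ : τ y = Q
            · have h1 : x ∈ Ui i := (Finset.mem_filter.mp (hP ▸ hi.1 : i ∈ σ x)).2
              have h2 : y ∈ Vi i := (Finset.mem_filter.mp (hQ ▸ hi.2 : i ∈ τ y)).2
              simp [hP, hQ, hs x ⟨h1, hx⟩ y ⟨h2, hy⟩]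
            · simp [hP, hQ]
          · simp [hP]
      · refine SOSKer.zero.congr fun x _ y _ => ?_
        rw [if_neg]
        rintro ⟨hP, -⟩
        exact his (Finset.mem_filter.mp (hP ▸ hi.1 : i ∈ σ x)).1
    · refine SOSKer.zero.congr fun x hx y hy => ?_
      rw [if_neg]
      rintro ⟨hP, hQ⟩
      obtain ⟨i, his, h1, h2⟩ := hcov x hx y hy
      exact hne ⟨i, Finset.mem_inter.mpr ⟨hP ▸ Finset.mem_filter.mpr ⟨his, h1⟩,
        hQ ▸ Finset.mem_filter.mpr ⟨his, h2⟩⟩⟩
  refine (SOSKer.sum s.powerset (fun P hP => SOSKer.sum s.powerset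
    (fun Q hQ => piece P hP Q hQ))).congr fun x _ y _ => ?_
  rw [Finset.sum_eq_single (σ x), Finset.sum_eq_single (τ y)]
  · simp
  · intro Q _ hQ
    rw [if_neg]
    exact fun hh => hQ hh.2.symm
  · intro hh
    exact absurd (Finset.mem_powerset.mpr (Finset.filter_subset _ _)) hh
  · intro P _ hP
    exact Finset.sum_eq_zero fun Q _ => if_neg fun hh => hP hh.1.symm
  · intro hh
    exact absurd (Finset.mem_powerset.mpr (Finset.filter_subset _ _)) hh

end SOSKer

/-- a real quadratic form which is positive off `0` dominates a multiple of the sum of squares. -/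
theorem exists_coercive {ι : Type} [Fintype ι] (M : ι → ι → ℝ)
    (h : ∀ w : ι → ℝ, w ≠ 0 → 0 < ∑ i, ∑ j, M i j * (w i * w j)) :
    ∃ c > 0, ∀ w : ι → ℝ, c * ∑ i, w i ^ 2 ≤ ∑ i, ∑ j, M i j * (w i * w j) := by
  classical
  set Q : (ι → ℝ) → ℝ := fun w => ∑ i, ∑ j, M i j * (w i * w j)
  set N : (ι → ℝ) → ℝ := fun w => ∑ i, w i ^ 2
  rcases isEmpty_or_nonempty ι with hι | hι
  · exact ⟨1, one_pos, fun w => by simp⟩
  have hNc : Continuous N := by fun_prop
  have hQc : Continuous Q := by fun_prop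
  have hcomp : IsCompact {w : ι → ℝ | N w = 1} := by
    refine Metric.isCompact_of_isClosed_isBounded (isClosed_eq hNc continuous_const) ?_
    refine (Metric.isBounded_iff_subset_closedBall (0 : ι → ℝ)).mpr ⟨1, fun w hw => ?_⟩
    rw [mem_closedBall_zero_iff, pi_norm_le_iff_of_nonneg zero_le_one]
    intro i
    have : w i ^ 2 ≤ 1 := hw ▸ Finset.single_le_sum (f := fun i => w i ^ 2)
      (fun j _ => sq_nonneg _) (Finset.mem_univ i)
    rw [Real.norm_eq_abs]
    exact (sq_le_one_iff_abs_le_one _).mp this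
  have hne : ({w : ι → ℝ | N w = 1}).Nonempty := by
    obtain ⟨i⟩ := hι
    exact ⟨Pi.single i 1, by simp [N, Pi.single_apply]⟩
  obtain ⟨w0, hw0, hmin⟩ := hcomp.exists_isMinOn hne hQc.continuousOn
  have hw0' : w0 ≠ 0 := by
    rintro rfl
    simp [N] at hw0
  refine ⟨Q w0, h w0 hw0', fun w => ?_⟩
  rcases (Finset.sum_nonneg (fun i _ => sq_nonneg (w i)) : 0 ≤ N w).eq_or_lt with hz | hpos
  · have : w = 0 := by
      funext i
      have := (Finset.sum_eq_zero_iff_of_nonneg (fun i _ => sq_nonneg (w i))).mp hz.symm i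
        (Finset.mem_univ i)
      simpa using this
    subst this
    simp
  · set r := Real.sqrt (N w)
    have hr : 0 < r := Real.sqrt_pos.mpr hpos
    have hr2 : r ^ 2 = N w := Real.sq_sqrt hpos.le
    have hN1 : N (fun i => w i / r) = 1 := by
      simp only [N, div_pow, ← Finset.sum_div, hr2]
      exact div_self hpos.ne'
    have hle : Q w0 ≤ Q (fun i => w i / r) := hmin hN1
    have hQs : Q (fun i => w i / r) = Q w / N w := by
      rw [← hr2]
      simp only [Q, Finset.sum_div]
      exact Finset.sum_congr rfl fun i _ => Finset.sum_congr rfl fun j _ => by field_simp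
    rw [hQs, le_div_iff₀ hpos] at hle
    exact hle

/-- The local Gram lemma: a separable form with positive definite limit factorises nearby. -/
theorem exists_SOSKer_gram {l : Filter α} {l' : Filter β} {ι : Type} [Fintype ι]
    (v : ι → α → β → ℝ) (hv : ∀ i, IsSep (v i)) (M : ι → ι → α → β → ℝ) (M0 : ι → ι → ℝ)
    (hM : ∀ i j, SepTendsto l l' (M i j) (M0 i j))
    (hpos : ∀ w : ι → ℝ, w ≠ 0 → 0 < ∑ i, ∑ j, M0 i j * (w i * w j)) :
    ∃ U ∈ l, ∃ V ∈ l', SOSKer U V (fun x y => ∑ i, ∑ j, M i j x y * (v i x y * v j x y)) := by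
  classical
  obtain ⟨c, hc, hcoer⟩ := exists_coercive M0 hpos
  choose T hT p q hpq hab using fun i j => (hM i j).centred
  set card : ℝ := ∑ i, ∑ j, (Fintype.card (T i j) : ℝ) + 1 with hcard
  have hcardpos : 0 < card := by
    have : 0 ≤ ∑ i, ∑ j, (Fintype.card (T i j) : ℝ) :=
      Finset.sum_nonneg fun i _ => Finset.sum_nonneg fun j _ => Nat.cast_nonneg _
    linarith
  set δ := c / card with hδdef
  have hδ : 0 < δ := div_pos hc hcardpos
  choose a b ha hb habp hpev hqev using fun i j => hab i j δ hδ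
  set U : Set α := {x | ∀ i j t, |p i j t x| ≤ a i j t}
  set V : Set β := {y | ∀ i j t, |q i j t y| ≤ b i j t}
  have hU : U ∈ l := eventually_all.mpr fun i => eventually_all.mpr fun j =>
    eventually_all.mpr fun t => hpev i j t
  have hV : V ∈ l' := eventually_all.mpr fun i => eventually_all.mpr fun j =>
    eventually_all.mpr fun t => hqev i j t
  refine ⟨U, hU, V, hV, ?_⟩
  -- the corrections
  set D : ι → ℝ := fun k => ∑ i, ∑ j, (Fintype.card (T i j) : ℝ) *
    (δ / 2 * ((if i = k then 1 else 0) + (if j = k then 1 else 0))) with hD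
  set A : Matrix ι ι ℝ := fun i j => (M0 i j + M0 j i) / 2 - (if i = j then D i else 0) with hA
  have hDle : ∀ k, D k ≤ c := by
    intro k
    have h1 : D k ≤ ∑ i, ∑ j, (Fintype.card (T i j) : ℝ) * δ := by
      refine Finset.sum_le_sum fun i _ => Finset.sum_le_sum fun j _ => ?_
      refine mul_le_mul_of_nonneg_left ?_ (Nat.cast_nonneg _)
      split_ifs <;> linarith
    have h2 : ∑ i, ∑ j, (Fintype.card (T i j) : ℝ) * δ = (card - 1) * δ := by
      simp [hcard, Finset.sum_mul]
    have h3 : card * δ = c := by rw [hδdef]; field_simp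
    nlinarith
  have hsym : ∀ w : ι → ℝ, ∑ i, ∑ j, (M0 i j + M0 j i) / 2 * (w i * w j)
      = ∑ i, ∑ j, M0 i j * (w i * w j) := by
    intro w
    have hswap : ∑ i, ∑ j, M0 j i * (w i * w j) = ∑ i, ∑ j, M0 i j * (w i * w j) := by
      rw [Finset.sum_comm]
      exact Finset.sum_congr rfl fun i _ => Finset.sum_congr rfl fun j _ => by ring
    calc _ = ((∑ i, ∑ j, M0 i j * (w i * w j)) + ∑ i, ∑ j, M0 j i * (w i * w j)) / 2 := by
          rw [← Finset.sum_add_distrib, Finset.sum_div]
          refine Finset.sum_congr rfl fun i _ => ?_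
          rw [← Finset.sum_add_distrib, Finset.sum_div]
          exact Finset.sum_congr rfl fun j _ => by ring
      _ = _ := by rw [hswap]; ring
  have hAform : ∀ w : ι → ℝ, ∑ i, ∑ j, A i j * (w i * w j)
      = (∑ i, ∑ j, M0 i j * (w i * w j)) - ∑ k, D k * w k ^ 2 := by
    intro w
    rw [← hsym w, ← Finset.sum_sub_distrib]
    refine Finset.sum_congr rfl fun i _ => ?_
    have : D i * w i ^ 2 = ∑ j, (if i = j then D i else 0) * (w i * w j) := by
      simp [sq]
    rw [this, ← Finset.sum_sub_distrib]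
    refine Finset.sum_congr rfl fun j _ => ?_
    simp only [hA]
    ring
  have hApsd : A.PosSemidef := by
    refine Matrix.PosSemidef.of_dotProduct_mulVec_nonneg ?_ ?_
    · ext i j
      show star (A j i) = A i j
      simp only [star_trivial, hA]
      by_cases hij : i = j
      · subst hij; rfl
      · rw [if_neg hij, if_neg (Ne.symm hij)]; ring
    · intro w
      have hval : star w ⬝ᵥ A *ᵥ w = ∑ i, ∑ j, A i j * (w i * w j) := by
        simp only [dotProduct, Matrix.mulVec, Pi.star_apply, star_trivial, Finset.mul_sum]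
        exact Finset.sum_congr rfl fun i _ => Finset.sum_congr rfl fun j _ => by ring
      rw [hval, hAform]
      have : ∑ k, D k * w k ^ 2 ≤ c * ∑ i, w i ^ 2 := by
        rw [Finset.mul_sum]
        exact Finset.sum_le_sum fun k _ => mul_le_mul_of_nonneg_right (hDle k) (sq_nonneg _)
      linarith [hcoer w]
  have hsepAdd : ∀ i j, IsSep (fun x y => v i x y + v j x y) := by
    intro i j
    obtain ⟨K, _, f, g, h1⟩ := hv i
    obtain ⟨K', _, f', g', h2⟩ := hv j
    exact ⟨K ⊕ K', inferInstance, Sum.elim f f', Sum.elim g g', fun x y => by simp [h1, h2]⟩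
  have hsepSub : ∀ i j, IsSep (fun x y => v i x y - v j x y) := by
    intro i j
    obtain ⟨K, _, f, g, h1⟩ := hv i
    obtain ⟨K', _, f', g', h2⟩ := hv j
    exact ⟨K ⊕ K', inferInstance, Sum.elim f f', Sum.elim g (fun k y => -g' k y),
      fun x y => by simp [h1, h2, sub_eq_add_neg]⟩
  -- each small product, padded by `δ/2 (v_i² + v_j²)`
  have hterm : ∀ i j (t : T i j), SOSKer U V (fun x y =>
      p i j t x * q i j t y * (v i x y * v j x y) + δ / 2 * (v i x y ^ 2 + v j x y ^ 2)) := by
    intro i j t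
    have hap : ∀ x ∈ U, 0 ≤ (a i j t + p i j t x) / 8 ∧ 0 ≤ (a i j t - p i j t x) / 8 := by
      intro x hx
      have := abs_le.mp (hx i j t)
      constructor <;> linarith
    have hbq : ∀ y ∈ V, 0 ≤ b i j t + q i j t y ∧ 0 ≤ b i j t - q i j t y := by
      intro y hy
      have := abs_le.mp (hy i j t)
      constructor <;> linarith
    have e1 := (SOSKer.sq (U := U) (V := V) (hsepAdd i j)).weight
      (fun x hx => (hap x hx).1) (fun y hy => (hbq y hy).1)
    have e2 := (SOSKer.sq (U := U) (V := V) (hsepAdd i j)).weight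
      (fun x hx => (hap x hx).2) (fun y hy => (hbq y hy).2)
    have e3 := (SOSKer.sq (U := U) (V := V) (hsepSub i j)).weight
      (fun x hx => (hap x hx).1) (fun y hy => (hbq y hy).2)
    have e4 := (SOSKer.sq (U := U) (V := V) (hsepSub i j)).weight
      (fun x hx => (hap x hx).2) (fun y hy => (hbq y hy).1)
    refine (((e1.add e2).add e3).add e4).congr fun x _ y _ => ?_
    rw [← habp i j t]
    ring
  have hq := SOSKer.quadratic (U := U) (V := V) hApsd hv
  refine (hq.add (SOSKer.sum Finset.univ fun i _ => SOSKer.sum Finset.univ fun j _ =>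
    SOSKer.sum Finset.univ fun t _ => hterm i j t)).congr fun x _ y _ => ?_
  rw [hAform (fun i => v i x y)]
  have hDsum : ∑ k, D k * v k x y ^ 2
      = ∑ i, ∑ j, ∑ _t : T i j, δ / 2 * (v i x y ^ 2 + v j x y ^ 2) := by
    simp only [hD, Finset.sum_mul, Finset.sum_const, Finset.card_univ, nsmul_eq_mul]
    rw [Finset.sum_comm]
    refine Finset.sum_congr rfl fun i _ => ?_
    rw [Finset.sum_comm]
    refine Finset.sum_congr rfl fun j _ => ?_
    simp [mul_add, add_mul, Finset.sum_add_distrib, mul_assoc]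
  rw [hDsum]
  simp only [Finset.sum_add_distrib, hpq, add_mul, Finset.sum_mul]
  ring

/-- A separable kernel with positive limit factorises nearby. -/
theorem exists_SOSKer_pos {l : Filter α} {l' : Filter β} {F : α → β → ℝ} {c : ℝ}
    (hF : SepTendsto l l' F c) (hc : 0 < c) :
    ∃ U ∈ l, ∃ V ∈ l', SOSKer U V F := by
  have h1 : IsSep (fun (_ : α) (_ : β) => (1 : ℝ)) :=
    (SepTendsto.const (l := l) (l' := l') 1).isSep
  obtain ⟨U, hU, V, hV, h⟩ := exists_SOSKer_gram (ι := Unit) (fun _ => fun _ _ => (1 : ℝ))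
    (fun _ => h1) (fun _ _ => F) (fun _ _ => c) (fun _ _ => hF) (by
      intro w hw
      have : w () ≠ 0 := fun h0 => hw (funext fun _ => h0)
      simp only [Fintype.univ_punit, Finset.sum_singleton]
      exact mul_pos hc (mul_self_pos.mpr this))
  exact ⟨U, hU, V, hV, h.congr fun x _ y _ => by simp⟩

end Vale.Agent.P256
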