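import Mathlib
import Vale.Agent.P256.Defs
import Vale.Agent.P256.Sep

/-!
Elementary calculus of real multivariate polynomials along lines.
-/

namespace Vale.Agent.P256

open MvPolynomial Filter Topology

variable {n : ℕ}

/-- the univariate polynomial `t ↦ q(x + t v)`. -/
noncomputable def line (q : MvPolynomial (Fin n) ℝ) (x v : Fin n → ℝ) : Polynomial ℝ :=
  MvPolynomial.aeval (fun i => Polynomial.C (x i) + Polynomial.C (v i) * Polynomial.X) q

/-- directional derivative. -/
noncomputable def dd (q : MvPolynomial (Fin n) ℝ) (x v : Fin n → ℝ) : ℝ :=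
  ∑ i, v i * MvPolynomial.eval x (MvPolynomial.pderiv i q)

theorem eval_smul_of_isHomogeneous {R : Type*} [CommSemiring R] {q : MvPolynomial (Fin n) R}
    {k : ℕ} (hq : q.IsHomogeneous k) (c : R) (v : Fin n → R) :
    MvPolynomial.eval (c • v) q = c ^ k * MvPolynomial.eval v q := by
  rw [MvPolynomial.eval_eq, MvPolynomial.eval_eq, Finset.mul_sum]
  refine Finset.sum_congr rfl fun s hs => ?_
  have hdeg : ∑ i ∈ s.support, s i = k := by
    have := hq (MvPolynomial.mem_support_iff.mp hs)
    simpa [Finsupp.weight_apply, Finsupp.sum] using this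
  simp only [Pi.smul_apply, smul_eq_mul, mul_pow, Finset.prod_mul_distrib,
    Finset.prod_pow_eq_pow_sum, hdeg]
  ring

theorem eval_shiftPoly (a s : Fin n → ℝ) (q : MvPolynomial (Fin n) ℝ) :
    MvPolynomial.eval s (shiftPoly a q) = MvPolynomial.eval (a + s) q := by
  induction q using MvPolynomial.induction_on with
  | C c => simp [shiftPoly]
  | add p q hp hq =>
    simp only [shiftPoly] at hp hq ⊢
    rw [map_add, map_add, map_add, hp, hq]
  | mul_X p i hp =>
    simp only [shiftPoly] at hp ⊢
    rw [map_mul, map_mul, map_mul, hp, MvPolynomial.aeval_X]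
    simp

theorem eval_line (q : MvPolynomial (Fin n) ℝ) (x v : Fin n → ℝ) (t : ℝ) :
    (line q x v).eval t = MvPolynomial.eval (x + t • v) q := by
  induction q using MvPolynomial.induction_on with
  | C c => simp [line]
  | add p q hp hq =>
    simp only [line] at hp hq
    simp [line, hp, hq]
  | mul_X p i hp =>
    simp only [line] at hp
    simp [line, hp, mul_comm t (v i)]

theorem coeff_line (q : MvPolynomial (Fin n) ℝ) (x v : Fin n → ℝ) (k : ℕ) :
    (line q x v).coeff k = MvPolynomial.eval v (homogeneousComponent k (shiftPoly x q)) := by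
  set S := shiftPoly x q
  set D := S.totalDegree
  have h : line q x v = ∑ j ∈ Finset.range (D + 1),
      Polynomial.monomial j (MvPolynomial.eval v (homogeneousComponent j S)) := by
    refine Polynomial.funext fun t => ?_
    rw [eval_line, ← eval_shiftPoly x (t • v) q]
    show MvPolynomial.eval (t • v) S = _
    conv_lhs => rw [← MvPolynomial.sum_homogeneousComponent S]
    simp only [map_sum, Polynomial.eval_finsetSum, Polynomial.eval_monomial]
    refine Finset.sum_congr rfl fun j _ => ?_
    rw [eval_smul_of_isHomogeneous (homogeneousComponent_isHomogeneous j S)]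
    ring
  rw [h, Polynomial.finsetSum_coeff]
  simp only [Polynomial.coeff_monomial]
  rw [Finset.sum_ite_eq' (Finset.range (D + 1)) k]
  by_cases hk : k ∈ Finset.range (D + 1)
  · rw [if_pos hk]
  · rw [if_neg hk, homogeneousComponent_eq_zero _ _ (by
      simp only [Finset.mem_range] at hk
      omega)]
    simp

theorem coeff_line_zero (q : MvPolynomial (Fin n) ℝ) (x v : Fin n → ℝ) :
    (line q x v).coeff 0 = MvPolynomial.eval x q := by
  rw [Polynomial.coeff_zero_eq_eval_zero, eval_line]
  simp

theorem coeff_line_one (q : MvPolynomial (Fin n) ℝ) (x v : Fin n → ℝ) :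
    (line q x v).coeff 1 = dd q x v := by
  induction q using MvPolynomial.induction_on with
  | C c => simp [line, dd]
  | add p q hp hq =>
    have : line (p + q) x v = line p x v + line q x v := by simp [line]
    rw [this, Polynomial.coeff_add, hp, hq]
    simp [dd, mul_add, Finset.sum_add_distrib]
  | mul_X p i hp =>
    have hl : line (p * MvPolynomial.X i) x v
        = line p x v * (Polynomial.C (x i) + Polynomial.C (v i) * Polynomial.X) := by
      simp [line]
    rw [hl, mul_add, Polynomial.coeff_add, Polynomial.coeff_mul_C, ← mul_assoc,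
      Polynomial.coeff_mul_X, Polynomial.coeff_mul_C, hp, coeff_line_zero]
    classical
    simp only [dd, MvPolynomial.pderiv_mul, MvPolynomial.pderiv_X, map_add, map_mul,
      MvPolynomial.eval_X, mul_add, Finset.sum_add_distrib, Finset.sum_mul]
    congr 1
    · exact Finset.sum_congr rfl fun j _ => by ring
    · rw [Finset.sum_eq_single i]
      · simp; ring
      · intro j _ hj
        simp [Ne.symm hj]
      · simp

theorem exists_coeff_line_poly (q : MvPolynomial (Fin n) ℝ) (v : Fin n → ℝ) :
    ∀ k, ∃ P : MvPolynomial (Fin n) ℝ, ∀ x, (line q x v).coeff k = MvPolynomial.eval x P := by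
  induction q using MvPolynomial.induction_on with
  | C c =>
    intro k
    exact ⟨if k = 0 then MvPolynomial.C c else 0, fun x => by
      by_cases hk : k = 0 <;> simp [line, Polynomial.coeff_C, hk]⟩
  | add p q hp hq =>
    intro k
    obtain ⟨P, hP⟩ := hp k
    obtain ⟨Q, hQ⟩ := hq k
    refine ⟨P + Q, fun x => ?_⟩
    have : line (p + q) x v = line p x v + line q x v := by simp [line]
    rw [this, Polynomial.coeff_add, hP, hQ, map_add]
  | mul_X p i hp =>
    intro k
    have hl : ∀ x, line (p * MvPolynomial.X i) x v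
        = line p x v * (Polynomial.C (x i) + Polynomial.C (v i) * Polynomial.X) := by
      intro x; simp [line]
    obtain ⟨P, hP⟩ := hp k
    cases k with
    | zero =>
      refine ⟨P * MvPolynomial.X i, fun x => ?_⟩
      rw [hl, Polynomial.mul_coeff_zero, hP]
      simp
    | succ k =>
      obtain ⟨Q, hQ⟩ := hp k
      refine ⟨P * MvPolynomial.X i + Q * MvPolynomial.C (v i), fun x => ?_⟩
      rw [hl, mul_add, Polynomial.coeff_add, Polynomial.coeff_mul_C, ← mul_assoc,
        Polynomial.coeff_mul_X, Polynomial.coeff_mul_C, hP, hQ]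
      simp

theorem continuous_coeff_line (q : MvPolynomial (Fin n) ℝ) (v : Fin n → ℝ) (k : ℕ) :
    Continuous (fun x => (line q x v).coeff k) := by
  obtain ⟨P, hP⟩ := exists_coeff_line_poly q v k
  simp only [hP]
  exact MvPolynomial.continuous_eval P

theorem continuous_dd (q : MvPolynomial (Fin n) ℝ) :
    Continuous (fun z : (Fin n → ℝ) × (Fin n → ℝ) => dd q z.1 z.2) := by
  refine continuous_finsetSum _ fun i _ => ?_
  exact ((continuous_apply i).comp continuous_snd).mul
    ((MvPolynomial.continuous_eval _).comp continuous_fst)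

theorem dd_add (q : MvPolynomial (Fin n) ℝ) (x v w : Fin n → ℝ) :
    dd q x (v + w) = dd q x v + dd q x w := by
  simp [dd, add_mul, Finset.sum_add_distrib]

theorem dd_smul (q : MvPolynomial (Fin n) ℝ) (x v : Fin n → ℝ) (c : ℝ) :
    dd q x (c • v) = c * dd q x v := by
  simp [dd, Finset.mul_sum, mul_assoc]

theorem dd_sub (q : MvPolynomial (Fin n) ℝ) (x v w : Fin n → ℝ) :
    dd q x (v - w) = dd q x v - dd q x w := by
  simp [dd, sub_mul, Finset.sum_sub_distrib]

/-- derivative of the value along a line through the coefficient identity. -/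
theorem dd_eq_of_eval_line {q : MvPolynomial (Fin n) ℝ} {x v : Fin n → ℝ} (F : Polynomial ℝ)
    (h : ∀ t, MvPolynomial.eval (x + t • v) q = F.eval t) : dd q x v = F.coeff 1 := by
  have : line q x v = F := Polynomial.funext fun t => by rw [eval_line, h]
  rw [← coeff_line_one, this]

theorem euler {q : MvPolynomial (Fin n) ℝ} {d : ℕ} (hq : q.IsHomogeneous d) (y : Fin n → ℝ) :
    dd q y y = d * MvPolynomial.eval y q := by
  rw [dd_eq_of_eval_line ((Polynomial.C (MvPolynomial.eval y q)) * (Polynomial.X + 1) ^ d)]
  · rw [Polynomial.coeff_C_mul, Polynomial.coeff_X_add_one_pow]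
    simp; ring
  · intro t
    rw [show y + t • y = (t + 1) • y by rw [add_smul, one_smul, add_comm],
      eval_smul_of_isHomogeneous hq]
    simp; ring

theorem line_shift (q : MvPolynomial (Fin n) ℝ) (x v : Fin n → ℝ) (c : ℝ)
    (h : line q x v = 0) : line q (x + c • v) v = 0 := by
  refine Polynomial.funext fun t => ?_
  rw [eval_line, show x + c • v + t • v = x + (c + t) • v by rw [add_smul, add_assoc],
    ← eval_line, h]
  simp

theorem totalDegree_shiftPoly_le (a : Fin n → ℝ) (q : MvPolynomial (Fin n) ℝ) :
    (shiftPoly a q).totalDegree ≤ q.totalDegree := by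
  have hfac : ∀ i, (MvPolynomial.C (a i) + MvPolynomial.X i :
      MvPolynomial (Fin n) ℝ).totalDegree ≤ 1 := fun i => by
    refine le_trans (MvPolynomial.totalDegree_add _ _) ?_
    simp [MvPolynomial.totalDegree_X]
  rw [shiftPoly, MvPolynomial.aeval_def, MvPolynomial.eval₂_eq]
  refine le_trans (MvPolynomial.totalDegree_finsetSum _ _) (Finset.sup_le fun b hb => ?_)
  refine le_trans (MvPolynomial.totalDegree_mul _ _) ?_
  refine le_trans (add_le_add (b := 0) (le_of_eq (by simp [MvPolynomial.algebraMap_eq]))
    (MvPolynomial.totalDegree_finsetProd _ _)) ?_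
  rw [zero_add]
  refine le_trans (Finset.sum_le_sum fun i _ => le_trans (MvPolynomial.totalDegree_pow _ _)
    (Nat.mul_le_mul_left _ (hfac i))) ?_
  simp only [mul_one]
  exact MvPolynomial.le_totalDegree hb

/-- Taylor expansion with separable remainder. -/
theorem exists_taylor {N : ℕ} (q : MvPolynomial (Fin N) ℝ) :
    ∃ M : Fin N → Fin N → (Fin N → ℝ) → (Fin N → ℝ) → ℝ,
      (∀ i j, Continuous fun z : (Fin N → ℝ) × (Fin N → ℝ) => M i j z.1 z.2) ∧
      (∀ (α β : Type) (l : Filter α) (l' : Filter β) (cx : α → Fin N → ℝ) (cy : β → Fin N → ℝ)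
        (x0 y0 : Fin N → ℝ), Tendsto cx l (𝓝 x0) → Tendsto cy l' (𝓝 y0) →
        ∀ i j, SepTendsto l l' (fun x y => M i j (cy y) (cx x)) (M i j y0 x0)) ∧
      ∀ w0 w, MvPolynomial.eval w q = MvPolynomial.eval w0 q + dd q w0 (w - w0)
        + ∑ i, ∑ j, M i j w0 w * ((w i - w0 i) * (w j - w0 j)) := by
  induction q using MvPolynomial.induction_on with
  | C c =>
    refine ⟨fun _ _ _ _ => 0, fun _ _ => continuous_const, ?_, ?_⟩
    · exact fun α β l l' cx cy x0 y0 _ _ _ _ => SepTendsto.const 0
    · intro w0 w; simp [dd]
  | add p q hp hq =>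
    obtain ⟨M, hMc, hMs, hM⟩ := hp
    obtain ⟨M', hMc', hMs', hM'⟩ := hq
    refine ⟨fun i j a b => M i j a b + M' i j a b, fun i j => (hMc i j).add (hMc' i j), ?_, ?_⟩
    · intro α β l l' cx cy x0 y0 hx hy i j
      exact (hMs α β l l' cx cy x0 y0 hx hy i j).add (hMs' α β l l' cx cy x0 y0 hx hy i j)
    · intro w0 w
      have hdd : dd (p + q) w0 (w - w0) = dd p w0 (w - w0) + dd q w0 (w - w0) := by
        simp [dd, mul_add, Finset.sum_add_distrib]
      rw [map_add, hM w0 w, hM' w0 w, hdd, map_add]
      simp only [add_mul, Finset.sum_add_distrib]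
      ring
  | mul_X p k hp =>
    obtain ⟨M, hMc, hMs, hM⟩ := hp
    classical
    refine ⟨fun i j a b => M i j a b * b k
        + if j = k then MvPolynomial.eval a (MvPolynomial.pderiv i p) else 0, ?_, ?_, ?_⟩
    · intro i j
      refine ((hMc i j).mul ((continuous_apply k).comp continuous_snd)).add ?_
      split_ifs
      · exact (MvPolynomial.continuous_eval _).comp continuous_fst
      · exact continuous_const
    · intro α β l l' cx cy x0 y0 hx hy i j
      refine ((hMs α β l l' cx cy x0 y0 hx hy i j).mul
        (SepTendsto.of_left ((tendsto_pi_nhds.mp hx) k))).add ?_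
      split_ifs
      · exact SepTendsto.of_right (((MvPolynomial.continuous_eval _).tendsto y0).comp hy)
      · exact SepTendsto.const 0
    · intro w0 w
      have hdd : dd (p * MvPolynomial.X k) w0 (w - w0)
          = dd p w0 (w - w0) * w0 k + MvPolynomial.eval w0 p * (w k - w0 k) := by
        have hsum : ∑ i, (w - w0) i * (MvPolynomial.eval w0 p
            * MvPolynomial.eval w0 (MvPolynomial.pderiv i (MvPolynomial.X k)))
            = MvPolynomial.eval w0 p * (w k - w0 k) := by
          rw [Finset.sum_eq_single k]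
          · simp [mul_comm]
          · intro j _ hj
            simp [Ne.symm hj]
          · simp
        simp only [dd, MvPolynomial.pderiv_mul, map_add, map_mul, MvPolynomial.eval_X, mul_add,
          Finset.sum_add_distrib, Finset.sum_mul]
        rw [hsum]
        simp only [Pi.sub_apply, mul_assoc]
      have hq : ∑ i, ∑ j, (M i j w0 w * w k
          + if j = k then MvPolynomial.eval w0 (MvPolynomial.pderiv i p) else 0)
            * ((w i - w0 i) * (w j - w0 j))
          = (∑ i, ∑ j, M i j w0 w * ((w i - w0 i) * (w j - w0 j))) * w k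
            + dd p w0 (w - w0) * (w k - w0 k) := by
        simp only [add_mul, Finset.sum_add_distrib, dd, Finset.sum_mul]
        congr 1
        · exact Finset.sum_congr rfl fun i _ => Finset.sum_congr rfl fun j _ => by ring
        · refine Finset.sum_congr rfl fun i _ => ?_
          simp [ite_mul, Finset.sum_ite_eq']
          ring
      rw [hdd, hq, map_mul, map_mul, MvPolynomial.eval_X, MvPolynomial.eval_X, hM w0 w]
      ring

/-- the limiting quadratic form of the Taylor remainder is the second coefficient of the line. -/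
theorem taylor_diag {N : ℕ} (q : MvPolynomial (Fin N) ℝ)
    (M : Fin N → Fin N → (Fin N → ℝ) → (Fin N → ℝ) → ℝ)
    (hMc : ∀ i j, Continuous fun z : (Fin N → ℝ) × (Fin N → ℝ) => M i j z.1 z.2)
    (hM : ∀ w0 w, MvPolynomial.eval w q = MvPolynomial.eval w0 q + dd q w0 (w - w0)
        + ∑ i, ∑ j, M i j w0 w * ((w i - w0 i) * (w j - w0 j)))
    (x v : Fin N → ℝ) :
    ∑ i, ∑ j, M i j x x * (v i * v j) = (line q x v).coeff 2 := by
  set P := line q x v with hP
  set G : ℝ → ℝ := fun t => ∑ i, ∑ j, M i j x (x + t • v) * (v i * v j)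
  set H : ℝ → ℝ := fun t => (P.divX.divX).eval t
  have hG : Continuous G := by
    refine continuous_finsetSum _ fun i _ => continuous_finsetSum _ fun j _ => ?_
    exact ((hMc i j).comp (continuous_const.prodMk (by fun_prop))).mul continuous_const
  have hH : Continuous H := (P.divX.divX).continuous
  have key : ∀ t : ℝ, t ≠ 0 → G t = H t := by
    intro t ht
    have e1 : P.eval t = P.coeff 0 + t * (P.coeff 1 + t * H t) := by
      conv_lhs => rw [← Polynomial.X_mul_divX_add P, ← Polynomial.X_mul_divX_add P.divX]
      simp [H]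
      ring
    have e2 : P.eval t = P.coeff 0 + t * P.coeff 1 + t ^ 2 * G t := by
      rw [hP, eval_line, coeff_line_zero, coeff_line_one, hM x (x + t • v)]
      simp only [G, Finset.mul_sum, add_sub_cancel_left, dd_smul, Pi.add_apply, Pi.smul_apply,
        smul_eq_mul]
      congr 1
      exact Finset.sum_congr rfl fun i _ => Finset.sum_congr rfl fun j _ => by ring
    have : t ^ 2 * G t = t ^ 2 * H t := by linear_combination e2.symm.trans e1
    exact mul_left_cancel₀ (pow_ne_zero 2 ht) this
  have : G 0 = H 0 := congrFun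
    (Continuous.ext_on (dense_compl_singleton (0 : ℝ)) hG hH fun t ht => key t ht) 0
  simp only [G, H, zero_smul, add_zero] at this
  rw [this, ← Polynomial.coeff_zero_eq_eval_zero]
  simp [Polynomial.coeff_divX]

end Vale.Agent.P256
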