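import Mathlib
import Vale.Agent.P256.Poly

/-!
Curvature of the boundary of a cone on which a polynomial satisfies the real-rootedness
inequalities. Used both for the hyperbolicity cone and for its localisations.
-/

namespace Vale.Agent.P256

open MvPolynomial Filter Topology

variable {n : ℕ}

/-- The properties of a (localised) hyperbolicity cone used below. -/
structure ConePair (m : ℕ) (q : MvPolynomial (Fin n) ℝ) (e : Fin n → ℝ) (C : Set (Fin n → ℝ)) :
    Prop where
  hom : q.IsHomogeneous m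
  isClosed : IsClosed C
  add_mem : ∀ x ∈ C, ∀ y ∈ C, x + y ∈ C
  smul_mem : ∀ c : ℝ, 0 ≤ c → ∀ x ∈ C, c • x ∈ C
  e_nhds : C ∈ 𝓝 e
  nonneg : ∀ x ∈ C, 0 ≤ MvPolynomial.eval x q
  pos_add : ∀ x ∈ C, ∀ t : ℝ, 0 < t → 0 < MvPolynomial.eval (x + t • e) q
  nhds_mem : ∀ x ∈ C, 0 < MvPolynomial.eval x q → C ∈ 𝓝 x
  mono : ∃ K, ∀ x ∈ C, ∀ w ∈ C, MvPolynomial.eval w q ≤ K * MvPolynomial.eval (x + w) q
  ineq2 : ∀ x ∈ C, 0 < MvPolynomial.eval x q → ∀ v,
    0 ≤ (line q x v).coeff 1 ^ 2 - 2 * (line q x v).coeff 0 * (line q x v).coeff 2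
  ineqk : ∀ k, 1 ≤ k → ∃ K, ∀ x ∈ C, 0 < MvPolynomial.eval x q → ∀ v,
    (line q x v).coeff k ^ 2 * (line q x v).coeff 0 ^ (2 * k) ≤ K * (line q x v).coeff 0 ^ 2 *
      ((line q x v).coeff 1 ^ 2 - 2 * (line q x v).coeff 0 * (line q x v).coeff 2) ^ k

/-- A continuous function which is nonnegative just to the right of `0` is nonnegative at `0`. -/
theorem nonneg_at_zero {G : ℝ → ℝ} (hG : Continuous G) (h : ∀ᶠ t in 𝓝[>] (0 : ℝ), 0 ≤ G t) :
    0 ≤ G 0 :=
  ge_of_tendsto ((hG.tendsto 0).mono_left nhdsWithin_le_nhds) h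

/-- The lowest coefficient of a polynomial nonnegative just to the right of `0`. -/
theorem coeff_nonneg_of_low {P : Polynomial ℝ} {m : ℕ} (hlow : ∀ j < m, P.coeff j = 0)
    (h : ∀ᶠ t in 𝓝[>] (0 : ℝ), 0 ≤ P.eval t) : 0 ≤ P.coeff m := by
  obtain ⟨Q, rfl⟩ := Polynomial.X_pow_dvd_iff.mpr hlow
  have e := Polynomial.coeff_X_pow_mul Q m 0
  rw [zero_add] at e
  rw [e, Polynomial.coeff_zero_eq_eval_zero]
  refine nonneg_at_zero Q.continuous ?_
  filter_upwards [h, self_mem_nhdsWithin] with t ht ht0
  have ht0 : (0 : ℝ) < t := ht0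
  rw [Polynomial.eval_mul, Polynomial.eval_pow, Polynomial.eval_X] at ht
  exact nonneg_of_mul_nonneg_right ht (pow_pos ht0 m)

namespace ConePair

variable {m : ℕ} {q : MvPolynomial (Fin n) ℝ} {e : Fin n → ℝ} {C : Set (Fin n → ℝ)}

theorem dd_nonneg (H : ConePair m q e C) {s w : Fin n → ℝ} (hs : s ∈ C)
    (hq : MvPolynomial.eval s q = 0) (hw : w ∈ C) : 0 ≤ dd q s w := by
  rw [← coeff_line_one]
  refine coeff_nonneg_of_low ?_ ?_
  · intro j hj
    rw [show j = 0 by omega, coeff_line_zero, hq]
  · filter_upwards [self_mem_nhdsWithin] with t ht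
    have ht : (0 : ℝ) < t := ht
    rw [eval_line]
    exact H.nonneg _ (H.add_mem s hs _ (H.smul_mem t ht.le w hw))

theorem exists_ball (H : ConePair m q e C) (w : Fin n → ℝ) :
    ∃ η > (0 : ℝ), e + η • w ∈ C ∧ e - η • w ∈ C := by
  have hc1 : Continuous fun η : ℝ => e + η • w := by fun_prop
  have hc2 : Continuous fun η : ℝ => e - η • w := by fun_prop
  have h1 : ∀ᶠ η in 𝓝 (0 : ℝ), e + η • w ∈ C :=
    (hc1.tendsto 0).eventually (by simpa using H.e_nhds)
  have h2 : ∀ᶠ η in 𝓝 (0 : ℝ), e - η • w ∈ C :=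
    (hc2.tendsto 0).eventually (by simpa using H.e_nhds)
  obtain ⟨η, ⟨ha, hb⟩, hη⟩ := (((h1.and h2).filter_mono nhdsWithin_le_nhds).and
    (self_mem_nhdsWithin (a := (0 : ℝ)) (s := Set.Ioi 0))).exists
  exact ⟨η, hη, ha, hb⟩

theorem dd_pos (H : ConePair m q e C) {s : Fin n → ℝ} (hs : s ∈ C)
    (hq : MvPolynomial.eval s q = 0) {w : Fin n → ℝ} (hw : dd q s w ≠ 0) :
    0 < dd q s e := by
  obtain ⟨η, hη, h1, h2⟩ := H.exists_ball w
  have a1 := H.dd_nonneg hs hq h1
  have a2 := H.dd_nonneg hs hq h2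
  rw [dd_add, dd_smul] at a1
  rw [dd_sub, dd_smul] at a2
  by_contra hle
  push Not at hle
  have : η * dd q s w = 0 := by linarith
  exact hw ((mul_eq_zero.mp this).resolve_left hη.ne')

/-- second order behaviour along a tangent line at a point where the gradient is nonzero. -/
theorem second_order (H : ConePair m q e C) {s v : Fin n → ℝ} (hs : s ∈ C)
    (hq : MvPolynomial.eval s q = 0) (he : 0 < dd q s e) (hv : dd q s v = 0) :
    (line q s v).coeff 2 ≤ 0 ∧
      ((line q s v).coeff 2 = 0 →
        line q s v = 0 ∧ ∃ δ > 0, ∀ τ : ℝ, |τ| < δ → s + τ • v ∈ C) := by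
  choose P hP using exists_coeff_line_poly q v
  -- `A k t` is the coefficient of order `k` along `v` at `s + t e`
  set A : ℕ → Polynomial ℝ := fun k => line (P k) s e with hA
  have hAe : ∀ k t, (A k).eval t = (line q (s + t • e) v).coeff k := by
    intro k t
    rw [hA, eval_line, hP]
  have hA0 : ∀ k, (A k).coeff 0 = (line q s v).coeff k := by
    intro k
    rw [Polynomial.coeff_zero_eq_eval_zero, hAe]
    simp
  set B : ℕ → ℝ → ℝ := fun k t => (A k).divX.eval t with hB
  have hBc : ∀ k, Continuous (B k) := fun k => (A k).divX.continuous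
  have hAB : ∀ k t, (A k).eval t = t * B k t + (A k).coeff 0 := by
    intro k t
    have := congrArg (Polynomial.eval t) (Polynomial.X_mul_divX_add (A k))
    simp only [Polynomial.eval_add, Polynomial.eval_mul, Polynomial.eval_X,
      Polynomial.eval_C] at this
    exact this.symm
  have h00 : (A 0).coeff 0 = 0 := by rw [hA0, coeff_line_zero, hq]
  have h10 : (A 1).coeff 0 = 0 := by rw [hA0, coeff_line_one, hv]
  have hA0line : A 0 = line q s e := Polynomial.funext fun t => by
    rw [hAe, coeff_line_zero, eval_line]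
  have hB00 : B 0 0 = dd q s e := by
    simp only [hB]
    rw [← Polynomial.coeff_zero_eq_eval_zero, Polynomial.coeff_divX, hA0line, coeff_line_one]
  have hpos : ∀ t : ℝ, 0 < t → s + t • e ∈ C ∧ 0 < MvPolynomial.eval (s + t • e) q :=
    fun t ht => ⟨H.add_mem s hs _ (H.smul_mem t ht.le e (mem_of_mem_nhds H.e_nhds)),
      H.pos_add s hs t ht⟩
  have h2le : (A 2).coeff 0 ≤ 0 := by
    have hG : Continuous fun t => t * B 1 t ^ 2 - 2 * B 0 t * (A 2).eval t :=
      (continuous_id.mul ((hBc 1).pow 2)).sub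
        ((continuous_const.mul (hBc 0)).mul (A 2).continuous)
    have := nonneg_at_zero hG (by
      filter_upwards [self_mem_nhdsWithin] with t ht
      have ht : (0 : ℝ) < t := ht
      have h := H.ineq2 _ (hpos t ht).1 (hpos t ht).2 v
      simp only [← hAe] at h
      rw [hAB 1, hAB 0, h00, h10, add_zero, add_zero] at h
      exact nonneg_of_mul_nonneg_right
        (show 0 ≤ t * (t * B 1 t ^ 2 - 2 * B 0 t * (A 2).eval t) by linarith [h]) ht)
    simp only [zero_mul, zero_sub, hB00, ← Polynomial.coeff_zero_eq_eval_zero] at this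
    nlinarith
  refine ⟨hA0 2 ▸ h2le, fun h2 => ?_⟩
  have h20 : (A 2).coeff 0 = 0 := by rw [hA0, h2]
  have hk : ∀ k, (A k).coeff 0 = 0 := by
    intro k
    rcases Nat.eq_zero_or_pos k with rfl | hk1
    · exact h00
    obtain ⟨K, hK⟩ := H.ineqk k hk1
    have hG : Continuous fun t => K * t ^ 2 * B 0 t ^ 2 * (B 1 t ^ 2 - 2 * B 0 t * B 2 t) ^ k
        - (A k).eval t ^ 2 * B 0 t ^ (2 * k) :=
      (((continuous_const.mul (continuous_id.pow 2)).mul ((hBc 0).pow 2)).mul
        ((((hBc 1).pow 2).sub ((continuous_const.mul (hBc 0)).mul (hBc 2))).pow k)).sub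
        (((A k).continuous.pow 2).mul ((hBc 0).pow (2 * k)))
    have := nonneg_at_zero hG (by
      filter_upwards [self_mem_nhdsWithin] with t ht
      have ht : (0 : ℝ) < t := ht
      have h := hK _ (hpos t ht).1 (hpos t ht).2 v
      simp only [← hAe] at h
      rw [hAB 1, hAB 0, hAB 2, h00, h10, h20, add_zero, add_zero, add_zero] at h
      have e1 : ((t * B 1 t) ^ 2 - 2 * (t * B 0 t) * (t * B 2 t)) ^ k
          = t ^ (2 * k) * (B 1 t ^ 2 - 2 * B 0 t * B 2 t) ^ k := by
        rw [pow_mul, ← mul_pow]; ring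
      rw [e1, mul_pow, mul_pow] at h
      refine nonneg_of_mul_nonneg_right
        (show 0 ≤ t ^ (2 * k) * (K * t ^ 2 * B 0 t ^ 2 * (B 1 t ^ 2 - 2 * B 0 t * B 2 t) ^ k
          - (A k).eval t ^ 2 * B 0 t ^ (2 * k)) by linarith [h]) (pow_pos ht _))
    simp only [ne_eq, OfNat.ofNat_ne_zero, not_false_eq_true, zero_pow, mul_zero, zero_mul,
      zero_sub, hB00, ← Polynomial.coeff_zero_eq_eval_zero] at this
    have h3 : (A k).coeff 0 ^ 2 ≤ 0 := by
      have hp : 0 < dd q s e ^ (2 * k) := pow_pos he _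
      nlinarith
    exact pow_eq_zero_iff two_ne_zero |>.mp (le_antisymm h3 (sq_nonneg _))
  have hline : line q s v = 0 := Polynomial.ext fun k => by
    rw [← hA0, hk, Polynomial.coeff_zero]
  refine ⟨hline, ?_⟩
  -- positivity of `q (s + t e + τ v)` for small `t > 0`, small `τ`
  set D := q.totalDegree
  set F : ℝ × ℝ → ℝ := fun z => ∑ k ∈ Finset.range (D + 1), B k z.1 * z.2 ^ k
  have hF : Continuous F :=
    continuous_finsetSum _ fun k _ => ((hBc k).comp continuous_fst).mul (continuous_snd.pow k)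
  have hF0 : 0 < F (0, 0) := by
    simp only [F]
    rw [Finset.sum_eq_single 0]
    · simpa [hB00] using he
    · intro k _ hk0
      simp [hk0]
    · simp
  obtain ⟨δ, hδ, hball⟩ := Metric.eventually_nhds_iff.mp
    (hF.tendsto (0, 0) |>.eventually (lt_mem_nhds hF0))
  have hdeg : ∀ x, (line q x v).natDegree ≤ D := by
    intro x
    refine Polynomial.natDegree_le_iff_coeff_eq_zero.mpr fun k hk' => ?_
    rw [coeff_line, homogeneousComponent_eq_zero]
    · simp
    · refine lt_of_le_of_lt ?_ hk'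
      refine Finset.sup_le fun b hb => ?_
      exact le_trans (le_trans (MvPolynomial.le_totalDegree hb) (totalDegree_shiftPoly_le x q))
        le_rfl
  refine ⟨δ, hδ, fun τ hτ => ?_⟩
  have hin : ∀ t : ℝ, 0 < t → t < δ → s + t • e + τ • v ∈ C := by
    intro t ht htd
    have hposτ : ∀ σ : ℝ, |σ| < δ → 0 < MvPolynomial.eval (s + t • e + σ • v) q := by
      intro σ hσ
      have hmem : dist (t, σ) ((0 : ℝ), (0 : ℝ)) < δ := by
        rw [Prod.dist_eq]
        simp [abs_of_pos ht, htd, hσ]
      rw [← eval_line, Polynomial.eval_eq_sum_range' (Nat.lt_succ_of_le (hdeg _))]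
      have : ∑ k ∈ Finset.range (D + 1), (line q (s + t • e) v).coeff k * σ ^ k = t * F (t, σ) := by
        simp only [F, Finset.mul_sum]
        exact Finset.sum_congr rfl fun k _ => by rw [← hAe, hAB, hk]; ring
      rw [this]
      exact mul_pos ht (hball hmem)
    -- the set of good `σ` is relatively open and closed
    set J : Set ℝ := {σ | s + t • e + σ • v ∈ C}
    have hcont : Continuous fun σ : ℝ => s + t • e + σ • v := by fun_prop
    have hI : IsPreconnected (Metric.ball (0 : ℝ) δ) := (convex_ball 0 δ).isPreconnected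
    have hne : (Metric.ball (0 : ℝ) δ ∩ interior J).Nonempty := by
      refine ⟨0, by simp [hδ], mem_interior_iff_mem_nhds.mpr ?_⟩
      refine (hcont.tendsto 0).eventually ?_
      have := H.nhds_mem _ (hpos t ht).1 (hpos t ht).2
      simpa using this
    have hsub : Metric.ball (0 : ℝ) δ ⊆ interior J := by
      refine hI.subset_of_closure_inter_subset isOpen_interior hne ?_
      rintro σ ⟨hσ, hσball⟩
      have hσJ : σ ∈ J := by
        have hcl : IsClosed J := H.isClosed.preimage hcont
        exact hcl.closure_subset (closure_mono interior_subset hσ)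
      refine mem_interior_iff_mem_nhds.mpr ?_
      exact (hcont.tendsto σ).eventually
        (H.nhds_mem _ hσJ (hposτ σ (by simpa using hσball)))
    exact interior_subset (hsub (by simpa using hτ)) (s := J)
  have hlim : Tendsto (fun t : ℝ => s + t • e + τ • v) (𝓝[>] 0) (𝓝 (s + τ • v)) := by
    have hc : Continuous fun t : ℝ => s + t • e + τ • v := by fun_prop
    simpa using (hc.tendsto 0).mono_left nhdsWithin_le_nhds
  refine H.isClosed.mem_of_tendsto hlim ?_
  filter_upwards [self_mem_nhdsWithin, Ioo_mem_nhdsGT hδ] with t ht htd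
  exact hin t ht htd.2

/-- a zero line through a point of `C`, all of whose points in `C` have nonzero gradient, lies
in `C`. -/
theorem line_subset (H : ConePair m q e C) {s v : Fin n → ℝ} (hs : s ∈ C)
    (hline : line q s v = 0)
    (hgrad : ∀ τ : ℝ, s + τ • v ∈ C → ∃ w, dd q (s + τ • v) w ≠ 0) :
    ∀ τ : ℝ, s + τ • v ∈ C := by
  set J : Set ℝ := {σ | s + σ • v ∈ C}
  have hcont : Continuous fun σ : ℝ => s + σ • v := by fun_prop
  have hcl : IsClosed J := H.isClosed.preimage hcont
  have hop : IsOpen J := by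
    rw [Metric.isOpen_iff]
    intro σ hσ
    have hl : line q (s + σ • v) v = 0 := line_shift q s v σ hline
    have h0 : MvPolynomial.eval (s + σ • v) q = 0 := by rw [← coeff_line_zero q _ v, hl]; simp
    obtain ⟨w, hw⟩ := hgrad σ hσ
    have h1 : dd q (s + σ • v) v = 0 := by rw [← coeff_line_one, hl]; simp
    obtain ⟨-, hz⟩ := H.second_order hσ h0 (H.dd_pos hσ h0 hw) h1
    obtain ⟨-, δ, hδ, hin⟩ := hz (by rw [hl]; simp)
    refine ⟨δ, hδ, fun r hr => ?_⟩
    have := hin (r - σ) (by simpa [Real.dist_eq] using hr)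
    show s + r • v ∈ C
    rwa [add_assoc, ← add_smul, add_sub_cancel] at this
  have hJ : J = Set.univ := IsClopen.eq_univ ⟨hcl, hop⟩ ⟨0, by simpa [J] using hs⟩
  exact fun τ => (hJ ▸ Set.mem_univ τ : τ ∈ J)

/-- the gradient vanishes on the lineality space. -/
theorem dd_eq_zero_of_neg_mem (H : ConePair m q e C) (hm : 2 ≤ m) {v : Fin n → ℝ} (hv : v ∈ C)
    (hv' : -v ∈ C) (w : Fin n → ℝ) : dd q v w = 0 := by
  obtain ⟨K, hK⟩ := H.mono
  have key : ∀ u ∈ C, dd q v u ≤ 0 ∧ MvPolynomial.eval v q ≤ 0 := by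
    intro u hu
    have hb : ∀ t : ℝ, 0 < t → MvPolynomial.eval (v + t • u) q
        ≤ K * (t ^ m * MvPolynomial.eval u q) := by
      intro t ht
      have := hK (-v) hv' (v + t • u) (H.add_mem v hv _ (H.smul_mem t ht.le u hu))
      rwa [← add_assoc, neg_add_cancel, zero_add, eval_smul_of_isHomogeneous H.hom] at this
    set P := line q v u with hP
    have h0 : MvPolynomial.eval v q ≤ 0 := by
      have hG : Continuous fun t : ℝ => K * (t ^ m * MvPolynomial.eval u q) - P.eval t :=
        (continuous_const.mul ((continuous_id.pow m).mul continuous_const)).sub P.continuous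
      have := nonneg_at_zero hG (by
        filter_upwards [self_mem_nhdsWithin] with t ht
        rw [hP, eval_line]
        linarith [hb t ht])
      have e0 : P.eval 0 = MvPolynomial.eval v q := by rw [hP, eval_line]; simp
      simp [zero_pow (by omega : m ≠ 0), e0] at this
      exact this
    refine ⟨?_, h0⟩
    have hv0 : MvPolynomial.eval v q = 0 := le_antisymm h0 (H.nonneg v hv)
    have hG : Continuous fun t : ℝ => K * (t ^ (m - 1) * MvPolynomial.eval u q) - P.divX.eval t :=
      (continuous_const.mul ((continuous_id.pow (m - 1)).mul continuous_const)).sub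
        P.divX.continuous
    have := nonneg_at_zero hG (by
      filter_upwards [self_mem_nhdsWithin] with t ht
      have ht : (0 : ℝ) < t := ht
      have e1 : P.eval t = t * P.divX.eval t := by
        have := congrArg (Polynomial.eval t) (Polynomial.X_mul_divX_add P)
        simp only [Polynomial.eval_add, Polynomial.eval_mul, Polynomial.eval_X,
          Polynomial.eval_C] at this
        rw [← this, show P.coeff 0 = 0 by rw [hP, coeff_line_zero, hv0], add_zero]
      have e2 := hb t ht
      rw [← eval_line, ← hP, e1] at e2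
      have e3 : t ^ m = t * t ^ (m - 1) := by rw [← pow_succ']; congr 1; omega
      rw [e3] at e2
      exact nonneg_of_mul_nonneg_right
        (show 0 ≤ t * (K * (t ^ (m - 1) * MvPolynomial.eval u q) - P.divX.eval t) by linarith) ht)
    rw [zero_pow (by omega : m - 1 ≠ 0), ← Polynomial.coeff_zero_eq_eval_zero,
      Polynomial.coeff_divX, hP, coeff_line_one] at this
    linarith
  have hv0 : MvPolynomial.eval v q = 0 :=
    le_antisymm (key e (mem_of_mem_nhds H.e_nhds)).2 (H.nonneg v hv)
  obtain ⟨η, hη, h1, h2⟩ := H.exists_ball w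
  have e0 := (key e (mem_of_mem_nhds H.e_nhds)).1
  have e0' := H.dd_nonneg hv hv0 (mem_of_mem_nhds H.e_nhds)
  have a1 := (key _ h1).1
  have a2 := (key _ h2).1
  rw [dd_add, dd_smul] at a1
  rw [dd_sub, dd_smul] at a2
  exact (mul_eq_zero.mp (show η * dd q v w = 0 by linarith)).resolve_left hη.ne'

end ConePair

end Vale.Agent.P256
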