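import Vale.Agent.P256.RealRooted
import Mathlib.Algebra.MvPolynomial.Eval
import Mathlib.Algebra.Polynomial.Derivative
import Mathlib.Analysis.Calculus.LocalExtr.Polynomial

/-!
The order of contact of a hyperbolic polynomial with a tangent line at a singular point.
-/

namespace Vale.Agent.P256

open Polynomial

lemma card_roots_derivative {r : ℝ[X]} (hr : r.Splits) : (derivative r).Splits := by
  rcases eq_or_ne (derivative r) 0 with h | h
  · rw [h]; exact Splits.zero
  rw [splits_iff_card_roots] at hr ⊢
  have h1 := card_roots_le_derivative r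
  have h2 := card_roots' (derivative r)
  have h3 : r.natDegree ≠ 0 := fun h' => h (derivative_of_natDegree_zero h')
  have h4 := natDegree_derivative_lt h3
  omega

lemma splits_iterate_derivative {r : ℝ[X]} (hr : r.Splits) : ∀ j, (derivative^[j] r).Splits
  | 0 => hr
  | j + 1 => by
    rw [Function.iterate_succ_apply']
    exact card_roots_derivative (splits_iterate_derivative hr j)

variable {n : Type*}

/-- The restriction of `p` to `a + ε e + s u`, a polynomial in `s` over polynomials in `ε`. -/
noncomputable def biv (p : MvPolynomial n ℝ) (a e u : n → ℝ) : ℝ[X][X] :=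
  MvPolynomial.aeval (fun i => C (C (a i) + C (e i) * X) + C (C (u i)) * X) p

lemma biv_eval (p : MvPolynomial n ℝ) (a e u : n → ℝ) (ε s : ℝ) :
    ((biv p a e u).map (evalRingHom ε)).eval s
      = MvPolynomial.eval (fun i => a i + ε * e i + s * u i) p := by
  have e1 : ∀ q : ℝ[X][X], (q.map (evalRingHom ε)).eval s
      = ((evalRingHom s).comp (mapRingHom (evalRingHom ε))) q := fun q => rfl
  rw [e1, biv, MvPolynomial.aeval_def, MvPolynomial.eval₂_comp_left]
  congr 1
  · ext x; simp [IsScalarTower.algebraMap_apply ℝ ℝ[X] ℝ[X][X]]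
  · funext i
    simp only [Function.comp_apply, RingHom.coe_comp, coe_mapRingHom, Polynomial.map_add,
      Polynomial.map_mul, Polynomial.map_C, Polynomial.map_X, coe_evalRingHom, eval_add, eval_mul,
      eval_C, eval_X]
    ring

/-- At a point where `p` vanishes to order `m` along `u` and where a first-order term of the
order `m - 1` in `u` is present, contact of order above two forces the whole line into the zero
set, if all lines through `a + ε e` in the direction `u` meet it only in real points. -/
theorem line_mem_of_contact (p : MvPolynomial n ℝ) (a e u : n → ℝ) {m : ℕ} {δ : ℝ} (hδ : 0 < δ)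
    (hsplit : ∀ ε ∈ Set.Ioo 0 δ, ((biv p a e u).map (evalRingHom ε)).Splits)
    (h1 : ((biv p a e u).coeff m).coeff 1 ≠ 0)
    (h0 : ∀ j ≤ m + 2, ((biv p a e u).coeff j).coeff 0 = 0) (s : ℝ) :
    MvPolynomial.eval (fun i => a i + s * u i) p = 0 := by
  set Q := biv p a e u with hQ
  have hsp : ∀ ε ∈ Set.Ioo 0 δ, ((derivative^[m] Q).map (evalRingHom ε)).Splits := fun ε hε => by
    rw [← iterate_derivative_map]; exact splits_iterate_derivative (hsplit ε hε) m
  have hc : ∀ j, (derivative^[m] Q).coeff j = (((j + m).descFactorial m : ℕ) : ℝ[X])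
      * Q.coeff (j + m) := fun j => by
    rw [coeff_iterate_derivative, nsmul_eq_mul]
  have hn : ∀ j : ℕ, (((j + m).descFactorial m : ℕ) : ℝ) ≠ 0 := fun j =>
    Nat.cast_ne_zero.mpr (Nat.descFactorial_pos.mpr (Nat.le_add_left m j)).ne'
  have hflat := flat_of_splits hδ hsp
    (by rw [hc, Nat.zero_add, ← C_eq_natCast, coeff_C_mul]
        exact mul_ne_zero (by simp) h1)
    (fun j hj => by rw [hc, ← C_eq_natCast, coeff_C_mul, h0 (j + m) (by omega), mul_zero])
  have hz : Q.map (evalRingHom 0) = 0 := by
    ext k
    simp only [coeff_map, coe_evalRingHom, coeff_zero]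
    rw [← coeff_zero_eq_eval_zero]
    rcases Nat.lt_or_ge k m with hk | hk
    · exact h0 k (by omega)
    obtain ⟨j, rfl⟩ : ∃ j, k = j + m := ⟨k - m, by omega⟩
    have h := congrArg (fun q : ℝ[X] => q.coeff j) hflat
    simp only [coeff_map, coe_evalRingHom, coeff_zero, ← coeff_zero_eq_eval_zero] at h
    rw [hc, ← C_eq_natCast, coeff_C_mul] at h
    exact (mul_eq_zero.mp h).resolve_left (hn j)
  have := biv_eval p a e u 0 s
  rw [← hQ, hz, eval_zero] at this
  simpa using this.symm

end Vale.Agent.P256
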