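import Vale.Agent.P256.Tangent
import Vale.Agent.P256.LineOrder

/-!
The next form at a singular point does not vanish on the smooth boundary of the tangent cone, unless
a line through the point lies in the zero set.
-/

namespace Vale.Agent.P256

open MvPolynomial Filter Topology

variable {n : ℕ}

/-- A form at a combination of two vectors, expanded along one of them. -/
theorem eval_comb_of_isHomogeneous {T : MvPolynomial (Fin n) ℝ} {j : ℕ} (hT : T.IsHomogeneous j)
    (e u : Fin n → ℝ) (ε s : ℝ) :
    MvPolynomial.eval (ε • e + s • u) T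
      = ∑ k ∈ Finset.range (j + 1), (line T u e).coeff k * ε ^ k * s ^ (j - k) := by
  have hdeg : (line T u e).natDegree < j + 1 := by
    refine Nat.lt_succ_of_le (Polynomial.natDegree_le_iff_coeff_eq_zero.mpr fun k hk => ?_)
    rw [coeff_line, homogeneousComponent_eq_zero]
    · simp
    · exact lt_of_le_of_lt (le_trans (totalDegree_shiftPoly_le u T) hT.totalDegree_le) hk
  refine congrFun (Continuous.ext_on (dense_compl_singleton (0 : ℝ))
    (f := fun s => MvPolynomial.eval (ε • e + s • u) T)
    (g := fun s => ∑ k ∈ Finset.range (j + 1), (line T u e).coeff k * ε ^ k * s ^ (j - k))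
    ?_ (by fun_prop) fun t (ht : t ≠ 0) => ?_) s
  · exact (MvPolynomial.continuous_eval T).comp (by fun_prop)
  · show MvPolynomial.eval (ε • e + t • u) T = _
    rw [show ε • e + t • u = t • (u + (ε / t) • e) by
        rw [smul_add, smul_smul, mul_div_cancel₀ _ ht]; abel,
      eval_smul_of_isHomogeneous hT, ← eval_line, Polynomial.eval_eq_sum_range' hdeg,
      Finset.mul_sum]
    refine Finset.sum_congr rfl fun k hk => ?_
    rw [pow_sub₀ t ht (Nat.le_of_lt_succ (Finset.mem_range.mp hk)), div_pow]
    ring

namespace TanSetting

variable {p : MvPolynomial (Fin n) ℝ} {e a : Fin n → ℝ} {d m : ℕ}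

theorem biv_coeff (S : TanSetting p e d a m) (u : Fin n → ℝ) :
    biv p a e u = ∑ j ∈ Finset.range (d + 1), ∑ k ∈ Finset.range (j + 1),
      Polynomial.C (Polynomial.C ((line (tayl p a j) u e).coeff k) * Polynomial.X ^ k)
        * Polynomial.X ^ (j - k) := by
  refine Polynomial.ext fun i => Polynomial.funext fun ε => ?_
  have h : (biv p a e u).map (Polynomial.evalRingHom ε)
      = (∑ j ∈ Finset.range (d + 1), ∑ k ∈ Finset.range (j + 1),
        Polynomial.C (Polynomial.C ((line (tayl p a j) u e).coeff k) * Polynomial.X ^ k)
          * Polynomial.X ^ (j - k)).map (Polynomial.evalRingHom ε) := by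
    refine Polynomial.funext fun s => ?_
    rw [biv_eval]
    simp only [Polynomial.map_sum, Polynomial.map_mul, Polynomial.map_C, Polynomial.map_pow,
      Polynomial.map_X, Polynomial.eval_finsetSum, Polynomial.eval_mul, Polynomial.eval_C,
      Polynomial.eval_pow, Polynomial.eval_X, Polynomial.coe_evalRingHom]
    rw [show (fun i => a i + ε * e i + s * u i) = a + (1 : ℝ) • (ε • e + s • u) by
      funext i; simp; ring, ← eval_line,
      Polynomial.eval_eq_sum_range' (Nat.lt_succ_of_le (S.natDegree_line_le a _))]
    refine Finset.sum_congr rfl fun j _ => ?_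
    rw [one_pow, mul_one, coeff_line]
    exact eval_comb_of_isHomogeneous (homogeneousComponent_isHomogeneous j _) e u ε s
  simpa [Polynomial.coeff_map, Polynomial.eval_finsetSum] using congrArg (fun q => q.coeff i) h

theorem next_ne_zero (S : TanSetting p e d a m) {s : Fin n → ℝ}
    (h0 : MvPolynomial.eval s (tayl p a m) = 0) (he : 0 < dd (tayl p a m) s e)
    (hline : ∃ t : ℝ, MvPolynomial.eval (a + t • s) p ≠ 0) :
    MvPolynomial.eval s (tayl p a (m + 1)) ≠ 0 := by
  intro hnext
  obtain ⟨t, ht⟩ := hline
  obtain ⟨l, rfl⟩ : ∃ l, m = l + 1 := by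
    refine ⟨m - 1, (Nat.succ_pred_eq_of_pos (Nat.pos_of_ne_zero ?_)).symm⟩
    rintro rfl
    rw [dd, tayl, homogeneousComponent_zero] at he
    simp at he
  have hsplit : ∀ ε ∈ Set.Ioo (0 : ℝ) 1,
      ((biv p a e s).map (Polynomial.evalRingHom ε)).Splits := by
    intro ε hε
    obtain ⟨rs, -, -, hrs⟩ := S.base.line_factor s
      (S.base.cone_add_int S.mem (S.base.smul_int hε.1 S.base.e_mem))
    have e1 : (biv p a e s).map (Polynomial.evalRingHom ε) = line p (a + ε • e) s := by
      refine Polynomial.funext fun σ => ?_
      rw [biv_eval, eval_line]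
      congr 1
    rw [e1, hrs]
    refine (Polynomial.Splits.C _).mul (Polynomial.Splits.multisetProd fun q hq => ?_)
    obtain ⟨r, -, rfl⟩ := Multiset.mem_map.mp hq
    exact Polynomial.Splits.of_natDegree_le_one (by compute_degree)
  refine ht ?_
  have := line_mem_of_contact p a e s (m := l) one_pos hsplit ?_ ?_ t
  · exact this
  · rw [S.biv_coeff, Polynomial.finsetSum_coeff]
    simp only [Polynomial.finsetSum_coeff, Polynomial.coeff_C_mul, Polynomial.coeff_X_pow,
      mul_ite, mul_one, mul_zero]
    rw [Finset.sum_eq_single (l + 1), Finset.sum_eq_single 1]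
    · simpa [← coeff_line_one] using he.ne'
    · intro k hk hne
      simp only [Finset.mem_range] at hk
      split_ifs with h
      · omega
      · simp
    · simp
    · intro j _ hne
      refine Finset.sum_eq_zero fun k hk => ?_
      simp only [Finset.mem_range] at hk
      split_ifs with h
      · rw [Polynomial.coeff_C_mul_X_pow, if_neg (by omega)]
      · simp
    · have := S.le_deg
      intro h
      simp at h
      omega
  · intro j hj
    have hj0 : ∀ i ≤ l + 2, MvPolynomial.eval s (tayl p a i) = 0 := by
      intro i hi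
      rcases lt_trichotomy i (l + 1) with h | rfl | h
      · simp [S.low i h]
      · exact h0
      · obtain rfl : i = l + 1 + 1 := by omega
        exact hnext
    rw [S.biv_coeff, Polynomial.finsetSum_coeff, Polynomial.finsetSum_coeff]
    refine Finset.sum_eq_zero fun i _ => ?_
    rw [Polynomial.finsetSum_coeff, Polynomial.finsetSum_coeff]
    refine Finset.sum_eq_zero fun k hk => ?_
    simp only [Polynomial.coeff_C_mul, Polynomial.coeff_X_pow, mul_ite, mul_one, mul_zero]
    split_ifs with h
    · rw [Polynomial.coeff_C_mul_X_pow]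
      split_ifs with h'
      · subst h'
        rw [coeff_line_zero]
        exact hj0 i (by omega)
      · rfl
    · simp

end TanSetting

end Vale.Agent.P256
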