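import Mathlib.Analysis.Matrix.PosDef
import Mathlib.Analysis.InnerProductSpace.PiL2
import Mathlib.LinearAlgebra.Projection
import Mathlib.Data.Matrix.Block
import Mathlib.Algebra.Order.Star.Real
import Mathlib.LinearAlgebra.Basis.VectorSpace

/-!
A finite semidefinite lift from a sum-of-squares decomposition of the slack.
-/

namespace Vale.Agent.P256

open Matrix Finset

/-- A spectrahedral shadow: the projection of a set cut out by one linear matrix inequality. -/
def IsShadow {n : Type*} [Fintype n] (K : Set (n → ℝ)) : Prop :=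
  ∃ (a m : ℕ) (A0 : Matrix (Fin m) (Fin m) ℝ) (A : n → Matrix (Fin m) (Fin m) ℝ)
    (B : Fin a → Matrix (Fin m) (Fin m) ℝ),
    A0.IsSymm ∧ (∀ i, (A i).IsSymm) ∧ (∀ j, (B j).IsSymm) ∧
      K = {x | ∃ u : Fin a → ℝ, (A0 + ∑ i, x i • A i + ∑ j, u j • B j).PosSemidef}

variable {α β : Type*}

/-- A function of two arguments that is a finite sum of products on a rectangle. -/
def FiniteRankOn (A : Set α) (B : Set β) (h : α → β → ℝ) : Prop :=
  ∃ (r : ℕ) (f : Fin r → α → ℝ) (g : Fin r → β → ℝ), ∀ x ∈ A, ∀ b ∈ B, h x b = ∑ j, f j x * g j b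

/-- A finite sum of squares of finite-rank functions on a rectangle. -/
def SosOn (A : Set α) (B : Set β) (F : α → β → ℝ) : Prop :=
  ∃ (k : ℕ) (h : Fin k → α → β → ℝ), (∀ i, FiniteRankOn A B (h i)) ∧
    ∀ x ∈ A, ∀ b ∈ B, F x b = ∑ i, h i x b ^ 2

/-- A linear matrix inequality with free variables of any finite index gives a shadow. -/
theorem isShadow_of_linear {n U J : Type*} [Fintype n] [DecidableEq n] [Fintype U] [DecidableEq U]
    [Fintype J] [DecidableEq J]
    (Φ : ((n → ℝ) × (U → ℝ)) →ₗ[ℝ] Matrix J J ℝ) (hsym : ∀ z, (Φ z).IsSymm)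
    {K : Set (n → ℝ)} (hK : ∀ x, x ∈ K ↔ ∃ u, (Φ (x, u)).PosSemidef) : IsShadow K := by
  let eJ := (Fintype.equivFin J).symm
  let eU := Fintype.equivFin U
  refine ⟨Fintype.card U, Fintype.card J, 0, fun i => (Φ (Pi.single i 1, 0)).submatrix eJ eJ,
    fun j => (Φ (0, Pi.single (eU.symm j) 1)).submatrix eJ eJ, isSymm_zero,
    fun i => (hsym _).submatrix _, fun j => (hsym _).submatrix _, ?_⟩
  have key : ∀ (x : n → ℝ) (u : Fin (Fintype.card U) → ℝ),
      (0 : Matrix (Fin (Fintype.card J)) (Fin (Fintype.card J)) ℝ)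
        + ∑ i, x i • (Φ (Pi.single i 1, 0)).submatrix eJ eJ
        + ∑ j, u j • (Φ (0, Pi.single (eU.symm j) 1)).submatrix eJ eJ
      = (Φ (x, u ∘ eU)).submatrix eJ eJ := by
    intro x u
    have e : (x, u ∘ eU) = (∑ i, x i • ((Pi.single i 1 : n → ℝ), (0 : U → ℝ)))
        + ∑ j, u j • ((0 : n → ℝ), (Pi.single (eU.symm j) 1 : U → ℝ)) := by
      refine Prod.ext ?_ ?_
      · funext k; simp [Prod.fst_sum, Finset.sum_apply, Pi.single_apply]
      · funext k
        simp only [Prod.snd_add, Prod.snd_sum, Prod.smul_snd, Pi.add_apply, Finset.sum_apply,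
          Pi.smul_apply, smul_eq_mul, Pi.zero_apply, mul_zero, Finset.sum_const_zero, zero_add,
          Function.comp_apply, Pi.single_apply]
        rw [Finset.sum_eq_single (eU k)]
        · simp
        · intro j _ hj; rw [if_neg]; · simp
          intro h; exact hj (by rw [h]; simp)
        · simp
    rw [e, map_add, map_sum, map_sum, zero_add]
    simp only [map_smul]
    ext p q
    simp [Matrix.sum_apply]
  ext x
  simp only [Set.mem_ofPred_eq]
  rw [hK]
  constructor
  · rintro ⟨u, hu⟩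
    refine ⟨u ∘ eU.symm, ?_⟩
    rw [key, posSemidef_submatrix_equiv]
    simpa [Function.comp_def] using hu
  · rintro ⟨u, hu⟩
    refine ⟨u ∘ eU, ?_⟩
    rwa [key, posSemidef_submatrix_equiv] at hu

/-- Finitely or infinitely many linear equations are the kernel of one linear map. -/
lemma exists_kernel_map {E γ : Type*} [AddCommGroup E] [Module ℝ E] (Q : γ → E →ₗ[ℝ] ℝ) :
    ∃ L : E →ₗ[ℝ] E, ∀ z, L z = 0 ↔ ∀ b, Q b z = 0 := by
  obtain ⟨W', hW⟩ := (⨅ b, LinearMap.ker (Q b) : Submodule ℝ E).exists_isCompl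
  exact ⟨W'.projection _ hW.symm, fun z => by
    rw [Submodule.projection_apply_eq_zero_iff]; simp [Submodule.mem_iInf]⟩

lemma posSemidef_blockDiag {I J : Type*} [Fintype I] [Fintype J] [DecidableEq I] [DecidableEq J]
    (M : Matrix I I ℝ) (d : J → ℝ) :
    (fromBlocks M 0 0 (diagonal d)).PosSemidef ↔ M.PosSemidef ∧ ∀ j, 0 ≤ d j := by
  refine ⟨fun h => ⟨h.submatrix Sum.inl, fun j =>
    posSemidef_diagonal_iff.mp (show (diagonal d).PosSemidef from h.submatrix Sum.inr) j⟩, ?_⟩
  rintro ⟨hM, hd⟩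
  refine PosSemidef.of_dotProduct_mulVec_nonneg
    (IsHermitian.fromBlocks hM.isHermitian (by simp) (isHermitian_diagonal _)) fun v => ?_
  have h1 := hM.dotProduct_mulVec_nonneg (v ∘ Sum.inl)
  have h2 := (PosSemidef.diagonal hd).dotProduct_mulVec_nonneg (v ∘ Sum.inr)
  rw [fromBlocks_mulVec, dotProduct, Fintype.sum_sum_type]
  simp only [Sum.elim_inl, Sum.elim_inr, zero_mulVec, add_zero, zero_add]
  simpa [dotProduct] using add_nonneg h1 h2

/-- The slack as a fixed sum of squares of bilinear expressions gives a lift. -/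
theorem isShadow_of_gram {n β ι : Type*} [Fintype n] [Fintype ι] {K X : Set (n → ℝ)} {G : Set β}
    {k : ℕ} (ν : β → n → ℝ) (gv : β → Fin k → ι → ℝ) (fv : (n → ℝ) → Fin k → ι → ℝ)
    (hK : ∀ x, x ∈ K ↔ ∀ b ∈ G, 0 ≤ x ⬝ᵥ ν b)
    (hgen : ∀ x ∈ K, ∃ (N : ℕ) (c : Fin N → ℝ) (p : Fin N → n → ℝ),
      (∀ i, 0 ≤ c i) ∧ (∀ i, p i ∈ X) ∧ x = ∑ i, c i • p i)
    (hs : ∀ x ∈ X, ∀ b ∈ G, x ⬝ᵥ ν b = ∑ i, (∑ q, gv b i q * fv x i q) ^ 2)
    (hortho : ∀ x b i j, i ≠ j → ∑ q, gv b i q * fv x j q = 0) : IsShadow K := by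
  classical
  let Q : ↥G → ((n → ℝ) × (ι × ι → ℝ)) →ₗ[ℝ] ℝ := fun b =>
    { toFun := fun z => z.1 ⬝ᵥ ν b.1 - ∑ i, ∑ p, ∑ q, gv b.1 i p * gv b.1 i q * z.2 (p, q)
      map_add' := fun z w => by
        simp only [Prod.fst_add, Prod.snd_add, add_dotProduct, Pi.add_apply, mul_add,
          Finset.sum_add_distrib]
        ring
      map_smul' := fun c z => by
        simp only [Prod.smul_fst, Prod.smul_snd, smul_dotProduct, Pi.smul_apply, smul_eq_mul,
          RingHom.id_apply, mul_sub, Finset.mul_sum]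
        congr 1
        exact Finset.sum_congr rfl fun i _ => Finset.sum_congr rfl fun p _ =>
          Finset.sum_congr rfl fun q _ => by ring }
  obtain ⟨L, hL⟩ := exists_kernel_map Q
  let M : ((n → ℝ) × (ι × ι → ℝ)) →ₗ[ℝ] Matrix ι ι ℝ :=
    { toFun := fun z => Matrix.of fun p q => (z.2 (p, q) + z.2 (q, p)) / 2
      map_add' := fun z w => by
        ext p q; simp only [Prod.snd_add, Pi.add_apply, of_apply, Matrix.add_apply]; ring
      map_smul' := fun c z => by
        ext p q
        simp only [Prod.smul_snd, Pi.smul_apply, of_apply, Matrix.smul_apply, smul_eq_mul,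
          RingHom.id_apply]
        ring }
  let D : ((n → ℝ) × (ι × ι → ℝ)) →ₗ[ℝ] ((n ⊕ ι × ι) ⊕ (n ⊕ ι × ι) → ℝ) :=
    { toFun := fun z => Sum.elim (Sum.elim (L z).1 (L z).2) (-Sum.elim (L z).1 (L z).2)
      map_add' := fun z w => by
        rw [map_add]; ext ((i | i) | (i | i)) <;> simp <;> ring
      map_smul' := fun c z => by
        rw [map_smul]; ext ((i | i) | (i | i)) <;> simp }
  let Φ : ((n → ℝ) × (ι × ι → ℝ)) →ₗ[ℝ]
      Matrix (ι ⊕ ((n ⊕ ι × ι) ⊕ (n ⊕ ι × ι))) (ι ⊕ ((n ⊕ ι × ι) ⊕ (n ⊕ ι × ι))) ℝ :=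
    { toFun := fun z => fromBlocks (M z) 0 0 (diagonal (D z))
      map_add' := fun z w => by
        rw [map_add, map_add, fromBlocks_add, add_zero, add_zero, diagonal_add]; rfl
      map_smul' := fun c z => by
        rw [map_smul, map_smul, RingHom.id_apply, fromBlocks_smul, smul_zero, smul_zero,
          ← diagonal_smul] }
  have hMsym : ∀ z, (M z).IsSymm := fun z => by ext p q; simp [M]; ring
  refine isShadow_of_linear Φ (fun z => IsSymm.fromBlocks (hMsym z) (by simp) (isSymm_diagonal _))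
    fun x => ?_
  change x ∈ K ↔ ∃ u, (fromBlocks (M (x, u)) 0 0 (diagonal (D (x, u)))).PosSemidef
  simp only [posSemidef_blockDiag]
  constructor
  · intro hx
    obtain ⟨N, c, p, hc, hp, rfl⟩ := hgen x hx
    let up : (n → ℝ) → ι × ι → ℝ := fun y pq => ∑ i, fv y i pq.1 * fv y i pq.2
    refine ⟨∑ i, c i • up (p i), ?_⟩
    have e : ((∑ i, c i • p i), ∑ i, c i • up (p i))
        = ∑ i, c i • ((p i, up (p i)) : (n → ℝ) × (ι × ι → ℝ)) := by
      refine Prod.ext ?_ ?_ <;> simp [Prod.fst_sum, Prod.snd_sum]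
    have hker : ∀ i, L (p i, up (p i)) = 0 := fun i => by
      rw [hL]
      intro b
      show p i ⬝ᵥ ν b.1 - _ = 0
      rw [sub_eq_zero, hs _ (hp i) _ b.2]
      dsimp only [up]
      have : ∀ j, ∑ a, ∑ q, gv b.1 j a * gv b.1 j q * ∑ l, fv (p i) l a * fv (p i) l q
          = ∑ l, (∑ a, gv b.1 j a * fv (p i) l a) ^ 2 := fun j => by
        simp only [sq, Finset.sum_mul_sum]
        simp only [Finset.mul_sum]
        rw [Finset.sum_comm (s := (Finset.univ : Finset (Fin k)))]
        refine Finset.sum_congr rfl fun a _ => ?_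
        rw [Finset.sum_comm (s := (Finset.univ : Finset (Fin k)))]
        exact Finset.sum_congr rfl fun q _ => Finset.sum_congr rfl fun l _ => by ring
      refine Finset.sum_congr rfl fun j _ => ?_
      rw [this, Finset.sum_eq_single j]
      · intro l _ hl
        rw [hortho (p i) b.1 j l (fun h => hl h.symm), sq, zero_mul]
      · simp
    have hL0 : L ((∑ i, c i • p i), ∑ i, c i • up (p i)) = 0 := by
      rw [e, map_sum]
      exact Finset.sum_eq_zero fun i _ => by rw [map_smul, hker, smul_zero]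
    refine ⟨?_, fun j => ?_⟩
    · rw [e, map_sum]
      refine posSemidef_sum _ fun i _ => ?_
      rw [map_smul]
      refine PosSemidef.smul ?_ (hc i)
      have hM : M (p i, up (p i)) = ∑ j, vecMulVec (fv (p i) j) (fv (p i) j) := by
        ext q q'
        simp only [M, up, LinearMap.coe_mk, AddHom.coe_mk, of_apply, Matrix.sum_apply,
          vecMulVec_apply]
        rw [← Finset.sum_add_distrib, Finset.sum_div]
        exact Finset.sum_congr rfl fun j _ => by ring
      rw [hM]
      exact posSemidef_sum _ fun j _ => posSemidef_vecMulVec_self_star _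
    · simp only [D, LinearMap.coe_mk, AddHom.coe_mk, hL0]
      rcases j with (j | j) | (j | j) <;> simp
  · rintro ⟨u, hM, hd⟩
    rw [hK]
    intro b hb
    have hLz : L (x, u) = 0 := Prod.ext
      (funext fun i => le_antisymm (by simpa [D] using hd (Sum.inr (Sum.inl i)))
        (by simpa [D] using hd (Sum.inl (Sum.inl i))))
      (funext fun i => le_antisymm (by simpa [D] using hd (Sum.inr (Sum.inr i)))
        (by simpa [D] using hd (Sum.inl (Sum.inr i))))
    have := (hL _).mp hLz ⟨b, hb⟩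
    change x ⬝ᵥ ν b - _ = 0 at this
    rw [sub_eq_zero] at this
    rw [this]
    refine Finset.sum_nonneg fun i _ => ?_
    refine le_of_le_of_eq (hM.dotProduct_mulVec_nonneg (gv b i)) ?_
    simp only [star_trivial, dotProduct, mulVec, M, LinearMap.coe_mk, AddHom.coe_mk, of_apply,
      Finset.mul_sum]
    have e1 : ∀ p q, gv b i p * ((u (p, q) + u (q, p)) / 2 * gv b i q)
        = gv b i p * gv b i q * u (p, q) / 2 + gv b i q * gv b i p * u (q, p) / 2 := fun p q => by
      ring
    simp only [e1, Finset.sum_add_distrib]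
    rw [Finset.sum_comm (f := fun p q => gv b i q * gv b i p * u (q, p) / 2), ← Finset.sum_add_distrib]
    refine Finset.sum_congr rfl fun p _ => ?_
    rw [← Finset.sum_add_distrib]
    exact Finset.sum_congr rfl fun q _ => by ring

/-- A cone described by dual generators has a semidefinite lift once its slack on generators is a
finite sum of squares of finite-rank functions. -/
theorem isShadow_of_sosOn {n β : Type*} [Fintype n] {K X : Set (n → ℝ)} {G : Set β}
    (ν : β → n → ℝ) (hK : ∀ x, x ∈ K ↔ ∀ b ∈ G, 0 ≤ x ⬝ᵥ ν b)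
    (hgen : ∀ x ∈ K, ∃ (N : ℕ) (c : Fin N → ℝ) (p : Fin N → n → ℝ),
      (∀ i, 0 ≤ c i) ∧ (∀ i, p i ∈ X) ∧ x = ∑ i, c i • p i)
    (hs : SosOn X G fun x b => x ⬝ᵥ ν b) : IsShadow K := by
  classical
  obtain ⟨k, h, hh, hF⟩ := hs
  choose r f g hfg using hh
  refine isShadow_of_gram (ι := Σ i : Fin k, Fin (r i)) ν
    (fun b i q => if q.1 = i then g q.1 q.2 b else 0)
    (fun x i q => if q.1 = i then f q.1 q.2 x else 0) hK hgen (fun x hx b hb => ?_)
    (fun x b i j hij => Finset.sum_eq_zero fun q _ => by split_ifs <;> simp_all)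
  rw [show x ⬝ᵥ ν b = ∑ i, h i x b ^ 2 from hF x hx b hb]
  refine Finset.sum_congr rfl fun i _ => ?_
  rw [hfg i x hx b hb, Fintype.sum_sigma, Finset.sum_eq_single i]
  · simp [mul_comm]
  · intro l _ hl; simp [hl]
  · simp

end Vale.Agent.P256
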