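import Vale.Agent.P256.Slice

/-!
The class is not empty: a nodal cubic cone with a singular boundary ray.
-/

namespace Vale.Agent.P256

open MvPolynomial

/-- `x₀(x₁² - x₂² - x₃²) - x₁³`. -/
noncomputable def nodal : MvPolynomial (Fin 4) ℝ :=
  X 0 * (X 1 ^ 2 - X 2 ^ 2 - X 3 ^ 2) - X 1 ^ 3

/-- the direction `(2, 1, 0, 0)`. -/
def nodalDir : Fin 4 → ℝ := ![2, 1, 0, 0]

lemma nodal_eval (x : Fin 4 → ℝ) :
    eval x nodal = x 0 * (x 1 ^ 2 - x 2 ^ 2 - x 3 ^ 2) - x 1 ^ 3 := by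
  simp [nodal]

lemma nodal_hom : nodal.IsHomogeneous 3 := by
  refine IsHomogeneous.sub ?_ (by simpa using (isHomogeneous_X ℝ (1 : Fin 4)).pow 3)
  exact (isHomogeneous_X ℝ (0 : Fin 4)).mul
    ((((isHomogeneous_X ℝ (1 : Fin 4)).pow 2).sub ((isHomogeneous_X ℝ (2 : Fin 4)).pow 2)).sub
      ((isHomogeneous_X ℝ (3 : Fin 4)).pow 2))

lemma nodal_hyp : HypSetting nodal nodalDir 3 := by
  refine ⟨nodal_hom, by rw [nodal_eval]; simp [nodalDir], fun x z hz => ?_⟩
  have hz' : (2 * z - x 0) * ((z - x 1) ^ 2 - (x 2 : ℂ) ^ 2 - (x 3 : ℂ) ^ 2)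
      - (z - x 1) ^ 3 = 0 := by
    simpa [nodal, nodalDir, mul_comm] using hz
  have hre := congrArg Complex.re hz'
  have him := congrArg Complex.im hz'
  simp [pow_succ, Complex.mul_re, Complex.mul_im] at hre him
  by_contra hb
  set u := z.re - x 1
  set b := z.im
  set w := 2 * x 1 - x 0
  set R := x 2 ^ 2 + x 3 ^ 2
  have him' : 3 * u ^ 2 - b ^ 2 + 2 * w * u - 2 * R = 0 := by
    refine mul_left_cancel₀ hb ?_
    simp only [u, w, R]; linear_combination him
  have hre' : u ^ 3 - 3 * u * b ^ 2 + w * (u ^ 2 - b ^ 2) - 2 * R * u - w * R = 0 := by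
    simp only [u, w, R]; linear_combination hre
  -- with `r = -w - 2 u` the real root, `f t = (t - r) ((t - u)² + b²)`
  have hR : 0 ≤ R := by positivity
  set ρ := Real.sqrt R
  have hρ : ρ ^ 2 = R := Real.sq_sqrt hR
  have hb2 : 0 < b ^ 2 := by positivity
  have hρ0 : 0 ≤ ρ := Real.sqrt_nonneg R
  have f1 : (ρ - (-w - 2 * u)) * ((ρ - u) ^ 2 + b ^ 2) = -ρ ^ 3 := by
    linear_combination (u - ρ) * him' - hre' + (2 * ρ + w) * hρ
  have f2 : (-ρ - (-w - 2 * u)) * ((ρ + u) ^ 2 + b ^ 2) = ρ ^ 3 := by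
    linear_combination (u + ρ) * him' - hre' + (-2 * ρ + w) * hρ
  have h1 : ρ - (-w - 2 * u) ≤ 0 :=
    nonpos_of_mul_nonpos_left (by rw [f1]; linarith [pow_nonneg hρ0 3]) (by positivity)
  have h2 : 0 ≤ -ρ - (-w - 2 * u) :=
    nonneg_of_mul_nonneg_left (by rw [f2]; exact pow_nonneg hρ0 3) (by positivity)
  have hr0 : ρ = 0 := by linarith
  have hw : w = -2 * u := by linarith
  rw [hr0] at hρ
  rw [hw, ← hρ] at him'
  nlinarith

lemma nodal_grad (a : Fin 4 → ℝ) (h : ∀ i, eval a (pderiv i nodal) = 0) :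
    a 1 = 0 ∧ a 2 = 0 ∧ a 3 = 0 := by
  have h0 : a 1 ^ 2 - a 2 ^ 2 - a 3 ^ 2 = 0 := by
    simpa [nodal, pderiv_mul, pderiv_pow, Pi.single_apply] using h 0
  have h1 : a 0 * (2 * a 1) - 3 * a 1 ^ 2 = 0 := by
    simpa [nodal, pderiv_mul, pderiv_pow, Pi.single_apply] using h 1
  have h2 : a 0 = 0 ∨ a 2 = 0 := by
    simpa [nodal, pderiv_mul, pderiv_pow, Pi.single_apply] using h 2
  have h3 : a 0 = 0 ∨ a 3 = 0 := by
    simpa [nodal, pderiv_mul, pderiv_pow, Pi.single_apply] using h 3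
  by_cases ha : a 0 = 0
  · rw [ha] at h1
    have h1' : a 1 = 0 := by nlinarith
    rw [h1'] at h0
    refine ⟨h1', ?_, ?_⟩ <;> nlinarith [sq_nonneg (a 2), sq_nonneg (a 3)]
  · have e2 := h2.resolve_left ha
    have e3 := h3.resolve_left ha
    rw [e2, e3] at h0
    exact ⟨by nlinarith, e2, e3⟩

lemma nodal_setting : Setting nodal nodalDir 3 := by
  refine ⟨nodal_hyp, fun x hx hnx => ?_, fun a _ ha0 hg => ?_⟩
  · obtain ⟨rs, -, hr, hl⟩ := nodal_hyp.line_factor x nodal_hyp.e_mem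
    have hn1 : ∀ r ∈ rs, r = 0 := fun r hr' => by
      have h := hr r hr'
      have e1 : r ≤ 0 := nodal_hyp.roots_nonpos hx nodal_hyp.e_mem h
      have e2 : -r ≤ 0 := nodal_hyp.roots_nonpos hnx nodal_hyp.e_mem (by
        rw [show -x + (-r) • nodalDir = (-1 : ℝ) • (x + r • nodalDir) by funext i; simp; ring,
          nodal_hyp.eval_smul, h, mul_zero])
      linarith
    have hone : ∀ t : ℝ, eval (nodalDir + t • x) nodal = 1 := fun t => by
      rw [← eval_line, hl, show (rs.map fun r => 1 - Polynomial.C r * Polynomial.X).prod = 1 from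
        Multiset.prod_eq_one fun q hq => by
          obtain ⟨r, hr', rfl⟩ := Multiset.mem_map.mp hq
          simp [hn1 r hr'], mul_one, Polynomial.eval_C, nodal_eval]
      simp [nodalDir]
      norm_num
    have c1 := hone 1
    have c2 := hone (-1)
    have c3 := hone 2
    simp only [nodal_eval, nodalDir, Pi.add_apply, Pi.smul_apply, smul_eq_mul,
      Matrix.cons_val] at c1 c2 c3
    have d1 : x 0 + x 1 = 0 := by linarith
    have hx0 : x 0 = -x 1 := by linarith
    rw [hx0] at c1 c2 c3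
    have h1 : x 1 = 0 := by nlinarith [sq_nonneg (x 1), sq_nonneg (x 2), sq_nonneg (x 3)]
    have h2 : x 2 = 0 := by nlinarith [sq_nonneg (x 2), sq_nonneg (x 3)]
    have h3 : x 3 = 0 := by nlinarith [sq_nonneg (x 2), sq_nonneg (x 3)]
    funext i
    fin_cases i <;> simp_all
  · obtain ⟨h1, h2, h3⟩ := nodal_grad a hg
    have ha : a 0 ≠ 0 := fun h => ha0 (funext fun i => by fin_cases i <;> simp_all)
    have hc : ∀ (s : Fin 4 → ℝ) (j : ℕ), eval s (homogeneousComponent j (shiftPoly a nodal))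
        = (Polynomial.C (a 0 * (s 1 ^ 2 - s 2 ^ 2 - s 3 ^ 2)) * Polynomial.X ^ 2
          + Polynomial.C (s 0 * (s 1 ^ 2 - s 2 ^ 2 - s 3 ^ 2) - s 1 ^ 3)
            * Polynomial.X ^ 3).coeff j := fun s j => by
      rw [← coeff_line]
      congr 1
      refine Polynomial.funext fun t => ?_
      rw [eval_line, nodal_eval]
      simp [h1, h2, h3]
      ring
    have hT : homogeneousComponent 2 (shiftPoly a nodal)
        = C (a 0) * (X 1 ^ 2 - X 2 ^ 2 - X 3 ^ 2) :=
      MvPolynomial.funext fun s => by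
        rw [hc s 2, Polynomial.coeff_add, Polynomial.coeff_C_mul_X_pow, Polynomial.coeff_C_mul_X_pow]
        simp
    refine ⟨2, fun j hj => MvPolynomial.funext fun s => by
      rw [hc s j, Polynomial.coeff_add, Polynomial.coeff_C_mul_X_pow, Polynomial.coeff_C_mul_X_pow,
        if_neg (by omega), if_neg (by omega)]; simp, fun h => ?_, fun s hs _ h0 => ?_⟩
    · have := congrArg (eval (Pi.single 1 1)) (hT.symm.trans h)
      simp [ha] at this
    · have hq : s 1 ^ 2 - s 2 ^ 2 - s 3 ^ 2 = 0 := by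
        rw [hc, Polynomial.coeff_add, Polynomial.coeff_C_mul_X_pow, Polynomial.coeff_C_mul_X_pow] at h0
        simpa [ha] using h0
      have hs1 : s 1 ≠ 0 := by
        intro h
        rw [h] at hq
        have e2 : s 2 = 0 := by nlinarith [sq_nonneg (s 3)]
        have e3 : s 3 = 0 := by nlinarith [sq_nonneg (s 3)]
        refine hs (s 0 / a 0) (funext fun i => ?_)
        fin_cases i <;> simp [ha, h, e2, e3, h1, h2, h3]
      refine ⟨⟨1, ?_⟩, 1, ?_⟩
      · rw [hT]
        simpa [pderiv_mul, pderiv_pow, Pi.single_apply, ha] using hs1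
      · rw [nodal_eval]
        simp [h1, h2, h3, hq, hs1]

/-- the singular ray lies on the boundary of the cone, so the example is not a smooth one. -/
lemma nodal_singular : (![1, 0, 0, 0] : Fin 4 → ℝ) ∈ hypCone nodal nodalDir ∧
    ∀ i, eval ![1, 0, 0, 0] (pderiv i nodal) = 0 := by
  refine ⟨fun t ht => ?_, fun i => ?_⟩
  · rw [nodal_eval] at ht
    simp [nodalDir] at ht
    by_contra hneg
    push Not at hneg
    nlinarith [pow_pos (neg_pos.mpr hneg) 2, pow_pos (neg_pos.mpr hneg) 3]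
  · fin_cases i <;> simp [nodal]

end Vale.Agent.P256
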