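import Vale.Agent.P256.Defs
import Vale.Agent.P256.Criterion

/-!
Closure of spectrahedral shadows under finite intersections and linear preimages, and the
hyperbolicity cone of a product and of a pullback.
-/

namespace Vale.Agent.P256

open Matrix Finset

/-- A linear matrix inequality with any finite index types gives a spectrahedral shadow. -/
theorem isShadow_of_affine {n : ℕ} {U J : Type*} [Fintype U] [Fintype J]
    (A0 : Matrix J J ℝ) (A : Fin n → Matrix J J ℝ) (B : U → Matrix J J ℝ)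
    (h0 : A0.IsSymm) (hA : ∀ i, (A i).IsSymm) (hB : ∀ j, (B j).IsSymm)
    {K : Set (Fin n → ℝ)}
    (hK : ∀ x, x ∈ K ↔ ∃ u : U → ℝ, (A0 + ∑ i, x i • A i + ∑ j, u j • B j).PosSemidef) :
    IsSpectrahedralShadow K := by
  let eJ := (Fintype.equivFin J).symm
  let eU := (Fintype.equivFin U).symm
  refine ⟨Fintype.card U, Fintype.card J, A0.submatrix eJ eJ, fun i => (A i).submatrix eJ eJ,
    fun j => (B (eU j)).submatrix eJ eJ, h0.submatrix _, fun i => (hA i).submatrix _,
    fun j => (hB _).submatrix _, ?_⟩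
  have key : ∀ (x : Fin n → ℝ) (u : U → ℝ),
      A0.submatrix eJ eJ + ∑ i, x i • (A i).submatrix eJ eJ
        + ∑ j, u (eU j) • (B (eU j)).submatrix eJ eJ
      = (A0 + ∑ i, x i • A i + ∑ j, u j • B j).submatrix eJ eJ := fun x u => by
    ext p q
    rw [← eU.sum_comp (fun j => u j • B j)]
    simp [Matrix.sum_apply]
  ext x
  simp only [Set.mem_ofPred_eq]
  rw [hK]
  constructor
  · rintro ⟨u, hu⟩
    refine ⟨u ∘ eU, ?_⟩
    simp only [Function.comp_apply]
    rwa [key, posSemidef_submatrix_equiv]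
  · rintro ⟨u, hu⟩
    refine ⟨u ∘ eU.symm, ?_⟩
    rw [← posSemidef_submatrix_equiv eJ, ← key]
    simpa using hu

lemma posSemidef_fromBlocks_zero {I J : Type*} [Fintype I] [Fintype J] (M : Matrix I I ℝ)
    (N : Matrix J J ℝ) : (fromBlocks M 0 0 N).PosSemidef ↔ M.PosSemidef ∧ N.PosSemidef := by
  refine ⟨fun h => ⟨h.submatrix Sum.inl, h.submatrix Sum.inr⟩, fun ⟨hM, hN⟩ => ?_⟩
  refine PosSemidef.of_dotProduct_mulVec_nonneg
    (IsHermitian.fromBlocks hM.isHermitian (by simp) hN.isHermitian) fun v => ?_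
  have h1 := hM.dotProduct_mulVec_nonneg (v ∘ Sum.inl)
  have h2 := hN.dotProduct_mulVec_nonneg (v ∘ Sum.inr)
  rw [fromBlocks_mulVec, dotProduct, Fintype.sum_sum_type]
  simp only [Sum.elim_inl, Sum.elim_inr, zero_mulVec, add_zero, zero_add]
  simpa [dotProduct] using add_nonneg h1 h2

theorem IsSpectrahedralShadow.inter {n : ℕ} {S T : Set (Fin n → ℝ)}
    (hS : IsSpectrahedralShadow S) (hT : IsSpectrahedralShadow T) :
    IsSpectrahedralShadow (S ∩ T) := by
  obtain ⟨k, N, A0, A, B, h0, hA, hB, rfl⟩ := hS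
  obtain ⟨k', N', A0', A', B', h0', hA', hB', rfl⟩ := hT
  refine isShadow_of_affine (U := Fin k ⊕ Fin k') (J := Fin N ⊕ Fin N') (fromBlocks A0 0 0 A0')
    (fun i => fromBlocks (A i) 0 0 (A' i))
    (Sum.elim (fun j => fromBlocks (B j) 0 0 0) fun j => fromBlocks 0 0 0 (B' j))
    (h0.fromBlocks (by simp) h0') (fun i => (hA i).fromBlocks (by simp) (hA' i))
    (by rintro (j | j)
        · exact (hB j).fromBlocks (by simp) isSymm_zero
        · exact isSymm_zero.fromBlocks (by simp) (hB' j)) fun x => ?_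
  have key : ∀ u : Fin k ⊕ Fin k' → ℝ,
      fromBlocks A0 0 0 A0' + ∑ i, x i • fromBlocks (A i) 0 0 (A' i)
        + ∑ j, u j • Sum.elim (fun j => fromBlocks (B j) 0 0 0) (fun j => fromBlocks 0 0 0 (B' j)) j
      = fromBlocks (A0 + ∑ i, x i • A i + ∑ j, u (Sum.inl j) • B j) 0 0
          (A0' + ∑ i, x i • A' i + ∑ j, u (Sum.inr j) • B' j) := fun u => by
    ext (p | p) (q | q) <;>
      simp [Matrix.sum_apply, Fintype.sum_sum_type]
  simp only [key, posSemidef_fromBlocks_zero, Set.mem_inter_iff, Set.mem_ofPred_eq]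
  exact ⟨fun ⟨⟨u, hu⟩, u', hu'⟩ => ⟨Sum.elim u u', hu, hu'⟩,
    fun ⟨u, hu, hu'⟩ => ⟨⟨fun j => u (Sum.inl j), hu⟩, fun j => u (Sum.inr j), hu'⟩⟩

theorem isShadow_univ {n : ℕ} : IsSpectrahedralShadow (Set.univ : Set (Fin n → ℝ)) :=
  isShadow_of_affine (U := Empty) (J := Empty) 0 0 0 isSymm_zero (fun _ => isSymm_zero)
    (fun _ => isSymm_zero) fun x =>
      ⟨fun _ => ⟨0, by simpa using PosSemidef.zero⟩, fun _ => trivial⟩

theorem isShadow_iInter {n : ℕ} {ι : Type*} (s : Finset ι) {S : ι → Set (Fin n → ℝ)}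
    (h : ∀ i ∈ s, IsSpectrahedralShadow (S i)) : IsSpectrahedralShadow (⋂ i ∈ s, S i) := by
  classical
  induction s using Finset.induction_on with
  | empty => simpa using isShadow_univ
  | insert a s _ ih =>
    rw [Finset.set_biInter_insert]
    exact (h a (mem_insert_self a s)).inter (ih fun i hi => h i (mem_insert_of_mem hi))

theorem IsSpectrahedralShadow.preimage {n m : ℕ} {S : Set (Fin m → ℝ)}
    (hS : IsSpectrahedralShadow S) (L : (Fin n → ℝ) →ₗ[ℝ] Fin m → ℝ) :
    IsSpectrahedralShadow (L ⁻¹' S) := by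
  obtain ⟨k, N, A0, A, B, h0, hA, hB, rfl⟩ := hS
  refine isShadow_of_affine A0 (fun i => ∑ j, L (Pi.single i 1) j • A j) B h0
    (fun i => by
      simp only [IsSymm, transpose_sum, transpose_smul]
      exact sum_congr rfl fun j _ => by rw [hA j]) hB fun x => ?_
  have key : ∑ i, x i • ∑ j, L (Pi.single i 1) j • A j = ∑ j, L x j • A j := by
    conv_rhs => rw [pi_eq_sum_univ' x, map_sum]
    simp only [Finset.smul_sum, smul_smul, map_smul, Finset.sum_apply, Pi.smul_apply, smul_eq_mul,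
      Finset.sum_smul]
    rw [Finset.sum_comm]
  simp only [Set.mem_preimage, Set.mem_ofPred_eq, key]

/-- The hyperbolicity cone of a product is the intersection of the cones. -/
theorem hypCone_prod {n : ℕ} {ι : Type*} (s : Finset ι) (f : ι → MvPolynomial (Fin n) ℝ)
    (e : Fin n → ℝ) : hypCone (∏ i ∈ s, f i) e = ⋂ i ∈ s, hypCone (f i) e := by
  ext x
  simp only [hypCone, Set.mem_iInter, Set.mem_ofPred_eq, map_prod, Finset.prod_eq_zero_iff]
  exact ⟨fun h i hi t ht => h t ⟨i, hi, ht⟩, fun h t ⟨i, hi, ht⟩ => h i hi t ht⟩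

/-- The hyperbolicity cone of a pullback is the preimage of the cone. -/
theorem hypCone_comp {n m : ℕ} (p : MvPolynomial (Fin n) ℝ) (q : MvPolynomial (Fin m) ℝ)
    (L : (Fin n → ℝ) →ₗ[ℝ] Fin m → ℝ) (hpq : ∀ x, MvPolynomial.eval x p = MvPolynomial.eval (L x) q)
    (e : Fin n → ℝ) : hypCone p e = L ⁻¹' hypCone q (L e) := by
  ext x
  simp [hypCone, hpq, map_sub, map_smul]

end Vale.Agent.P256
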