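import Mathlib
import Vale.Agent.P256.Defs
import Vale.Agent.P256.Poly
import Vale.Agent.P256.ConePair

/-!
Gårding's theorem for hyperbolic polynomials, and the resulting `ConePair`.
-/

namespace Vale.Agent.P256

open MvPolynomial Filter Topology

variable {n : ℕ}

/-- complex evaluation of a real polynomial. -/
noncomputable def cev (p : MvPolynomial (Fin n) ℝ) (z : Fin n → ℂ) : ℂ :=
  MvPolynomial.eval z (MvPolynomial.map (algebraMap ℝ ℂ) p)

/-- coercion of a real vector. -/
def cvec (x : Fin n → ℝ) : Fin n → ℂ := fun i => (x i : ℂ)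

theorem cev_cvec (p : MvPolynomial (Fin n) ℝ) (x : Fin n → ℝ) :
    cev p (cvec x) = (MvPolynomial.eval x p : ℂ) := by
  rw [cev, MvPolynomial.eval_map]
  induction p using MvPolynomial.induction_on with
  | C c => simp
  | add p q hp hq => simp [hp, hq]
  | mul_X p i hp => simp [hp, cvec]

theorem continuous_cev (p : MvPolynomial (Fin n) ℝ) : Continuous (cev p) :=
  MvPolynomial.continuous_eval _

theorem cev_smul {p : MvPolynomial (Fin n) ℝ} {d : ℕ} (hd : p.IsHomogeneous d) (c : ℂ)
    (z : Fin n → ℂ) : cev p (c • z) = c ^ d * cev p z :=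
  eval_smul_of_isHomogeneous (hd.map _) c z

theorem cvec_add_real (x w : Fin n → ℝ) (s : ℝ) :
    cvec x + (s : ℂ) • cvec w = cvec (x + s • w) := by
  funext i; simp [cvec]

theorem continuous_cvec : Continuous (cvec : (Fin n → ℝ) → Fin n → ℂ) :=
  continuous_pi fun i => Complex.continuous_ofReal.comp (continuous_apply i)

/-- `σ ↦ p (z + σ w)` as a complex polynomial. -/
noncomputable def cline (p : MvPolynomial (Fin n) ℝ) (z w : Fin n → ℂ) : Polynomial ℂ :=
  MvPolynomial.eval₂ (Polynomial.C.comp (algebraMap ℝ ℂ))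
    (fun i => Polynomial.C (z i) + Polynomial.C (w i) * Polynomial.X) p

theorem eval_cline (p : MvPolynomial (Fin n) ℝ) (z w : Fin n → ℂ) (σ : ℂ) :
    (cline p z w).eval σ = cev p (z + σ • w) := by
  rw [cev, MvPolynomial.eval_map, cline]
  induction p using MvPolynomial.induction_on with
  | C c => simp
  | add p q hp hq => simp [hp, hq]
  | mul_X p i hp => simp [hp, mul_comm σ (w i)]

theorem coeff_prod_top {ι R : Type*} [CommSemiring R] (s : Finset ι) (f : ι → Polynomial R)
    (N : ι → ℕ) (hN : ∀ i ∈ s, (f i).natDegree ≤ N i) :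
    (∏ i ∈ s, f i).natDegree ≤ ∑ i ∈ s, N i ∧
      (∏ i ∈ s, f i).coeff (∑ i ∈ s, N i) = ∏ i ∈ s, (f i).coeff (N i) := by
  classical
  induction s using Finset.induction_on with
  | empty => simp
  | insert a s has ih =>
    obtain ⟨h1, h2⟩ := ih fun i hi => hN i (Finset.mem_insert_of_mem hi)
    have ha := hN a (Finset.mem_insert_self a s)
    rw [Finset.prod_insert has, Finset.prod_insert has, Finset.sum_insert has]
    refine ⟨le_trans Polynomial.natDegree_mul_le (add_le_add ha h1), ?_⟩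
    rw [Polynomial.coeff_mul_add_eq_of_natDegree_le ha h1, h2]

theorem cline_degree {p : MvPolynomial (Fin n) ℝ} {d : ℕ} (hd : p.IsHomogeneous d)
    (z w : Fin n → ℂ) :
    (cline p z w).natDegree ≤ d ∧ (cline p z w).coeff d = cev p w := by
  set f : Fin n → Polynomial ℂ := fun i => Polynomial.C (z i) + Polynomial.C (w i) * Polynomial.X
  have hf : ∀ i, (f i).natDegree ≤ 1 := fun i => by
    refine le_trans (Polynomial.natDegree_add_le _ _) ?_
    simp only [Polynomial.natDegree_C, zero_le, max_eq_right]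
    exact Polynomial.natDegree_C_mul_le _ _ |>.trans Polynomial.natDegree_X_le
  have key : ∀ b ∈ p.support,
      (∏ i ∈ b.support, f i ^ b i).natDegree ≤ d ∧
      (∏ i ∈ b.support, f i ^ b i).coeff d = ∏ i ∈ b.support, w i ^ b i := by
    intro b hb
    have hdeg : ∑ i ∈ b.support, b i = d := by
      have := hd (MvPolynomial.mem_support_iff.mp hb)
      simpa [Finsupp.weight_apply, Finsupp.sum] using this
    have h := coeff_prod_top b.support (fun i => f i ^ b i) (fun i => b i)
      fun i _ => le_trans Polynomial.natDegree_pow_le (by simpa using Nat.mul_le_mul_left (b i) (hf i))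
    rw [hdeg] at h
    refine ⟨h.1, h.2.trans (Finset.prod_congr rfl fun i _ => ?_)⟩
    have := Polynomial.coeff_pow_of_natDegree_le (p := f i) (m := b i) (n := 1) (hf i)
    rw [mul_one] at this
    rw [this]
    simp [f]
  rw [cline, MvPolynomial.eval₂_eq]
  constructor
  · refine Polynomial.natDegree_sum_le_of_forall_le _ _ fun b hb => ?_
    exact le_trans (Polynomial.natDegree_C_mul_le _ _) (key b hb).1
  · rw [Polynomial.finsetSum_coeff, cev, MvPolynomial.eval_map, MvPolynomial.eval₂_eq]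
    refine Finset.sum_congr rfl fun b hb => ?_
    rw [RingHom.comp_apply, Polynomial.coeff_C_mul, (key b hb).2]

theorem cline_roots {p : MvPolynomial (Fin n) ℝ} {d : ℕ} (hd : p.IsHomogeneous d)
    (z w : Fin n → ℂ) (hw : cev p w ≠ 0) :
    (cline p z w).roots.card = d ∧
      ∀ σ, cev p (z + σ • w) = cev p w * ((cline p z w).roots.map fun r => σ - r).prod := by
  obtain ⟨hle, hc⟩ := cline_degree hd z w
  have hnd : (cline p z w).natDegree = d :=
    le_antisymm hle (Polynomial.le_natDegree_of_ne_zero (hc ▸ hw))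
  have hs : (cline p z w).Splits := IsAlgClosed.splits _
  have hlc : (cline p z w).leadingCoeff = cev p w := by
    rw [Polynomial.leadingCoeff, hnd, hc]
  refine ⟨hs.natDegree_eq_card_roots.symm.trans hnd, fun σ => ?_⟩
  rw [← eval_cline, hs.eval_eq_prod_roots, hlc]

theorem pow_le_norm_prod (rs : Multiset ℂ) (z : ℂ) {ε : ℝ} (hε : 0 ≤ ε)
    (h : ∀ r ∈ rs, ε ≤ ‖z - r‖) : ε ^ rs.card ≤ ‖(rs.map fun r => z - r).prod‖ := by
  induction rs using Multiset.induction with
  | empty => simp
  | cons a s ih =>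
    rw [Multiset.map_cons, Multiset.prod_cons, Multiset.card_cons, pow_succ', norm_mul]
    exact mul_le_mul (h a (Multiset.mem_cons_self a s))
      (ih fun r hr => h r (Multiset.mem_cons_of_mem hr)) (pow_nonneg hε _) (norm_nonneg _)

theorem exists_root_near {p : MvPolynomial (Fin n) ℝ} {d : ℕ} (hd : p.IsHomogeneous d)
    {z w : Fin n → ℂ} {σ₀ : ℂ} {ε : ℝ} (hε : 0 ≤ ε)
    (h : ‖cev p (z + σ₀ • w)‖ < ‖cev p w‖ * ε ^ d) :
    ∃ r, cev p (z + r • w) = 0 ∧ ‖σ₀ - r‖ < ε := by
  have hw : cev p w ≠ 0 := by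
    intro h0
    rw [h0, norm_zero, zero_mul] at h
    exact absurd h (not_lt.mpr (norm_nonneg _))
  obtain ⟨hcard, hprod⟩ := cline_roots hd z w hw
  by_contra hne
  push Not at hne
  have hall : ∀ r ∈ (cline p z w).roots, ε ≤ ‖σ₀ - r‖ := by
    intro r hr
    refine hne r ?_
    rw [← eval_cline]
    exact (Polynomial.mem_roots'.mp hr).2
  have := pow_le_norm_prod _ σ₀ hε hall
  rw [hcard] at this
  rw [hprod, norm_mul] at h
  exact absurd h (not_lt.mpr (mul_le_mul_of_nonneg_left this (norm_nonneg _)))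

/-- roots do not cross `{L = 0}`. -/
theorem no_roots_homotopy {p : MvPolynomial (Fin n) ℝ} {d : ℕ} (hd : p.IsHomogeneous d)
    {z w : ℝ → Fin n → ℂ} (hz : Continuous z) (hwc : Continuous w) {L : ℂ → ℝ}
    (hL : Continuous L) (hw : ∀ u ∈ Set.Icc (0 : ℝ) 1, cev p (w u) ≠ 0)
    (hb : ∀ u ∈ Set.Icc (0 : ℝ) 1, ∀ σ, cev p (z u + σ • w u) = 0 → 0 ≤ L σ → 0 < L σ)
    (h0 : ∀ σ, cev p (z 0 + σ • w 0) = 0 → ¬ 0 ≤ L σ) :
    ∀ u ∈ Set.Icc (0 : ℝ) 1, ∀ σ, cev p (z u + σ • w u) = 0 → ¬ 0 ≤ L σ := by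
  set I := Set.Icc (0 : ℝ) 1
  set Z : Set (ℝ × ℂ) := {q | cev p (z q.1 + q.2 • w q.1) = 0 ∧ 0 ≤ L q.2}
  have hc : Continuous fun q : ℝ × ℂ => cev p (z q.1 + q.2 • w q.1) :=
    (continuous_cev p).comp ((hz.comp continuous_fst).add
      (continuous_snd.smul (hwc.comp continuous_fst)))
  have hZ : IsClosed Z :=
    (isClosed_eq hc continuous_const).inter (isClosed_le continuous_const (hL.comp continuous_snd))
  have hcr : Continuous fun q : ℂ × ℝ => cev p (w q.2 + q.1 • z q.2) :=
    (continuous_cev p).comp ((hwc.comp continuous_snd).add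
      (continuous_fst.smul (hz.comp continuous_snd)))
  have hbd : ∀ᶠ c in 𝓝 (0 : ℂ), ∀ u ∈ I, cev p (w u + c • z u) ≠ 0 := by
    refine isCompact_Icc.eventually_forall_of_forall_eventually fun u hu => ?_
    have : cev p (w (0, u).2 + ((0 : ℂ), u).1 • z (0, u).2) ≠ 0 := by simpa using hw u hu
    exact hcr.continuousAt.eventually_ne this
  obtain ⟨δ, hδ, hball⟩ := Metric.eventually_nhds_iff.mp hbd
  set R := 2 / δ
  have hroot : ∀ u ∈ I, ∀ σ : ℂ, cev p (z u + σ • w u) = 0 → ‖σ‖ ≤ R := by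
    intro u hu σ hσ
    by_contra hlt
    push Not at hlt
    have hσ0 : σ ≠ 0 := by
      rintro rfl
      simp [R] at hlt
      linarith [div_pos two_pos hδ]
    have hsmall : dist σ⁻¹ 0 < δ := by
      rw [dist_zero_right, norm_inv]
      rw [inv_lt_comm₀ (norm_pos_iff.mpr hσ0) hδ]
      refine lt_trans ?_ hlt
      simp only [R, inv_eq_one_div]
      gcongr
      norm_num
    refine hball hsmall u hu ?_
    have : z u + σ • w u = σ • (w u + σ⁻¹ • z u) := by
      rw [smul_add, smul_smul, mul_inv_cancel₀ hσ0, one_smul, add_comm]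
    rw [this, cev_smul hd] at hσ
    exact (mul_eq_zero.mp hσ).resolve_left (pow_ne_zero _ hσ0)
  have hcomp : IsCompact ((I ×ˢ Metric.closedBall (0 : ℂ) R) ∩ Z) :=
    (isCompact_Icc.prod (isCompact_closedBall _ _)).inter_right hZ
  set T : Set I := {u | ∃ σ : ℂ, cev p (z u + σ • w u) = 0 ∧ 0 ≤ L σ}
  have hT : T = Subtype.val ⁻¹' (Prod.fst '' ((I ×ˢ Metric.closedBall (0 : ℂ) R) ∩ Z)) := by
    ext u
    constructor
    · rintro ⟨σ, h1, h2⟩
      exact ⟨(u, σ), ⟨⟨u.2, by simpa using hroot u u.2 σ h1⟩, h1, h2⟩, rfl⟩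
    · rintro ⟨⟨u', σ⟩, ⟨-, h1, h2⟩, h3⟩
      simp only at h3
      subst h3
      exact ⟨σ, h1, h2⟩
  have hTc : IsClosed T := by
    rw [hT]
    exact (hcomp.image continuous_fst).isClosed.preimage continuous_subtype_val
  have hTo : IsOpen T := by
    rw [isOpen_iff_mem_nhds]
    rintro ⟨u, hu⟩ ⟨σ, h1, h2⟩
    obtain ⟨ε, hε, hLball⟩ := Metric.eventually_nhds_iff.mp
      ((hL.tendsto σ).eventually (lt_mem_nhds (hb u hu σ h1 h2)))
    have hc1 : Continuous fun v : I => ‖cev p (z v + σ • w v)‖ :=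
      ((continuous_cev p).comp ((hz.comp continuous_subtype_val).add
        ((hwc.comp continuous_subtype_val).const_smul σ))).norm
    have hc2 : Continuous fun v : I => ‖cev p (w v)‖ * ε ^ d :=
      ((continuous_cev p).comp (hwc.comp continuous_subtype_val)).norm.mul continuous_const
    have hlt : ‖cev p (z u + σ • w u)‖ < ‖cev p (w u)‖ * ε ^ d := by
      rw [h1, norm_zero]
      exact mul_pos (norm_pos_iff.mpr (hw u hu)) (pow_pos hε _)
    filter_upwards [(isOpen_lt hc1 hc2).mem_nhds (show (⟨u, hu⟩ : I) ∈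
      {v : I | ‖cev p (z v + σ • w v)‖ < ‖cev p (w v)‖ * ε ^ d} from hlt)] with v hv
    obtain ⟨r, hr1, hr2⟩ := exists_root_near hd hε.le hv
    exact ⟨r, hr1, (hLball (by rw [dist_eq_norm, norm_sub_rev]; exact hr2)).le⟩
  haveI : PreconnectedSpace I := Subtype.preconnectedSpace isPreconnected_Icc
  have hempty : T = ∅ := by
    rcases isClopen_iff.mp ⟨hTc, hTo⟩ with h | h
    · exact h
    · obtain ⟨σ, h1, h2⟩ : (⟨0, by simp [I]⟩ : I) ∈ T := h ▸ Set.mem_univ _
      exact absurd h2 (h0 σ h1)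
  intro u hu σ h1 h2
  have : (⟨u, hu⟩ : I) ∈ T := ⟨σ, h1, h2⟩
  rw [hempty] at this
  exact this

/-- The open hyperbolicity cone. -/
def intCone (p : MvPolynomial (Fin n) ℝ) (e : Fin n → ℝ) : Set (Fin n → ℝ) :=
  {x | ∀ t : ℝ, 0 ≤ t → MvPolynomial.eval (x + t • e) p ≠ 0}

theorem one_le_prod_of_one_le (m : Multiset ℝ) (h : ∀ a ∈ m, 1 ≤ a) : 1 ≤ m.prod := by
  induction m using Multiset.induction with
  | empty => simp
  | cons a s ih =>
    rw [Multiset.prod_cons]
    exact one_le_mul_of_one_le_of_one_le (h a (Multiset.mem_cons_self a s))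
      (ih fun b hb => h b (Multiset.mem_cons_of_mem hb))

/-- standing hypotheses. -/
structure HypSetting (p : MvPolynomial (Fin n) ℝ) (e : Fin n → ℝ) (d : ℕ) : Prop where
  hom : p.IsHomogeneous d
  hyp : IsHyperbolicPoly p e

namespace HypSetting

variable {p : MvPolynomial (Fin n) ℝ} {e : Fin n → ℝ} {d : ℕ}

theorem eval_smul (H : HypSetting p e d) (c : ℝ) (x : Fin n → ℝ) :
    MvPolynomial.eval (c • x) p = c ^ d * MvPolynomial.eval x p :=
  eval_smul_of_isHomogeneous H.hom c x

theorem ne_zero_of_im (H : HypSetting p e d) (x : Fin n → ℝ) {z : ℂ} (hz : z.im ≠ 0) :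
    cev p (cvec x + z • cvec e) ≠ 0 := by
  intro h0
  refine hz (H.hyp.2 (-x) z ?_)
  rw [MvPolynomial.aeval_def, ← MvPolynomial.eval_map]
  rw [cev] at h0
  convert h0 using 3
  funext i
  simp [cvec]
  ring

theorem e_mem (H : HypSetting p e d) : e ∈ intCone p e := by
  intro t ht
  rw [show e + t • e = (1 + t) • e by rw [add_smul, one_smul], H.eval_smul]
  exact mul_ne_zero (pow_ne_zero _ (by linarith)) H.hyp.1.ne'

theorem seg_mem (H : HypSetting p e d) {x : Fin n → ℝ} (hx : x ∈ intCone p e) {u : ℝ}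
    (hu : u ∈ Set.Icc (0 : ℝ) 1) : (1 - u) • e + u • x ∈ intCone p e := by
  intro t ht
  rcases hu.1.eq_or_lt with rfl | hu0
  · simpa using H.e_mem t ht
  · rw [show (1 - u) • e + u • x + t • e = u • (x + ((1 - u + t) / u) • e) by
      rw [smul_add, smul_smul, mul_div_cancel₀ _ hu0.ne', add_smul]; abel, H.eval_smul]
    exact mul_ne_zero (pow_ne_zero _ hu0.ne')
      (hx _ (div_nonneg (by linarith [hu.2]) hu0.le))

theorem pos (H : HypSetting p e d) {x : Fin n → ℝ} (hx : x ∈ intCone p e) :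
    0 < MvPolynomial.eval x p := by
  by_contra hle
  push Not at hle
  have hc : ContinuousOn (fun u : ℝ => MvPolynomial.eval ((1 - u) • e + u • x) p)
      (Set.Icc (0 : ℝ) 1) :=
    ((MvPolynomial.continuous_eval p).comp (by fun_prop)).continuousOn
  obtain ⟨u, hu, h0⟩ := intermediate_value_Icc' zero_le_one hc
    (show (0 : ℝ) ∈ Set.Icc _ _ by simpa using ⟨hle, H.hyp.1.le⟩)
  have := H.seg_mem hx hu 0 le_rfl
  simp only [zero_smul, add_zero] at this
  exact this h0

theorem isOpen_intCone (H : HypSetting p e d) : IsOpen (intCone p e) := by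
  have heq : intCone p e = {x | (∀ u ∈ Set.Icc (0 : ℝ) 1, MvPolynomial.eval (x + u • e) p ≠ 0) ∧
      ∀ u ∈ Set.Icc (0 : ℝ) 1, MvPolynomial.eval (u • x + e) p ≠ 0} := by
    ext x
    constructor
    · refine fun hx => ⟨fun u hu => hx u hu.1, fun u hu => ?_⟩
      rcases hu.1.eq_or_lt with rfl | hu0
      · simpa using H.hyp.1.ne'
      · rw [show u • x + e = u • (x + u⁻¹ • e) by
          rw [smul_add, smul_smul, mul_inv_cancel₀ hu0.ne', one_smul], H.eval_smul]
        exact mul_ne_zero (pow_ne_zero _ hu0.ne') (hx _ (inv_nonneg.mpr hu0.le))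
    · rintro ⟨h1, h2⟩ t ht
      by_cases ht1 : t ≤ 1
      · exact h1 t ⟨ht, ht1⟩
      · push Not at ht1
        have ht0 : 0 < t := by linarith
        rw [show x + t • e = t • (t⁻¹ • x + e) by
          rw [smul_add, smul_smul, mul_inv_cancel₀ ht0.ne', one_smul], H.eval_smul]
        exact mul_ne_zero (pow_ne_zero _ ht0.ne')
          (h2 _ ⟨inv_nonneg.mpr ht, inv_le_one_of_one_le₀ ht1.le⟩)
  rw [heq, isOpen_iff_mem_nhds]
  rintro x ⟨h1, h2⟩
  have c1 : Continuous fun q : (Fin n → ℝ) × ℝ => MvPolynomial.eval (q.1 + q.2 • e) p :=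
    (MvPolynomial.continuous_eval p).comp
      (continuous_fst.add (continuous_snd.smul continuous_const))
  have c2 : Continuous fun q : (Fin n → ℝ) × ℝ => MvPolynomial.eval (q.2 • q.1 + e) p :=
    (MvPolynomial.continuous_eval p).comp
      ((continuous_snd.smul continuous_fst).add continuous_const)
  have e1 : ∀ᶠ y in 𝓝 x, ∀ u ∈ Set.Icc (0 : ℝ) 1, MvPolynomial.eval (y + u • e) p ≠ 0 :=
    isCompact_Icc.eventually_forall_of_forall_eventually
      (P := fun y u => MvPolynomial.eval (y + u • e) p ≠ 0)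
      (fun u hu => (c1.continuousAt (x := (x, u))).eventually_ne (h1 u hu))
  have e2 : ∀ᶠ y in 𝓝 x, ∀ u ∈ Set.Icc (0 : ℝ) 1, MvPolynomial.eval (u • y + e) p ≠ 0 :=
    isCompact_Icc.eventually_forall_of_forall_eventually
      (P := fun y u => MvPolynomial.eval (u • y + e) p ≠ 0)
      (fun u hu => (c2.continuousAt (x := (x, u))).eventually_ne (h2 u hu))
  filter_upwards [e1, e2] with y hy1 hy2
  exact ⟨hy1, hy2⟩

theorem no_root_upper (H : HypSetting p e d) (x : Fin n → ℝ) {w : Fin n → ℝ}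
    (hw : w ∈ intCone p e) {α : ℝ} (hα : 0 < α) (σ : ℂ) (hσ : 0 ≤ σ.im) :
    cev p (cvec x + ((α : ℂ) * Complex.I) • cvec e + σ • cvec w) ≠ 0 := by
  intro h0
  refine no_roots_homotopy H.hom (z := fun _ => cvec x + ((α : ℂ) * Complex.I) • cvec e)
    (w := fun u => cvec ((1 - u) • e + u • w)) continuous_const
    (continuous_cvec.comp (by fun_prop)) Complex.continuous_im ?_ ?_ ?_ 1 (by simp) σ
    (by simpa using h0) hσ
  · intro u hu
    rw [cev_cvec, Ne, Complex.ofReal_eq_zero]
    simpa using H.seg_mem hw hu 0 le_rfl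
  · intro u hu τ hτ h
    refine lt_of_le_of_ne h fun him => ?_
    obtain ⟨r, rfl⟩ : ∃ r : ℝ, τ = (r : ℂ) :=
      ⟨τ.re, Complex.ext (by simp) (by simp [← him])⟩
    rw [add_right_comm, cvec_add_real] at hτ
    exact H.ne_zero_of_im _ (z := (α : ℂ) * Complex.I) (by simp [hα.ne']) hτ
  · intro τ hτ h
    simp only [sub_zero, one_smul, zero_smul, add_zero] at hτ
    rw [add_assoc, ← add_smul] at hτ
    exact H.ne_zero_of_im x (z := (α : ℂ) * Complex.I + τ) (by simp; linarith) hτ

theorem real_roots (H : HypSetting p e d) (x : Fin n → ℝ) {w : Fin n → ℝ}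
    (hw : w ∈ intCone p e) {σ : ℂ} (h0 : cev p (cvec x + σ • cvec w) = 0) : σ.im = 0 := by
  have hwne : cev p (cvec w) ≠ 0 := by
    rw [cev_cvec, Ne, Complex.ofReal_eq_zero]
    exact (H.pos hw).ne'
  have key : ∀ (y : Fin n → ℝ) (τ : ℂ), cev p (cvec y + τ • cvec w) = 0 → ¬ 0 < τ.im := by
    intro y τ hτ him
    have hc : Continuous fun α : ℝ =>
        ‖cev p (cvec y + ((α : ℂ) * Complex.I) • cvec e + τ • cvec w)‖ :=
      ((continuous_cev p).comp ((continuous_const.add
        ((Complex.continuous_ofReal.mul continuous_const).smul continuous_const)).add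
        continuous_const)).norm
    have hev : ∀ᶠ α : ℝ in 𝓝 0,
        ‖cev p (cvec y + ((α : ℂ) * Complex.I) • cvec e + τ • cvec w)‖
          < ‖cev p (cvec w)‖ * τ.im ^ d := by
      refine (hc.tendsto 0).eventually (gt_mem_nhds ?_)
      simp [hτ, hwne, pow_pos him, mul_pos_iff_of_pos_left, norm_pos_iff]
    obtain ⟨α, hα, hα0⟩ := ((hev.filter_mono nhdsWithin_le_nhds).and
      (self_mem_nhdsWithin (a := (0 : ℝ)) (s := Set.Ioi 0))).exists
    obtain ⟨r, hr, hdist⟩ := exists_root_near H.hom him.le hα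
    refine H.no_root_upper y hw hα0 r ?_ hr
    have h1 := (Complex.abs_im_le_norm (τ - r)).trans hdist.le
    rw [Complex.sub_im] at h1
    linarith [abs_le.mp h1]
  rcases lt_trichotomy σ.im 0 with h | h | h
  · exfalso
    refine key (-x) (-σ) ?_ (by simpa using h)
    have : cvec (-x) + (-σ) • cvec w = (-1 : ℂ) • (cvec x + σ • cvec w) := by
      funext i; simp [cvec]; ring
    rw [this, cev_smul H.hom, h0, mul_zero]
  · exact h
  · exact absurd h (key x σ h0)

theorem ne_zero_add (H : HypSetting p e d) {x w : Fin n → ℝ} (hx : x ∈ intCone p e)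
    (hw : w ∈ intCone p e) {s : ℝ} (hs : 0 ≤ s) : MvPolynomial.eval (x + s • w) p ≠ 0 := by
  intro h0
  refine no_roots_homotopy H.hom (z := fun u => cvec ((1 - u) • e + u • x))
    (w := fun _ => cvec w) (continuous_cvec.comp (by fun_prop)) continuous_const
    Complex.continuous_re ?_ ?_ ?_ 1 (by simp) (s : ℂ) ?_ (by simpa using hs)
  · intro u _
    rw [cev_cvec, Ne, Complex.ofReal_eq_zero]
    exact (H.pos hw).ne'
  · intro u hu τ hτ h
    refine lt_of_le_of_ne h fun hre => ?_
    have : τ = 0 := Complex.ext (by simp [← hre]) (H.real_roots _ hw hτ)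
    subst this
    rw [zero_smul, add_zero, cev_cvec, Complex.ofReal_eq_zero] at hτ
    exact (H.pos (H.seg_mem hx hu)).ne' hτ
  · intro τ hτ h
    simp only [sub_zero, one_smul, zero_smul, add_zero] at hτ
    obtain ⟨r, rfl⟩ : ∃ r : ℝ, τ = (r : ℂ) :=
      ⟨τ.re, Complex.ext (by simp) (by simpa using H.real_roots _ hw hτ)⟩
    rw [cvec_add_real, cev_cvec, Complex.ofReal_eq_zero] at hτ
    simp only [Complex.ofReal_re] at h
    rcases h.eq_or_lt with rfl | hr
    · rw [zero_smul, add_zero] at hτ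
      exact H.hyp.1.ne' hτ
    · rw [show e + r • w = r • (w + r⁻¹ • e) by
        rw [smul_add, smul_smul, mul_inv_cancel₀ hr.ne', one_smul, add_comm], H.eval_smul] at hτ
      exact mul_ne_zero (pow_ne_zero _ hr.ne') (hw _ (inv_nonneg.mpr hr.le)) hτ
  · rw [show (1 - (1 : ℝ)) • e + (1 : ℝ) • x = x by simp, cvec_add_real, cev_cvec, h0,
      Complex.ofReal_zero]

theorem add_int (H : HypSetting p e d) {x w : Fin n → ℝ} (hx : x ∈ intCone p e)
    (hw : w ∈ intCone p e) : x + w ∈ intCone p e := by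
  intro t ht
  rw [add_right_comm, ← one_smul ℝ w]
  refine H.ne_zero_add (fun s hs => ?_) hw zero_le_one
  rw [add_assoc, ← add_smul]
  exact hx _ (by linarith)

theorem smul_int (H : HypSetting p e d) {c : ℝ} (hc : 0 < c) {x : Fin n → ℝ}
    (hx : x ∈ intCone p e) : c • x ∈ intCone p e := by
  intro t ht
  rw [show c • x + t • e = c • (x + (t / c) • e) by
    rw [smul_add, smul_smul, mul_div_cancel₀ _ hc.ne'], H.eval_smul]
  exact mul_ne_zero (pow_ne_zero _ hc.ne') (hx _ (div_nonneg ht hc.le))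

theorem mem_hypCone_iff (H : HypSetting p e d) {x : Fin n → ℝ} :
    x ∈ hypCone p e ↔ ∀ t : ℝ, 0 < t → x + t • e ∈ intCone p e := by
  have flip : ∀ t : ℝ, MvPolynomial.eval (t • e - x) p
      = (-1) ^ d * MvPolynomial.eval (x + (-t) • e) p := by
    intro t
    rw [← H.eval_smul]
    congr 2
    funext i; simp; ring
  constructor
  · intro hx t ht s hs h0
    have := hx (-(t + s)) (by
      rw [flip, neg_neg, add_smul, ← add_assoc, h0, mul_zero])
    linarith
  · intro hx t h0
    by_contra hlt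
    push Not at hlt
    rw [flip] at h0
    refine (hx (-t) (by linarith) 0 le_rfl) ?_
    rw [zero_smul, add_zero]
    exact (mul_eq_zero.mp h0).resolve_left (pow_ne_zero _ (by norm_num))

theorem int_subset (H : HypSetting p e d) {x : Fin n → ℝ} (hx : x ∈ intCone p e) :
    x ∈ hypCone p e :=
  H.mem_hypCone_iff.mpr fun t ht s hs => by
    rw [add_assoc, ← add_smul]
    exact hx _ (by linarith)

theorem add_cone (H : HypSetting p e d) {x y : Fin n → ℝ} (hx : x ∈ hypCone p e)
    (hy : y ∈ hypCone p e) : x + y ∈ hypCone p e := by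
  rw [H.mem_hypCone_iff] at hx hy ⊢
  intro t ht
  have := H.add_int (hx (t / 2) (by linarith)) (hy (t / 2) (by linarith))
  convert this using 1
  funext i; simp; ring

theorem smul_cone (H : HypSetting p e d) {c : ℝ} (hc : 0 ≤ c) {x : Fin n → ℝ}
    (hx : x ∈ hypCone p e) : c • x ∈ hypCone p e := by
  rcases hc.eq_or_lt with rfl | hc0
  · rw [zero_smul, H.mem_hypCone_iff]
    intro t ht
    rw [zero_add]
    exact H.smul_int ht H.e_mem
  rw [H.mem_hypCone_iff] at hx ⊢
  intro t ht
  have := H.smul_int hc0 (hx (t / c) (by positivity))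
  rwa [smul_add, smul_smul, mul_div_cancel₀ _ hc0.ne'] at this

theorem cone_add_int (H : HypSetting p e d) {x w : Fin n → ℝ} (hx : x ∈ hypCone p e)
    (hw : w ∈ intCone p e) : x + w ∈ intCone p e := by
  have hc : Continuous fun δ : ℝ => w - δ • e := by fun_prop
  have hev : ∀ᶠ δ in 𝓝 (0 : ℝ), w - δ • e ∈ intCone p e :=
    (hc.tendsto 0).eventually (H.isOpen_intCone.mem_nhds (by simpa using hw))
  obtain ⟨δ, h1, hδ⟩ := ((hev.filter_mono nhdsWithin_le_nhds).and
    (self_mem_nhdsWithin (a := (0 : ℝ)) (s := Set.Ioi 0))).exists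
  have := H.add_int (H.mem_hypCone_iff.mp hx δ hδ) h1
  convert this using 1
  abel

theorem isClosed_hypCone (H : HypSetting p e d) : IsClosed (hypCone p e) := by
  rw [← isOpen_compl_iff, isOpen_iff_mem_nhds]
  intro x hx
  rw [Set.mem_compl_iff, H.mem_hypCone_iff] at hx
  push Not at hx
  obtain ⟨t, ht, hxt⟩ := hx
  have hc : Continuous fun y : Fin n → ℝ => (x - y) + (t / 2) • e := by fun_prop
  have hev : ∀ᶠ y in 𝓝 x, (x - y) + (t / 2) • e ∈ intCone p e :=
    (hc.tendsto x).eventually (H.isOpen_intCone.mem_nhds (by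
      simpa using H.smul_int (by linarith : 0 < t / 2) H.e_mem))
  filter_upwards [hev] with y hy hyK
  refine hxt ?_
  have := H.add_int (H.mem_hypCone_iff.mp hyK (t / 2) (by linarith)) hy
  convert this using 1
  funext i; simp; ring

theorem nonneg_cone (H : HypSetting p e d) {x : Fin n → ℝ} (hx : x ∈ hypCone p e) :
    0 ≤ MvPolynomial.eval x p := by
  have hc : Continuous fun t : ℝ => MvPolynomial.eval (x + t • e) p :=
    (MvPolynomial.continuous_eval p).comp (by fun_prop)
  simpa using nonneg_at_zero hc (by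
    filter_upwards [self_mem_nhdsWithin] with t ht
    exact (H.pos (H.mem_hypCone_iff.mp hx t ht)).le)

theorem mem_int_of_ne (H : HypSetting p e d) {x : Fin n → ℝ} (hx : x ∈ hypCone p e)
    (h : MvPolynomial.eval x p ≠ 0) : x ∈ intCone p e := by
  intro t ht
  rcases ht.eq_or_lt with rfl | ht0
  · simpa using h
  · simpa using H.mem_hypCone_iff.mp hx t ht0 0 le_rfl

theorem real_factor (H : HypSetting p e d) (x : Fin n → ℝ) {w : Fin n → ℝ}
    (hw : w ∈ intCone p e) :
    ∃ rs : Multiset ℝ, rs.card = d ∧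
      (∀ r ∈ rs, MvPolynomial.eval (x + r • w) p = 0) ∧
      ∀ σ : ℝ, MvPolynomial.eval (x + σ • w) p
        = MvPolynomial.eval w p * (rs.map fun r => σ - r).prod := by
  have hwne : cev p (cvec w) ≠ 0 := by
    rw [cev_cvec, Ne, Complex.ofReal_eq_zero]
    exact (H.pos hw).ne'
  obtain ⟨hcard, hprod⟩ := cline_roots H.hom (cvec x) (cvec w) hwne
  set rc := (cline p (cvec x) (cvec w)).roots
  have hroot : ∀ r ∈ rc, cev p (cvec x + r • cvec w) = 0 := fun r hr => by
    rw [← eval_cline]; exact (Polynomial.mem_roots'.mp hr).2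
  have hre : ∀ r ∈ rc, ((r.re : ℝ) : ℂ) = r := fun r hr =>
    Complex.ext (by simp) (by simp [H.real_roots x hw (hroot r hr)])
  refine ⟨rc.map Complex.re, by rw [Multiset.card_map, hcard], ?_, fun σ => ?_⟩
  · intro r hr
    obtain ⟨z, hz, rfl⟩ := Multiset.mem_map.mp hr
    have := hroot z hz
    rw [← hre z hz, cvec_add_real, cev_cvec, Complex.ofReal_eq_zero] at this
    exact this
  · have := hprod (σ : ℂ)
    rw [cvec_add_real, cev_cvec, cev_cvec] at this
    apply Complex.ofReal_injective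
    rw [this, Complex.ofReal_mul, Multiset.map_map]
    congr 1
    refine (congrArg Multiset.prod ?_).trans (map_multiset_prod Complex.ofRealHom _).symm
    rw [Multiset.map_map]
    refine Multiset.map_congr rfl fun r hr => ?_
    simp [hre r hr]

theorem roots_nonpos (H : HypSetting p e d) {x w : Fin n → ℝ} (hx : x ∈ hypCone p e)
    (hw : w ∈ intCone p e) {r : ℝ} (hr : MvPolynomial.eval (x + r • w) p = 0) : r ≤ 0 := by
  by_contra hlt
  push Not at hlt
  exact (H.pos (H.cone_add_int hx (H.smul_int hlt hw))).ne' hr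

theorem mono_cone (H : HypSetting p e d) {x w : Fin n → ℝ} (hx : x ∈ hypCone p e)
    (hw : w ∈ hypCone p e) : MvPolynomial.eval w p ≤ MvPolynomial.eval (x + w) p := by
  by_cases h : MvPolynomial.eval w p = 0
  · rw [h]; exact H.nonneg_cone (H.add_cone hx hw)
  have hwi := H.mem_int_of_ne hw h
  obtain ⟨rs, -, hr, hprod⟩ := H.real_factor x hwi
  have := hprod 1
  rw [one_smul] at this
  rw [this]
  refine le_mul_of_one_le_right (H.pos hwi).le ?_
  refine one_le_prod_of_one_le _ ?_
  intro a ha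
  obtain ⟨r, hrr, rfl⟩ := Multiset.mem_map.mp ha
  linarith [H.roots_nonpos hx hwi (hr r hrr)]

end HypSetting

theorem coeff_prod_one_sub (rs : Multiset ℝ) :
    (rs.map fun r => 1 - Polynomial.C r * Polynomial.X).prod.coeff 0 = 1 ∧
    (rs.map fun r => 1 - Polynomial.C r * Polynomial.X).prod.coeff 1 = -rs.sum ∧
    2 * (rs.map fun r => 1 - Polynomial.C r * Polynomial.X).prod.coeff 2
      = rs.sum ^ 2 - (rs.map fun r => r ^ 2).sum ∧
    0 ≤ (rs.map fun r => r ^ 2).sum ∧
    ∀ k, |(rs.map fun r => 1 - Polynomial.C r * Polynomial.X).prod.coeff k|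
      ≤ 2 ^ rs.card * Real.sqrt ((rs.map fun r => r ^ 2).sum) ^ k := by
  induction rs using Multiset.induction with
  | empty =>
    refine ⟨by simp, by simp [Polynomial.coeff_one], by simp [Polynomial.coeff_one], by simp,
      fun k => ?_⟩
    rcases k with _ | k <;> simp [Polynomial.coeff_one]
  | cons a s ih =>
    obtain ⟨h0, h1, h2, hS, hk⟩ := ih
    set P := (s.map fun r => 1 - Polynomial.C r * Polynomial.X).prod
    set S := (s.map fun r => r ^ 2).sum
    have hcons : ((a ::ₘ s).map fun r => 1 - Polynomial.C r * Polynomial.X).prod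
        = P - Polynomial.C a * (Polynomial.X * P) := by
      rw [Multiset.map_cons, Multiset.prod_cons]; ring
    have hsum : ((a ::ₘ s).map fun r => r ^ 2).sum = a ^ 2 + S := by simp [S]
    rw [hcons, hsum, Multiset.sum_cons, Multiset.card_cons]
    have hz : ∀ k, (P - Polynomial.C a * (Polynomial.X * P)).coeff (k + 1)
        = P.coeff (k + 1) - a * P.coeff k := by
      intro k; simp [Polynomial.coeff_X_mul]
    refine ⟨by simp [h0], ?_, ?_, by positivity, ?_⟩
    · rw [hz 0, h1, h0]; ring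
    · rw [hz 1, h1]; linear_combination h2
    · intro k
      have hM : Real.sqrt S ≤ Real.sqrt (a ^ 2 + S) := Real.sqrt_le_sqrt (by nlinarith)
      have ha : |a| ≤ Real.sqrt (a ^ 2 + S) := by
        rw [← Real.sqrt_sq_eq_abs]; exact Real.sqrt_le_sqrt (by linarith)
      rcases k with _ | k
      · simp [h0, one_le_pow₀ (by norm_num : (1 : ℝ) ≤ 2)]
      · rw [hz k]
        set M := Real.sqrt (a ^ 2 + S)
        have hM0 : 0 ≤ M := Real.sqrt_nonneg _
        calc |P.coeff (k + 1) - a * P.coeff k|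
            ≤ |P.coeff (k + 1)| + |a| * |P.coeff k| := by
              refine (abs_sub _ _).trans ?_
              rw [abs_mul]
          _ ≤ 2 ^ s.card * M ^ (k + 1) + M * (2 ^ s.card * M ^ k) := by
              refine add_le_add ((hk _).trans ?_) (mul_le_mul ha ((hk k).trans ?_) (abs_nonneg _) hM0)
              · gcongr
              · gcongr
          _ = 2 ^ (s.card + 1) * M ^ (k + 1) := by ring

namespace HypSetting

variable {p : MvPolynomial (Fin n) ℝ} {e : Fin n → ℝ} {d : ℕ}

/-- `τ ↦ p (w + τ v)` is a product of real linear factors for `w` inside. -/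
theorem line_factor (H : HypSetting p e d) (v : Fin n → ℝ) {w : Fin n → ℝ}
    (hw : w ∈ intCone p e) :
    ∃ rs : Multiset ℝ, rs.card = d ∧ (∀ r ∈ rs, MvPolynomial.eval (v + r • w) p = 0) ∧
      line p w v = Polynomial.C (MvPolynomial.eval w p)
        * (rs.map fun r => 1 - Polynomial.C r * Polynomial.X).prod := by
  obtain ⟨rs, hcard, hr, hprod⟩ := H.real_factor v hw
  refine ⟨rs, hcard, hr, Polynomial.funext fun τ => ?_⟩
  rw [eval_line, Polynomial.eval_mul, Polynomial.eval_C, Polynomial.eval_multiset_prod,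
    Multiset.map_map]
  simp only [Function.comp_def, Polynomial.eval_sub, Polynomial.eval_one, Polynomial.eval_mul,
    Polynomial.eval_C, Polynomial.eval_X]
  by_cases hτ : τ = 0
  · subst hτ; simp
  · rw [show w + τ • v = τ • (v + τ⁻¹ • w) by
      rw [smul_add, smul_smul, mul_inv_cancel₀ hτ, one_smul, add_comm], H.eval_smul, hprod,
      show (rs.map fun r => 1 - r * τ) = rs.map fun r => τ * (τ⁻¹ - r) from
        Multiset.map_congr rfl fun r _ => by field_simp,
      Multiset.prod_map_mul, Multiset.map_const', Multiset.prod_replicate, hcard]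
    ring

theorem conePair (H : HypSetting p e d) : ConePair d p e (hypCone p e) where
  hom := H.hom
  isClosed := H.isClosed_hypCone
  add_mem _ hx _ hy := H.add_cone hx hy
  smul_mem _ hc _ hx := H.smul_cone hc hx
  e_nhds := mem_of_superset (H.isOpen_intCone.mem_nhds H.e_mem) fun _ => H.int_subset
  nonneg _ hx := H.nonneg_cone hx
  pos_add _ hx t ht := H.pos (H.mem_hypCone_iff.mp hx t ht)
  nhds_mem _ hx h := mem_of_superset (H.isOpen_intCone.mem_nhds (H.mem_int_of_ne hx h.ne'))
    fun _ => H.int_subset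
  mono := ⟨1, fun _ hx _ hw => by rw [one_mul]; exact H.mono_cone hx hw⟩
  ineq2 x hx h v := by
    obtain ⟨rs, -, -, hl⟩ := H.line_factor v (H.mem_int_of_ne hx h.ne')
    obtain ⟨h0, h1, h2, hS, -⟩ := coeff_prod_one_sub rs
    rw [hl, Polynomial.coeff_C_mul, Polynomial.coeff_C_mul, Polynomial.coeff_C_mul, h0, h1]
    have : 0 ≤ MvPolynomial.eval x p ^ 2 * (rs.map fun r => r ^ 2).sum :=
      mul_nonneg (sq_nonneg _) hS
    linear_combination this + MvPolynomial.eval x p ^ 2 * h2
  ineqk k _ := by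
    refine ⟨(2 ^ d) ^ 2, fun x hx h v => ?_⟩
    obtain ⟨rs, hcard, -, hl⟩ := H.line_factor v (H.mem_int_of_ne hx h.ne')
    obtain ⟨h0, h1, h2, hS, hk⟩ := coeff_prod_one_sub rs
    simp only [hl, Polynomial.coeff_C_mul, h0, h1, mul_one]
    set a := MvPolynomial.eval x p
    set S := (rs.map fun r => r ^ 2).sum
    set c2 := (rs.map fun r => 1 - Polynomial.C r * Polynomial.X).prod.coeff 2
    have e1 : (a * -rs.sum) ^ 2 - 2 * a * (a * c2) = a ^ 2 * S := by
      linear_combination (-a ^ 2) * h2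
    have hb := hk k
    rw [hcard] at hb
    have hb2 := mul_self_le_mul_self (abs_nonneg _) hb
    rw [← sq, sq_abs] at hb2
    rw [e1]
    have hs2 : (Real.sqrt S ^ k) ^ 2 = S ^ k := by
      rw [← pow_mul, mul_comm k 2, pow_mul, Real.sq_sqrt hS]
    calc (a * (rs.map fun r => 1 - Polynomial.C r * Polynomial.X).prod.coeff k) ^ 2 * a ^ (2 * k)
        ≤ a ^ 2 * ((2 ^ d * Real.sqrt S ^ k) * (2 ^ d * Real.sqrt S ^ k)) * a ^ (2 * k) := by
          rw [mul_pow]
          gcongr
      _ = (2 ^ d) ^ 2 * a ^ 2 * (a ^ 2 * S) ^ k := by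
          rw [show (2 ^ d * Real.sqrt S ^ k) * (2 ^ d * Real.sqrt S ^ k)
            = (2 ^ d) ^ 2 * (Real.sqrt S ^ k) ^ 2 by ring, hs2, mul_pow (a ^ 2) S k, ← pow_mul]
          ring

/-- on a pointed cone `x ↦ D_x p (e)` is positive. -/
theorem dd_e_nonneg_and (H : HypSetting p e d) {x : Fin n → ℝ} (hx : x ∈ hypCone p e) :
    0 ≤ dd p e x ∧ (dd p e x = 0 → -x ∈ hypCone p e) := by
  obtain ⟨rs, hcard, hr, hl⟩ := H.line_factor x H.e_mem
  have hdd : dd p e x = MvPolynomial.eval e p * -rs.sum := by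
    rw [← coeff_line_one, hl, Polynomial.coeff_C_mul, (coeff_prod_one_sub rs).2.1]
  have hle : ∀ r ∈ rs, r ≤ 0 := fun r hrr => H.roots_nonpos hx H.e_mem (hr r hrr)
  have hsum : rs.sum ≤ 0 := by
    have := Multiset.sum_le_card_nsmul rs 0 hle
    simpa using this
  refine ⟨by rw [hdd]; exact mul_nonneg H.hyp.1.le (by linarith), fun h0 => ?_⟩
  have hs0 : rs.sum = 0 := by
    rw [hdd] at h0
    have := (mul_eq_zero.mp h0).resolve_left H.hyp.1.ne'
    linarith
  have hall : ∀ r ∈ rs, r = 0 := by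
    intro r hrr
    obtain ⟨t, rfl⟩ := Multiset.exists_cons_of_mem hrr
    have h1 : t.sum ≤ 0 := by
      have := Multiset.sum_le_card_nsmul t 0 fun s hs => hle s (Multiset.mem_cons_of_mem hs)
      simpa using this
    rw [Multiset.sum_cons] at hs0
    linarith [hle r hrr]
  obtain ⟨rs', hcard', hr', hprod⟩ := H.real_factor (-x) H.e_mem
  rw [H.mem_hypCone_iff]
  intro t ht s hs h0'
  rw [add_assoc, ← add_smul] at h0'
  -- `p(x + σ e)` is a multiple of `σ ^ d`
  have hroot : MvPolynomial.eval (x + (-(t + s)) • e) p = 0 := by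
    rw [show x + (-(t + s)) • e = (-1 : ℝ) • (-x + (t + s) • e) by
      funext i; simp; ring, H.eval_smul, h0', mul_zero]
  have hval := eval_line p e x (-(t + s))⁻¹
  have hne : (-(t + s)) ≠ 0 := by linarith
  rw [show e + (-(t + s))⁻¹ • x = (-(t + s))⁻¹ • (x + (-(t + s)) • e) by
    rw [smul_add, smul_smul, inv_mul_cancel₀ hne, one_smul, add_comm], H.eval_smul, hroot,
    mul_zero, hl] at hval
  have hone : (rs.map fun r => 1 - Polynomial.C r * Polynomial.X).prod = 1 := by
    refine Multiset.prod_eq_one fun q hq => ?_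
    obtain ⟨r, hrr, rfl⟩ := Multiset.mem_map.mp hq
    simp [hall r hrr]
  rw [hone, mul_one, Polynomial.eval_C] at hval
  exact H.hyp.1.ne' hval

end HypSetting

end Vale.Agent.P256
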