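import Mathlib
import Vale.Agent.P256.Defs
import Vale.Agent.P256.Poly
import Vale.Agent.P256.ConePair
import Vale.Agent.P256.Garding

/-!
The localisation of a hyperbolic polynomial at a point of its cone, and its `ConePair`.
-/

namespace Vale.Agent.P256

open MvPolynomial Filter Topology

variable {n : ℕ}

/-- the degree `j` part of `p (a + X)`. -/
noncomputable def tayl (p : MvPolynomial (Fin n) ℝ) (a : Fin n → ℝ) (j : ℕ) :
    MvPolynomial (Fin n) ℝ :=
  homogeneousComponent j (shiftPoly a p)

/-- `(λ, u) ↦ Σ_{j ≥ m} λ^{j-m} p_j(u)`. -/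
noncomputable def blow (p : MvPolynomial (Fin n) ℝ) (a : Fin n → ℝ) (m d : ℕ) :
    MvPolynomial (Fin (n + 1)) ℝ :=
  ∑ j ∈ Finset.Icc m d, MvPolynomial.X 0 ^ (j - m) * MvPolynomial.rename Fin.succ (tayl p a j)

/-- evaluation of `blow`. -/
noncomputable def bev (p : MvPolynomial (Fin n) ℝ) (a : Fin n → ℝ) (m d : ℕ) (lam : ℝ)
    (u : Fin n → ℝ) : ℝ :=
  MvPolynomial.eval (Fin.cons lam u) (blow p a m d)

theorem continuous_cons :
    Continuous fun z : ℝ × (Fin n → ℝ) => (Fin.cons z.1 z.2 : Fin (n + 1) → ℝ) := by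
  refine continuous_pi fun i => ?_
  refine Fin.cases ?_ (fun k => ?_) i
  · simpa using continuous_fst
  · simp only [Fin.cons_succ]
    exact (continuous_apply k).comp continuous_snd

theorem continuous_bev (p : MvPolynomial (Fin n) ℝ) (a : Fin n → ℝ) (m d : ℕ) :
    Continuous fun z : ℝ × (Fin n → ℝ) => bev p a m d z.1 z.2 :=
  (MvPolynomial.continuous_eval _).comp continuous_cons

theorem continuous_bev_comp {X : Type*} [TopologicalSpace X] (p : MvPolynomial (Fin n) ℝ)
    (a : Fin n → ℝ) (m d : ℕ) {f : X → ℝ} {g : X → Fin n → ℝ} (hf : Continuous f)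
    (hg : Continuous g) : Continuous fun x => bev p a m d (f x) (g x) :=
  Continuous.comp (g := fun z : ℝ × (Fin n → ℝ) => bev p a m d z.1 z.2) (f := fun x => (f x, g x))
    (continuous_bev p a m d) (hf.prodMk hg)

theorem bev_eq (p : MvPolynomial (Fin n) ℝ) (a : Fin n → ℝ) (m d : ℕ) (lam : ℝ)
    (u : Fin n → ℝ) :
    bev p a m d lam u = ∑ j ∈ Finset.Icc m d, lam ^ (j - m) * MvPolynomial.eval u (tayl p a j) := by
  rw [bev, blow, map_sum]
  refine Finset.sum_congr rfl fun j _ => ?_
  rw [map_mul, map_pow, MvPolynomial.eval_X, Fin.cons_zero, MvPolynomial.eval_rename]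
  congr 2

/-- a point of the cone together with the order of `p` there. -/
structure TanSetting (p : MvPolynomial (Fin n) ℝ) (e : Fin n → ℝ) (d : ℕ) (a : Fin n → ℝ)
    (m : ℕ) : Prop where
  base : HypSetting p e d
  mem : a ∈ hypCone p e
  low : ∀ j < m, tayl p a j = 0
  lead : tayl p a m ≠ 0

/-- directions in which one can move inside the cone from `a`. -/
def feas (p : MvPolynomial (Fin n) ℝ) (e a : Fin n → ℝ) : Set (Fin n → ℝ) :=
  {s | ∃ r : ℝ, 0 < r ∧ a + r • s ∈ hypCone p e}

/-- the hyperbolicity cone of the lowest form at `a`. -/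
def tcone (p : MvPolynomial (Fin n) ℝ) (e a : Fin n → ℝ) (m : ℕ) : Set (Fin n → ℝ) :=
  {s | ∀ t : ℝ, 0 < t → 0 < MvPolynomial.eval (s + t • e) (tayl p a m)}

theorem HypSetting.int_of_path {p : MvPolynomial (Fin n) ℝ} {e : Fin n → ℝ} {d : ℕ}
    (H : HypSetting p e d) {f : ℝ → Fin n → ℝ} (hf : Continuous f) {l r : ℝ}
    (hne : ∀ t ∈ Set.Icc l r, MvPolynomial.eval (f t) p ≠ 0) (hend : f r ∈ intCone p e)
    (hlr : l ≤ r) : f l ∈ intCone p e := by
  have hsub : Set.Icc l r ⊆ f ⁻¹' intCone p e := by
    refine isPreconnected_Icc.subset_of_closure_inter_subset (H.isOpen_intCone.preimage hf)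
      ⟨r, ⟨hlr, le_rfl⟩, hend⟩ ?_
    rintro t ⟨ht, htI⟩
    refine H.mem_int_of_ne ?_ (hne t htI)
    exact (H.isClosed_hypCone.preimage hf).closure_subset
      (closure_mono (s := f ⁻¹' intCone p e) (fun z hz => H.int_subset hz) ht)
  exact hsub ⟨le_rfl, hlr⟩

namespace TanSetting

variable {p : MvPolynomial (Fin n) ℝ} {e a : Fin n → ℝ} {d m : ℕ}

theorem natDegree_line_le (S : TanSetting p e d a m) (x v : Fin n → ℝ) :
    (line p x v).natDegree ≤ d := by
  refine Polynomial.natDegree_le_iff_coeff_eq_zero.mpr fun k hk => ?_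
  rw [coeff_line, homogeneousComponent_eq_zero]
  · simp
  · exact lt_of_le_of_lt (le_trans (totalDegree_shiftPoly_le x p) S.base.hom.totalDegree_le) hk

theorem le_deg (S : TanSetting p e d a m) : m ≤ d := by
  by_contra h
  push Not at h
  exact S.lead (homogeneousComponent_eq_zero _ _
    (lt_of_le_of_lt (le_trans (totalDegree_shiftPoly_le a p) S.base.hom.totalDegree_le) h))

theorem eval_blow (S : TanSetting p e d a m) (lam : ℝ) (u : Fin n → ℝ) :
    MvPolynomial.eval (a + lam • u) p = lam ^ m * bev p a m d lam u := by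
  rw [← eval_line, Polynomial.eval_eq_sum_range' (Nat.lt_succ_of_le (S.natDegree_line_le a u)),
    bev_eq, Finset.mul_sum]
  simp only [coeff_line]
  have hsub : Finset.Icc m d ⊆ Finset.range (d + 1) := by
    intro j hj; simp at hj ⊢; omega
  rw [← Finset.sum_subset hsub]
  · refine Finset.sum_congr rfl fun j hj => ?_
    simp only [Finset.mem_Icc] at hj
    rw [← mul_assoc, ← pow_add, Nat.add_sub_cancel' hj.1, mul_comm]
    rfl
  · intro j hj hj'
    simp only [Finset.mem_Icc, not_and, not_le] at hj'
    simp only [Finset.mem_range] at hj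
    have hjm : j < m := by
      by_contra hh
      push Not at hh
      have := hj' hh
      omega
    have := S.low j hjm
    rw [tayl] at this
    simp [this]

theorem bev_zero (S : TanSetting p e d a m) (u : Fin n → ℝ) :
    bev p a m d 0 u = MvPolynomial.eval u (tayl p a m) := by
  rw [bev_eq, Finset.sum_eq_single m]
  · simp
  · intro j hj hjm
    simp only [Finset.mem_Icc] at hj
    rw [zero_pow (by omega), zero_mul]
  · intro h
    simp [S.le_deg] at h

theorem tayl_hom (_S : TanSetting p e d a m) : (tayl p a m).IsHomogeneous m :=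
  homogeneousComponent_isHomogeneous m _

theorem feas_scale (S : TanSetting p e d a m) {s : Fin n → ℝ} {r r' : ℝ}
    (h : a + r • s ∈ hypCone p e) (h0 : 0 ≤ r') (hr : r' ≤ r) : a + r' • s ∈ hypCone p e := by
  rcases (h0.trans hr).eq_or_lt with hz | hpos
  · rwa [show r' = r by linarith]
  · have h1 : 0 ≤ 1 - r' / r := by
      rw [sub_nonneg, div_le_one hpos]; exact hr
    have h2 := S.base.add_cone (S.base.smul_cone h1 S.mem)
      (S.base.smul_cone (div_nonneg h0 hpos.le) h)
    convert h2 using 1
    funext i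
    simp
    field_simp
    ring

theorem feas_add (S : TanSetting p e d a m) {s w : Fin n → ℝ} (hs : s ∈ feas p e a)
    (hw : w ∈ feas p e a) : s + w ∈ feas p e a := by
  obtain ⟨r, hr, h1⟩ := hs
  obtain ⟨r', hr', h2⟩ := hw
  refine ⟨min r r' / 2, by positivity, ?_⟩
  have h := S.base.smul_cone (show (0 : ℝ) ≤ 1 / 2 by norm_num)
    (S.base.add_cone (S.feas_scale h1 (r' := min r r') (by positivity) (min_le_left _ _))
      (S.feas_scale h2 (r' := min r r') (by positivity) (min_le_right _ _)))
  convert h using 1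
  funext i; simp; ring

theorem mono_feas (S : TanSetting p e d a m) {s w : Fin n → ℝ} (hs : s ∈ feas p e a)
    (hw : w ∈ feas p e a) : (2 : ℝ) ^ m / 2 ^ d * MvPolynomial.eval w (tayl p a m)
      ≤ MvPolynomial.eval (s + w) (tayl p a m) := by
  obtain ⟨r, hr, h1⟩ := hs
  obtain ⟨r', hr', h2⟩ := hw
  have hc : Continuous fun ε : ℝ =>
      bev p a m d ε (s + w) - 2 ^ m / 2 ^ d * bev p a m d (2 * ε) w :=
    (continuous_bev_comp p a m d (f := fun ε : ℝ => ε) (g := fun _ => s + w)
      continuous_id continuous_const).sub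
      (continuous_const.mul (continuous_bev_comp p a m d (f := fun ε : ℝ => 2 * ε)
        (g := fun _ => w) (continuous_const.mul continuous_id) continuous_const))
  have := nonneg_at_zero hc (by
    filter_upwards [Ioo_mem_nhdsGT (show (0 : ℝ) < min r r' / 2 by positivity)] with ε hε
    have hb : 2 * ε ≤ r ∧ 2 * ε ≤ r' := by
      constructor <;> linarith [hε.2, min_le_left r r', min_le_right r r']
    have hε0 := hε.1
    have hx := S.base.smul_cone (show (0 : ℝ) ≤ 1 / 2 by norm_num)
      (S.feas_scale h1 (r' := 2 * ε) (by linarith) hb.1)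
    have hy := S.base.smul_cone (show (0 : ℝ) ≤ 1 / 2 by norm_num)
      (S.feas_scale h2 (r' := 2 * ε) (by linarith) hb.2)
    have hm := S.base.mono_cone hx hy
    rw [S.base.eval_smul, S.eval_blow, show (1 / 2 : ℝ) • (a + (2 * ε) • s)
      + (1 / 2 : ℝ) • (a + (2 * ε) • w) = a + ε • (s + w) by funext i; simp; ring,
      S.eval_blow, mul_pow] at hm
    refine nonneg_of_mul_nonneg_right (?_ : 0 ≤ ε ^ m * _) (pow_pos hε0 m)
    have e1 : (1 / 2 : ℝ) ^ d * (2 ^ m * ε ^ m * bev p a m d (2 * ε) w)
        = ε ^ m * (2 ^ m / 2 ^ d * bev p a m d (2 * ε) w) := by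
      rw [div_pow, one_pow]; ring
    rw [e1] at hm
    linarith)
  rw [mul_zero, S.bev_zero, S.bev_zero] at this
  linarith

theorem feas_of_int (S : TanSetting p e d a m) {w : Fin n → ℝ} (hw : w ∈ hypCone p e) :
    w ∈ feas p e a :=
  ⟨1, one_pos, by rw [one_smul]; exact S.base.add_cone S.mem hw⟩

theorem feas_nonneg (S : TanSetting p e d a m) {s : Fin n → ℝ} (hs : s ∈ feas p e a) :
    0 ≤ MvPolynomial.eval s (tayl p a m) := by
  obtain ⟨r, hr, h⟩ := hs
  have hc : Continuous fun ε : ℝ => bev p a m d ε s :=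
    continuous_bev_comp p a m d (f := fun ε : ℝ => ε) (g := fun _ => s)
      continuous_id continuous_const
  have := nonneg_at_zero hc (by
    filter_upwards [Ioo_mem_nhdsGT hr] with ε hε
    have h0 := S.base.nonneg_cone (S.feas_scale h hε.1.le hε.2.le)
    rw [S.eval_blow] at h0
    exact nonneg_of_mul_nonneg_right h0 (pow_pos hε.1 m))
  rwa [S.bev_zero] at this

theorem lead_e_pos (S : TanSetting p e d a m) : 0 < MvPolynomial.eval e (tayl p a m) := by
  set T := tayl p a m with hT
  have he := S.feas_of_int (S.base.int_subset S.base.e_mem)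
  refine lt_of_le_of_ne (S.feas_nonneg he) fun h0 => S.lead ?_
  have hzero : ∀ w : Fin n → ℝ, MvPolynomial.eval w T = 0 := by
    intro w
    set P := line T e w with hP
    have hsmall : ∀ᶠ η in 𝓝 (0 : ℝ), P.eval η = 0 := by
      have hc1 : Continuous fun η : ℝ => e + η • w := by fun_prop
      have hc2 : Continuous fun η : ℝ => e - η • w := by fun_prop
      filter_upwards [(hc1.tendsto 0).eventually
          (S.base.isOpen_intCone.mem_nhds (by simpa using S.base.e_mem)),
        (hc2.tendsto 0).eventually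
          (S.base.isOpen_intCone.mem_nhds (by simpa using S.base.e_mem))] with η h1 h2
      have f1 := S.feas_of_int (S.base.int_subset h1)
      have f2 := S.feas_of_int (S.base.int_subset h2)
      have := S.mono_feas f2 f1
      rw [show e - η • w + (e + η • w) = (2 : ℝ) • e by funext i; simp; ring,
        eval_smul_of_isHomogeneous S.tayl_hom, ← hT, ← h0, mul_zero] at this
      rw [hP, eval_line]
      have hc : (0 : ℝ) < 2 ^ m / 2 ^ d := by positivity
      have := S.feas_nonneg f1
      rw [← hT] at this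
      nlinarith
    have hP0 : P = 0 := by
      refine Polynomial.eq_zero_of_infinite_isRoot P ?_
      obtain ⟨δ, hδ, hball⟩ := Metric.eventually_nhds_iff.mp hsmall
      refine (Set.Ioo_infinite hδ).mono fun η hη => hball ?_
      rw [dist_zero_right, Real.norm_eq_abs, abs_of_pos hη.1]
      exact hη.2
    have hc : Continuous fun c : ℝ => MvPolynomial.eval (c • e + w) T :=
      (MvPolynomial.continuous_eval T).comp (by fun_prop)
    have hfun := congrFun (Continuous.ext_on (dense_compl_singleton (0 : ℝ)) hc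
      (continuous_const (y := (0 : ℝ))) fun c hc0 => by
        have hc0 : c ≠ 0 := hc0
        rw [show c • e + w = c • (e + c⁻¹ • w) by
          rw [smul_add, smul_smul, mul_inv_cancel₀ hc0, one_smul],
          eval_smul_of_isHomogeneous S.tayl_hom, ← eval_line, ← hP, hP0]
        simp) 0
    simpa using hfun
  exact MvPolynomial.funext fun w => by simpa [hT] using hzero w

theorem lead_te_pos (S : TanSetting p e d a m) {t : ℝ} (ht : 0 < t) :
    0 < MvPolynomial.eval (t • e) (tayl p a m) := by
  rw [eval_smul_of_isHomogeneous S.tayl_hom]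
  exact mul_pos (pow_pos ht _) S.lead_e_pos

theorem feas_subset (S : TanSetting p e d a m) {s : Fin n → ℝ} (hs : s ∈ feas p e a) :
    s ∈ tcone p e a m := fun t ht =>
  lt_of_lt_of_le (mul_pos (by positivity) (S.lead_te_pos ht))
    (S.mono_feas hs (S.feas_of_int (S.base.int_subset (S.base.smul_int ht S.base.e_mem))))

theorem eventually_int (S : TanSetting p e d a m) {s : Fin n → ℝ}
    (hs : ∀ τ : ℝ, 0 ≤ τ → 0 < MvPolynomial.eval (s + τ • e) (tayl p a m)) :
    ∀ᶠ ε in 𝓝[>] (0 : ℝ), a + ε • s ∈ intCone p e := by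
  have hc : Continuous fun z : ℝ => z • s + e := by fun_prop
  have hnear : ∀ᶠ z in 𝓝[>] (0 : ℝ), z • s + e ∈ intCone p e :=
    ((hc.tendsto 0).mono_left nhdsWithin_le_nhds).eventually
      (S.base.isOpen_intCone.mem_nhds (by simpa using S.base.e_mem))
  obtain ⟨z, hz, hz0⟩ := (hnear.and (self_mem_nhdsWithin (a := (0 : ℝ)) (s := Set.Ioi 0))).exists
  have hz0 : (0 : ℝ) < z := hz0
  have hfar : s + z⁻¹ • e ∈ intCone p e := by
    have := S.base.smul_int (inv_pos.mpr hz0) hz
    rwa [smul_add, smul_smul, inv_mul_cancel₀ hz0.ne', one_smul] at this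
  have hcont : Continuous fun q : ℝ × ℝ => bev p a m d q.1 (s + q.2 • e) :=
    continuous_bev_comp p a m d (f := fun q : ℝ × ℝ => q.1) (g := fun q => s + q.2 • e)
      continuous_fst (continuous_const.add (continuous_snd.smul continuous_const))
  have hcomp : ∀ᶠ ε in 𝓝 (0 : ℝ), ∀ τ ∈ Set.Icc (0 : ℝ) z⁻¹, 0 < bev p a m d ε (s + τ • e) :=
    isCompact_Icc.eventually_forall_of_forall_eventually
      (P := fun ε τ => 0 < bev p a m d ε (s + τ • e))
      fun τ hτ => (hcont.tendsto ((0 : ℝ), τ)).eventually
        (lt_mem_nhds (by simpa [S.bev_zero] using hs τ hτ.1))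
  filter_upwards [hcomp.filter_mono nhdsWithin_le_nhds, self_mem_nhdsWithin] with ε hε hε0
  have hε0 : (0 : ℝ) < ε := hε0
  intro t ht h0
  rw [show a + ε • s + t • e = a + ε • (s + (t / ε) • e) by
    rw [smul_add, smul_smul, mul_div_cancel₀ _ hε0.ne']; abel] at h0
  by_cases hτ : t / ε ≤ z⁻¹
  · rw [S.eval_blow] at h0
    exact (mul_pos (pow_pos hε0 m) (hε _ ⟨div_nonneg ht hε0.le, hτ⟩)).ne' h0
  · push Not at hτ
    have hin := S.base.cone_add_int S.mem (S.base.smul_int hε0 hfar) (ε * (t / ε - z⁻¹))
      (mul_nonneg hε0.le (by linarith))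
    refine hin ?_
    convert h0 using 3
    funext i; simp; ring

theorem tcone_feas (S : TanSetting p e d a m) {s : Fin n → ℝ} (hs : s ∈ tcone p e a m) {t : ℝ}
    (ht : 0 < t) : s + t • e ∈ feas p e a := by
  have hev := S.eventually_int (s := s + t • e) fun τ hτ => by
    rw [add_assoc, ← add_smul]; exact hs _ (by linarith)
  obtain ⟨ε, h, hε⟩ := (hev.and (self_mem_nhdsWithin (a := (0 : ℝ)) (s := Set.Ioi 0))).exists
  exact ⟨ε, hε, S.base.int_subset h⟩

theorem isClosed_tcone (S : TanSetting p e d a m) : IsClosed (tcone p e a m) := by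
  rw [← isOpen_compl_iff, isOpen_iff_mem_nhds]
  intro x hx
  simp only [tcone, Set.mem_compl_iff, Set.mem_ofPred_eq, not_forall] at hx
  obtain ⟨t, ht, hxt⟩ := hx
  have hc : Continuous fun y : Fin n → ℝ => (x - y) + (t / 2) • e := by fun_prop
  have h1 : ∀ᶠ y in 𝓝 x, (x - y) + (t / 2) • e ∈ intCone p e :=
    (hc.tendsto x).eventually (S.base.isOpen_intCone.mem_nhds (by
      simpa using S.base.smul_int (by linarith : 0 < t / 2) S.base.e_mem))
  have hc' : Continuous fun y : Fin n → ℝ =>
      MvPolynomial.eval ((x - y) + (t / 2) • e) (tayl p a m) :=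
    (MvPolynomial.continuous_eval _).comp hc
  have h2 : ∀ᶠ y in 𝓝 x, 0 < MvPolynomial.eval ((x - y) + (t / 2) • e) (tayl p a m) :=
    (hc'.tendsto x).eventually
      (lt_mem_nhds (by simpa using S.lead_te_pos (show 0 < t / 2 by linarith)))
  filter_upwards [h1, h2] with y hy hy2 hyK
  refine hxt ?_
  have := S.mono_feas (S.tcone_feas hyK (show 0 < t / 2 by linarith))
    (S.feas_of_int (S.base.int_subset hy))
  rw [show y + (t / 2) • e + (x - y + (t / 2) • e) = x + t • e by funext i; simp; ring] at this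
  exact lt_of_lt_of_le (mul_pos (by positivity) hy2) this

theorem nonneg_tcone (S : TanSetting p e d a m) {s : Fin n → ℝ} (hs : s ∈ tcone p e a m) :
    0 ≤ MvPolynomial.eval s (tayl p a m) := by
  have hc : Continuous fun t : ℝ => MvPolynomial.eval (s + t • e) (tayl p a m) :=
    (MvPolynomial.continuous_eval _).comp (by fun_prop)
  simpa using nonneg_at_zero hc (by
    filter_upwards [self_mem_nhdsWithin] with t ht using (hs t ht).le)

theorem line_scale (S : TanSetting p e d a m) (ε : ℝ) (x v : Fin n → ℝ) :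
    line p (a + ε • x) (ε • v) = Polynomial.C (ε ^ m) *
      line (blow p a m d) (Fin.cons ε x) (Fin.cons 0 v) := by
  refine Polynomial.funext fun τ => ?_
  rw [eval_line, Polynomial.eval_mul, Polynomial.eval_C, eval_line,
    show a + ε • x + τ • ε • v = a + ε • (x + τ • v) by funext i; simp; ring, S.eval_blow, bev]
  congr 3
  funext i
  refine Fin.cases ?_ (fun k => ?_) i <;> simp

theorem line_blow_zero (S : TanSetting p e d a m) (x v : Fin n → ℝ) :
    line (blow p a m d) (Fin.cons 0 x) (Fin.cons 0 v) = line (tayl p a m) x v := by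
  refine Polynomial.funext fun τ => ?_
  rw [eval_line, eval_line, ← S.bev_zero, bev]
  congr 2
  funext i
  refine Fin.cases ?_ (fun k => ?_) i <;> simp

theorem conePair (S : TanSetting p e d a m) :
    ConePair m (tayl p a m) e (tcone p e a m) where
  hom := S.tayl_hom
  isClosed := S.isClosed_tcone
  add_mem x hx y hy t ht := by
    have := S.mono_feas (S.feas_add (S.tcone_feas hx (t := t / 2) (by linarith))
      (S.tcone_feas hy (t := t / 4) (by linarith)))
      (S.feas_of_int (S.base.int_subset (S.base.smul_int (show 0 < t / 4 by linarith) S.base.e_mem)))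
    rw [show x + (t / 2) • e + (y + (t / 4) • e) + (t / 4) • e = x + y + t • e by
      funext i; simp; ring] at this
    exact lt_of_lt_of_le (mul_pos (by positivity) (S.lead_te_pos (by linarith))) this
  smul_mem c hc x hx t ht := by
    rcases hc.eq_or_lt with rfl | hc0
    · simpa using S.lead_te_pos ht
    · rw [show c • x + t • e = c • (x + (t / c) • e) by
        rw [smul_add, smul_smul, mul_div_cancel₀ _ hc0.ne'], eval_smul_of_isHomogeneous S.tayl_hom]
      exact mul_pos (pow_pos hc0 _) (hx _ (div_pos ht hc0))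
  e_nhds := mem_of_superset (S.base.isOpen_intCone.mem_nhds S.base.e_mem) fun _ hw =>
    S.feas_subset (S.feas_of_int (S.base.int_subset hw))
  nonneg _ hx := S.nonneg_tcone hx
  pos_add _ hx t ht := hx t ht
  nhds_mem x hx hpos := by
    have hev := S.eventually_int (s := x) fun τ hτ => by
      rcases hτ.eq_or_lt with rfl | h
      · simpa using hpos
      · exact hx τ h
    obtain ⟨ε, h, hε⟩ := (hev.and (self_mem_nhdsWithin (a := (0 : ℝ)) (s := Set.Ioi 0))).exists
    have hc : Continuous fun y : Fin n → ℝ => a + ε • y := by fun_prop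
    exact mem_of_superset ((hc.tendsto x).eventually (S.base.isOpen_intCone.mem_nhds h))
      fun y hy => S.feas_subset ⟨ε, hε, S.base.int_subset hy⟩
  mono := by
    refine ⟨2 ^ d / 2 ^ m, fun x hx w hw => ?_⟩
    have hc : Continuous fun t : ℝ => MvPolynomial.eval (x + t • e + (w + t • e)) (tayl p a m)
        - 2 ^ m / 2 ^ d * MvPolynomial.eval (w + t • e) (tayl p a m) :=
      ((MvPolynomial.continuous_eval _).comp (by fun_prop)).sub
        (continuous_const.mul ((MvPolynomial.continuous_eval _).comp (by fun_prop)))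
    have := nonneg_at_zero hc (by
      filter_upwards [self_mem_nhdsWithin] with t ht
      linarith [S.mono_feas (S.tcone_feas hx ht) (S.tcone_feas hw ht)])
    simp only [zero_smul, add_zero] at this
    calc MvPolynomial.eval w (tayl p a m)
        = 2 ^ d / 2 ^ m * (2 ^ m / 2 ^ d * MvPolynomial.eval w (tayl p a m)) := by field_simp
      _ ≤ _ := mul_le_mul_of_nonneg_left (by linarith) (by positivity)
  ineq2 x hx hpos v := by
    set A : ℕ → ℝ → ℝ := fun k ε =>
      (line (blow p a m d) (Fin.cons ε x) (Fin.cons 0 v)).coeff k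
    have hA : ∀ k, Continuous (A k) := fun k =>
      (continuous_coeff_line _ _ k).comp (continuous_cons.comp (continuous_id.prodMk continuous_const))
    have hc : Continuous fun ε => A 1 ε ^ 2 - 2 * A 0 ε * A 2 ε :=
      ((hA 1).pow 2).sub ((continuous_const.mul (hA 0)).mul (hA 2))
    have hev := S.eventually_int (s := x) fun τ hτ => by
      rcases hτ.eq_or_lt with rfl | h
      · simpa using hpos
      · exact hx τ h
    have := nonneg_at_zero hc (by
      filter_upwards [hev, self_mem_nhdsWithin] with ε hint hε0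
      have hε0 : (0 : ℝ) < ε := hε0
      have h := S.base.conePair.ineq2 _ (S.base.int_subset hint) (S.base.pos hint) (ε • v)
      simp only [S.line_scale, Polynomial.coeff_C_mul] at h
      refine nonneg_of_mul_nonneg_right (?_ : 0 ≤ (ε ^ m) ^ 2 * _) (pow_pos (pow_pos hε0 m) 2)
      linear_combination h)
    simpa [A, S.line_blow_zero] using this
  ineqk k hk := by
    obtain ⟨K, hK⟩ := S.base.conePair.ineqk k hk
    refine ⟨K, fun x hx hpos v => ?_⟩
    set A : ℕ → ℝ → ℝ := fun k ε =>
      (line (blow p a m d) (Fin.cons ε x) (Fin.cons 0 v)).coeff k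
    have hA : ∀ k, Continuous (A k) := fun k =>
      (continuous_coeff_line _ _ k).comp (continuous_cons.comp (continuous_id.prodMk continuous_const))
    have hc : Continuous fun ε => K * A 0 ε ^ 2 * (A 1 ε ^ 2 - 2 * A 0 ε * A 2 ε) ^ k
        - A k ε ^ 2 * A 0 ε ^ (2 * k) :=
      ((continuous_const.mul ((hA 0).pow 2)).mul
        ((((hA 1).pow 2).sub ((continuous_const.mul (hA 0)).mul (hA 2))).pow k)).sub
        (((hA k).pow 2).mul ((hA 0).pow (2 * k)))
    have hev := S.eventually_int (s := x) fun τ hτ => by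
      rcases hτ.eq_or_lt with rfl | h
      · simpa using hpos
      · exact hx τ h
    have := nonneg_at_zero hc (by
      filter_upwards [hev, self_mem_nhdsWithin] with ε hint hε0
      have hε0 : (0 : ℝ) < ε := hε0
      have h := hK _ (S.base.int_subset hint) (S.base.pos hint) (ε • v)
      simp only [S.line_scale, Polynomial.coeff_C_mul] at h
      set c := ε ^ m
      have hcpos : 0 < c ^ (2 * k + 2) := pow_pos (pow_pos hε0 m) _
      refine nonneg_of_mul_nonneg_right (?_ : 0 ≤ c ^ (2 * k + 2) * _) hcpos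
      have e1 : ((c * A 1 ε) ^ 2 - 2 * (c * A 0 ε) * (c * A 2 ε)) ^ k
          = c ^ (2 * k) * (A 1 ε ^ 2 - 2 * A 0 ε * A 2 ε) ^ k := by
        rw [pow_mul, ← mul_pow]; ring
      simp only [A] at e1 ⊢
      rw [e1] at h
      linear_combination h)
    simp only [A, S.line_blow_zero] at this
    linarith

theorem next_nonpos (S : TanSetting p e d a m) {s : Fin n → ℝ} (hs : s ∈ tcone p e a m)
    (h0 : MvPolynomial.eval s (tayl p a m) = 0) (he : 0 < dd (tayl p a m) s e) :
    MvPolynomial.eval s (tayl p a (m + 1)) ≤ 0 := by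
  by_contra hpos
  push Not at hpos
  set G : ℝ → (Fin n → ℝ) → ℝ := fun lam u =>
    ∑ j ∈ Finset.Icc (m + 1) d, lam ^ (j - (m + 1)) * MvPolynomial.eval u (tayl p a j) with hG
  have hsplit : ∀ lam u, bev p a m d lam u
      = MvPolynomial.eval u (tayl p a m) + lam * G lam u := by
    intro lam u
    rw [bev_eq, ← Finset.insert_Icc_add_one_left_eq_Icc S.le_deg,
      Finset.sum_insert (by simp), Nat.sub_self, pow_zero, one_mul, hG, Finset.mul_sum]
    congr 1
    refine Finset.sum_congr rfl fun j hj => ?_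
    simp only [Finset.mem_Icc] at hj
    rw [← mul_assoc, ← pow_succ']
    congr 2
    omega
  have hGc : Continuous fun q : ℝ × ℝ => G q.1 (s + q.2 • e) := by
    refine continuous_finsetSum _ fun j _ => (continuous_fst.pow _).mul ?_
    exact (MvPolynomial.continuous_eval _).comp
      (continuous_const.add (continuous_snd.smul continuous_const))
  have hG0 : 0 < G 0 (s + (0 : ℝ) • e) := by
    simp only [hG, zero_smul, add_zero]
    have hmd : m + 1 ≤ d := by
      by_contra hh
      push Not at hh
      rw [tayl, homogeneousComponent_eq_zero _ _ (lt_of_le_of_lt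
        (le_trans (totalDegree_shiftPoly_le a p) S.base.hom.totalDegree_le) hh)] at hpos
      simp at hpos
    rw [Finset.sum_eq_single (m + 1)]
    · simpa using hpos
    · intro j hj hne
      simp only [Finset.mem_Icc] at hj
      rw [zero_pow (by omega), zero_mul]
    · intro h
      simp [hmd] at h
  obtain ⟨δ, hδ, hball⟩ := Metric.eventually_nhds_iff.mp
    ((hGc.tendsto ((0 : ℝ), (0 : ℝ))).eventually (lt_mem_nhds hG0))
  set μ := δ / 2 with hμdef
  have hμ : 0 < μ := by positivity
  have hev := S.eventually_int (s := s + μ • e) fun τ hτ => by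
    rw [add_assoc, ← add_smul]; exact hs _ (by linarith)
  obtain ⟨ε, hεint, hε0, hεδ⟩ := (hev.and (Ioo_mem_nhdsGT hδ)).exists
  have hint : a + ε • (s + (0 : ℝ) • e) ∈ intCone p e := by
    refine S.base.int_of_path (f := fun t : ℝ => a + ε • (s + t • e)) (by fun_prop)
      (fun t ht => ?_) hεint hμ.le
    rw [S.eval_blow, hsplit]
    have hGpos : 0 < G ε (s + t • e) := by
      have hd : dist (ε, t) ((0 : ℝ), (0 : ℝ)) < δ := by
        rw [Prod.dist_eq]
        simp [abs_of_pos hε0, abs_of_nonneg ht.1, hεδ]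
        linarith [ht.2]
      exact hball hd
    have hT : 0 ≤ MvPolynomial.eval (s + t • e) (tayl p a m) := by
      rcases ht.1.eq_or_lt with rfl | h
      · simp [h0]
      · exact (hs t h).le
    exact (mul_pos (pow_pos hε0 m) (add_pos_of_nonneg_of_pos hT (mul_pos hε0 hGpos))).ne'
  rw [zero_smul, add_zero] at hint
  -- then `s - η e` lies in the tangent cone, contradicting the sign of `D_e p_m`
  have hc : Continuous fun η : ℝ => a + ε • (s - η • e) := by fun_prop
  have h1 : ∀ᶠ η in 𝓝[>] (0 : ℝ), a + ε • (s - η • e) ∈ intCone p e :=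
    ((hc.tendsto 0).mono_left nhdsWithin_le_nhds).eventually
      (S.base.isOpen_intCone.mem_nhds (by simpa using hint))
  set P := line (tayl p a m) s e with hP
  have hP0 : 0 < P.divX.eval 0 := by
    rw [← Polynomial.coeff_zero_eq_eval_zero, Polynomial.coeff_divX, hP, coeff_line_one]
    exact he
  have hc2 : Continuous fun η : ℝ => P.divX.eval (-(η / 2)) :=
    P.divX.continuous.comp (by fun_prop)
  have h2 : ∀ᶠ η in 𝓝[>] (0 : ℝ), 0 < P.divX.eval (-(η / 2)) :=
    ((hc2.tendsto 0).mono_left nhdsWithin_le_nhds).eventually (lt_mem_nhds (by simpa using hP0))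
  obtain ⟨η, ⟨hη1, hη2⟩, hη0⟩ :=
    ((h1.and h2).and (self_mem_nhdsWithin (a := (0 : ℝ)) (s := Set.Ioi 0))).exists
  have hη0 : (0 : ℝ) < η := hη0
  have hin := S.feas_subset ⟨ε, hε0, S.base.int_subset hη1⟩ (η / 2) (by linarith)
  rw [show s - η • e + (η / 2) • e = s + (-(η / 2)) • e by funext i; simp; ring, ← eval_line,
    ← hP] at hin
  have := congrArg (Polynomial.eval (-(η / 2))) (Polynomial.X_mul_divX_add P)
  simp only [Polynomial.eval_add, Polynomial.eval_mul, Polynomial.eval_X, Polynomial.eval_C] at this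
  rw [show P.coeff 0 = 0 by rw [hP, coeff_line_zero, h0]] at this
  nlinarith

end TanSetting

end Vale.Agent.P256
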