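import Mathlib
import Vale.Agent.P256.Defs
import Vale.Agent.P256.Poly
import Vale.Agent.P256.ConePair
import Vale.Agent.P256.Garding
import Vale.Agent.P256.Tangent

/-!
The compact slice of the boundary, the absence of segments, and curvature.
-/

namespace Vale.Agent.P256

open MvPolynomial Filter Topology

variable {n : ℕ}

/-- the gradient. -/
noncomputable def grad (q : MvPolynomial (Fin n) ℝ) (x : Fin n → ℝ) : Fin n → ℝ :=
  fun i => MvPolynomial.eval x (MvPolynomial.pderiv i q)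

theorem dd_eq_sum (q : MvPolynomial (Fin n) ℝ) (x v : Fin n → ℝ) :
    dd q x v = ∑ i, v i * grad q x i := rfl

theorem exists_dd_ne {q : MvPolynomial (Fin n) ℝ} {x : Fin n → ℝ} (h : grad q x ≠ 0) :
    ∃ w, dd q x w ≠ 0 := by
  refine ⟨grad q x, ?_⟩
  rw [dd_eq_sum]
  intro h0
  refine h (funext fun i => ?_)
  have := (Finset.sum_eq_zero_iff_of_nonneg (fun j _ => mul_self_nonneg (grad q x j))).mp h0 i
    (Finset.mem_univ i)
  exact mul_self_eq_zero.mp this

theorem exists_dd_ne' {q : MvPolynomial (Fin n) ℝ} {x : Fin n → ℝ}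
    (h : ∃ i, MvPolynomial.eval x (MvPolynomial.pderiv i q) ≠ 0) : ∃ w, dd q x w ≠ 0 := by
  obtain ⟨i, hi⟩ := h
  exact exists_dd_ne (fun h0 => hi (congrFun h0 i))

theorem dd_zero_of_line {q : MvPolynomial (Fin n) ℝ} {x v : Fin n → ℝ} (h : line q x v = 0) :
    MvPolynomial.eval x q = 0 ∧ dd q x v = 0 ∧ (line q x v).coeff 2 = 0 := by
  refine ⟨?_, ?_, by rw [h]; simp⟩
  · rw [← coeff_line_zero q x v, h]; simp
  · rw [← coeff_line_one, h]; simp

/-- standing hypotheses of the theorem. -/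
structure Setting (p : MvPolynomial (Fin n) ℝ) (e : Fin n → ℝ) (d : ℕ) : Prop where
  base : HypSetting p e d
  pointed : ∀ x ∈ hypCone p e, -x ∈ hypCone p e → x = 0
  ordinary : ∀ a ∈ hypCone p e, a ≠ 0 →
    (∀ i, MvPolynomial.eval a (MvPolynomial.pderiv i p) = 0) → IsOrdinarySingular p e a

/-- the normalised boundary. -/
def bd (p : MvPolynomial (Fin n) ℝ) (e : Fin n → ℝ) : Set (Fin n → ℝ) :=
  {x | x ∈ hypCone p e ∧ MvPolynomial.eval x p = 0 ∧ dd p e x = 1}

namespace Setting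

variable {p : MvPolynomial (Fin n) ℝ} {e : Fin n → ℝ} {d : ℕ}

theorem phi_nonneg (S : Setting p e d) {x : Fin n → ℝ} (hx : x ∈ hypCone p e) :
    0 ≤ dd p e x := (S.base.dd_e_nonneg_and hx).1

theorem phi_pos (S : Setting p e d) {x : Fin n → ℝ} (hx : x ∈ hypCone p e) (h0 : x ≠ 0) :
    0 < dd p e x :=
  lt_of_le_of_ne (S.phi_nonneg hx) fun h =>
    h0 (S.pointed x hx ((S.base.dd_e_nonneg_and hx).2 h.symm))

theorem bd_ne_zero {a : Fin n → ℝ} (ha : a ∈ bd p e) : a ≠ 0 := by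
  rintro rfl
  have := ha.2.2
  simp [dd] at this

theorem isCompact_bd (S : Setting p e d) : IsCompact (bd p e) := by
  have hcl : IsClosed (bd p e) := by
    refine S.base.isClosed_hypCone.inter ((isClosed_eq (MvPolynomial.continuous_eval p)
      continuous_const).inter (isClosed_eq ?_ continuous_const))
    exact (continuous_dd p).comp (continuous_const.prodMk continuous_id)
  have hphi : Continuous fun x : Fin n → ℝ => dd p e x :=
    (continuous_dd p).comp (continuous_const.prodMk continuous_id)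
  rcases Set.eq_empty_or_nonempty (bd p e) with h | ⟨a, ha⟩
  · rw [h]; exact isCompact_empty
  have hK : IsCompact (hypCone p e ∩ Metric.sphere (0 : Fin n → ℝ) 1) :=
    (isCompact_sphere _ _).inter_left S.base.isClosed_hypCone
  have hne : (hypCone p e ∩ Metric.sphere (0 : Fin n → ℝ) 1).Nonempty := by
    refine ⟨‖a‖⁻¹ • a, S.base.smul_cone (inv_nonneg.mpr (norm_nonneg a)) ha.1, ?_⟩
    rw [mem_sphere_zero_iff_norm, norm_smul, norm_inv, norm_norm,
      inv_mul_cancel₀ (norm_ne_zero_iff.mpr (bd_ne_zero ha))]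
  obtain ⟨z, hz, hmin⟩ := hK.exists_isMinOn hne hphi.continuousOn
  have hc : 0 < dd p e z := by
    refine S.phi_pos hz.1 fun h0 => ?_
    have := hz.2
    rw [h0] at this
    simp at this
  refine Metric.isCompact_of_isClosed_isBounded hcl
    ((Metric.isBounded_iff_subset_closedBall (0 : Fin n → ℝ)).mpr ⟨(dd p e z)⁻¹, fun x hx => ?_⟩)
  have hx0 := bd_ne_zero hx
  have hmem : ‖x‖⁻¹ • x ∈ hypCone p e ∩ Metric.sphere (0 : Fin n → ℝ) 1 := by
    refine ⟨S.base.smul_cone (inv_nonneg.mpr (norm_nonneg x)) hx.1, ?_⟩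
    rw [mem_sphere_zero_iff_norm, norm_smul, norm_inv, norm_norm,
      inv_mul_cancel₀ (norm_ne_zero_iff.mpr hx0)]
  have hle : dd p e z ≤ dd p e (‖x‖⁻¹ • x) := hmin hmem
  rw [dd_smul, hx.2.2, mul_one] at hle
  rw [mem_closedBall_zero_iff]
  exact (le_inv_comm₀ hc (norm_pos_iff.mpr hx0)).mp hle

/-- the order and the localisation at a singular boundary point. -/
theorem singular_data (S : Setting p e d) {a : Fin n → ℝ} (ha : a ∈ bd p e) (hg : grad p a = 0) :
    ∃ m, 2 ≤ m ∧ TanSetting p e d a m ∧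
      ∀ s : Fin n → ℝ, dd p e s = 0 → s ≠ 0 → s ∈ tcone p e a m →
        MvPolynomial.eval s (tayl p a m) = 0 →
        0 < dd (tayl p a m) s e ∧ ∃ t : ℝ, MvPolynomial.eval (a + t • s) p ≠ 0 := by
  obtain ⟨m, hlow, hlead, hs⟩ := S.ordinary a ha.1 (bd_ne_zero ha) (fun i => congrFun hg i)
  have T : TanSetting p e d a m := ⟨S.base, ha.1, hlow, hlead⟩
  refine ⟨m, ?_, T, ?_⟩
  · by_contra hm
    push Not at hm
    refine hlead (MvPolynomial.funext fun s => ?_)
    rw [map_zero, ← coeff_line]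
    interval_cases m
    · rw [coeff_line_zero]; exact ha.2.1
    · rw [coeff_line_one, dd_eq_sum, hg]; simp
  · intro s hphi hs0 hst h0
    obtain ⟨hgr, hline⟩ := hs s (fun c hc => hs0 (by
      subst hc
      rw [dd_smul, ha.2.2, mul_one] at hphi
      simp [hphi])) hst h0
    obtain ⟨w, hw⟩ := exists_dd_ne' hgr
    exact ⟨T.conePair.dd_pos hst h0 hw, hline⟩

theorem no_segment_singular (S : Setting p e d) {a : Fin n → ℝ} (ha : a ∈ bd p e)
    (hg : grad p a = 0) {v : Fin n → ℝ} (hv : dd p e v = 0) (hv0 : v ≠ 0)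
    (hf : v ∈ feas p e a) (hl : line p a v = 0) : False := by
  obtain ⟨m, hm, T, hs⟩ := S.singular_data ha hg
  have h0 : MvPolynomial.eval v (tayl p a m) = 0 := by
    rw [tayl, ← coeff_line, hl, Polynomial.coeff_zero]
  obtain ⟨-, t, ht⟩ := hs v hv hv0 (T.feas_subset hf) h0
  rw [← eval_line, hl, Polynomial.eval_zero] at ht
  exact ht rfl

/-- no segment of the boundary between non-proportional points. -/
theorem no_segment (S : Setting p e d) {a : Fin n → ℝ} (ha : a ∈ bd p e) {v : Fin n → ℝ}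
    (hv : dd p e v = 0) (hv0 : v ≠ 0) {r : ℝ} (hr : 0 < r)
    (hav : a + r • v ∈ hypCone p e) (hl : line p a v = 0) : False := by
  set J : Set ℝ := {τ | 0 ≤ τ ∧ a + τ • v ∈ hypCone p e}
  have hc : Continuous fun τ : ℝ => a + τ • v := by fun_prop
  have hJc : IsClosed J :=
    (isClosed_le continuous_const continuous_id).inter (S.base.isClosed_hypCone.preimage hc)
  have hbd : ∀ τ ∈ J, a + τ • v ∈ bd p e := fun τ hτ => by
    refine ⟨hτ.2, ?_, ?_⟩
    · rw [← eval_line, hl, Polynomial.eval_zero]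
    · rw [dd_add, dd_smul, hv, ha.2.2]; ring
  obtain ⟨R, hR⟩ := (Metric.isBounded_iff_subset_closedBall (0 : Fin n → ℝ)).mp
    S.isCompact_bd.isBounded
  have hJb : ∀ τ ∈ J, τ ≤ (R + ‖a‖) / ‖v‖ := by
    intro τ hτ
    have h1 := hR (hbd τ hτ)
    rw [mem_closedBall_zero_iff] at h1
    rw [le_div_iff₀ (norm_pos_iff.mpr hv0)]
    have h2 : ‖τ • v‖ ≤ ‖a + τ • v‖ + ‖a‖ := by
      calc ‖τ • v‖ = ‖(a + τ • v) - a‖ := by simp
        _ ≤ _ := norm_sub_le _ _
    rw [norm_smul, Real.norm_eq_abs, abs_of_nonneg hτ.1] at h2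
    linarith
  have hJcomp : IsCompact J := Metric.isCompact_of_isClosed_isBounded hJc
    ((Metric.isBounded_Icc 0 ((R + ‖a‖) / ‖v‖)).subset fun τ hτ => ⟨hτ.1, hJb τ hτ⟩)
  obtain ⟨τ₁, hτ₁, hmax⟩ := hJcomp.exists_isMaxOn ⟨r, hr.le, hav⟩ continuousOn_id
  set b := a + τ₁ • v with hbdef
  have hτpos : 0 < τ₁ := lt_of_lt_of_le hr (hmax (⟨hr.le, hav⟩ : r ∈ J))
  have hb : b ∈ bd p e := hbd τ₁ hτ₁
  have hlb : line p b v = 0 := line_shift p a v τ₁ hl
  by_cases hg : grad p b = 0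
  · refine S.no_segment_singular hb hg (v := -v) ?_ (by simpa using hv0) ⟨τ₁, hτpos, ?_⟩ ?_
    · rw [← neg_one_smul ℝ v, dd_smul, hv]; ring
    · rw [hbdef]; simpa using ha.1
    · refine Polynomial.funext fun t => ?_
      rw [eval_line, smul_neg, ← neg_smul, ← eval_line, hlb]
      simp
  · obtain ⟨w, hw⟩ := exists_dd_ne hg
    obtain ⟨h0, h1, h2⟩ := dd_zero_of_line hlb
    have hcp := S.base.conePair
    obtain ⟨-, δ, hδ, hin⟩ := (hcp.second_order hb.1 h0 (hcp.dd_pos hb.1 h0 hw) h1).2 h2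
    have hmem := hin (δ / 2) (by rw [abs_of_pos (by linarith : 0 < δ / 2)]; linarith)
    rw [hbdef, add_assoc, ← add_smul] at hmem
    have : τ₁ + δ / 2 ≤ τ₁ := hmax (⟨by linarith, hmem⟩ : τ₁ + δ / 2 ∈ J)
    linarith

/-- curvature at smooth boundary points. -/
theorem curvature (S : Setting p e d) {a : Fin n → ℝ} (ha : a ∈ bd p e) (hg : grad p a ≠ 0)
    {v : Fin n → ℝ} (hv : dd p e v = 0) (hv0 : v ≠ 0) (h1 : dd p a v = 0) :
    (line p a v).coeff 2 < 0 := by
  obtain ⟨w, hw⟩ := exists_dd_ne hg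
  have hcp := S.base.conePair
  obtain ⟨hle, heq⟩ := hcp.second_order ha.1 ha.2.1 (hcp.dd_pos ha.1 ha.2.1 hw) h1
  refine lt_of_le_of_ne hle fun h2 => ?_
  obtain ⟨hl, δ, hδ, hin⟩ := heq h2
  exact S.no_segment ha hv hv0 (show 0 < δ / 2 by linarith)
    (hin _ (by rw [abs_of_pos (by linarith : 0 < δ / 2)]; linarith)) hl

/-- supporting functionals separate boundary points. -/
theorem support_pos (S : Setting p e d) {a a' : Fin n → ℝ} (ha : a ∈ bd p e) (ha' : a' ∈ bd p e)
    (hne : a' ≠ a) {b : Fin n → ℝ} (hb : b ≠ 0)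
    (hK : ∀ x ∈ hypCone p e, 0 ≤ ∑ i, x i * b i) (hab : ∑ i, a i * b i = 0) :
    0 < ∑ i, a' i * b i := by
  refine lt_of_le_of_ne (hK a' ha'.1) fun h => ?_
  set v := a' - a with hv
  have hmem : ∀ τ ∈ Set.Icc (0 : ℝ) 1, a + τ • v ∈ hypCone p e := by
    intro τ hτ
    rw [show a + τ • v = (1 - τ) • a + τ • a' by rw [hv]; funext i; simp; ring]
    exact S.base.add_cone (S.base.smul_cone (by linarith [hτ.2]) ha.1)
      (S.base.smul_cone hτ.1 ha'.1)
  have hzero : ∀ τ ∈ Set.Icc (0 : ℝ) 1, (line p a v).eval τ = 0 := by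
    intro τ hτ
    rw [eval_line]
    by_contra hne0
    have hint := S.base.mem_int_of_ne (hmem τ hτ) hne0
    have hbz : ∑ i, (a + τ • v) i * b i = 0 := by
      simp only [hv, Pi.add_apply, Pi.smul_apply, Pi.sub_apply, smul_eq_mul]
      rw [show ∑ i, (a i + τ * (a' i - a i)) * b i
          = (1 - τ) * ∑ i, a i * b i + τ * ∑ i, a' i * b i by
        rw [Finset.mul_sum, Finset.mul_sum, ← Finset.sum_add_distrib]
        exact Finset.sum_congr rfl fun i _ => by ring, hab, ← h]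
      ring
    have hc : Continuous fun η : ℝ => a + τ • v - η • b := by fun_prop
    have hev : ∀ᶠ η in 𝓝[>] (0 : ℝ), a + τ • v - η • b ∈ intCone p e :=
      ((hc.tendsto 0).mono_left nhdsWithin_le_nhds).eventually
        (S.base.isOpen_intCone.mem_nhds (by simpa using hint))
    obtain ⟨η, h1, hη⟩ := (hev.and (self_mem_nhdsWithin (a := (0 : ℝ)) (s := Set.Ioi 0))).exists
    have hη : (0 : ℝ) < η := hη
    have := hK _ (S.base.int_subset h1)
    simp only [Pi.sub_apply, sub_mul, Finset.sum_sub_distrib, hbz, Pi.smul_apply, smul_eq_mul,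
      mul_assoc, ← Finset.mul_sum] at this
    have hbb : 0 < ∑ i, b i * b i := by
      obtain ⟨i, hi⟩ := Function.ne_iff.mp hb
      exact Finset.sum_pos' (fun j _ => mul_self_nonneg (b j))
        ⟨i, Finset.mem_univ i, mul_self_pos.mpr hi⟩
    nlinarith
  have hl : line p a v = 0 :=
    Polynomial.eq_zero_of_infinite_isRoot _
      ((Set.Icc_infinite zero_lt_one).mono fun τ hτ => hzero τ hτ)
  refine S.no_segment ha (v := v) ?_ ?_ one_pos (hmem 1 ⟨zero_le_one, le_rfl⟩) hl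
  · rw [hv, dd_sub, ha.2.2, ha'.2.2, sub_self]
  · exact sub_ne_zero.mpr hne

section tangent

variable {a : Fin n → ℝ} {m : ℕ}

theorem tangent_pointed (T : TanSetting p e d a m) (hm : 2 ≤ m) {s : Fin n → ℝ}
    (hs : s ∈ tcone p e a m) (he : 0 < dd (tayl p a m) s e) : -s ∉ tcone p e a m := fun hn =>
  he.ne' (T.conePair.dd_eq_zero_of_neg_mem hm hs hn e)

theorem tangent_curvature (T : TanSetting p e d a m) (hm : 2 ≤ m)
    (hord : ∀ s : Fin n → ℝ, dd p e s = 0 → s ≠ 0 → s ∈ tcone p e a m →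
        MvPolynomial.eval s (tayl p a m) = 0 → 0 < dd (tayl p a m) s e)
    {s v : Fin n → ℝ} (hs : s ∈ tcone p e a m) (hphis : dd p e s = 0) (hs0 : s ≠ 0)
    (h0 : MvPolynomial.eval s (tayl p a m) = 0) (hphiv : dd p e v = 0) (hv0 : v ≠ 0)
    (hvs : ∀ c : ℝ, s ≠ c • v) (h1 : dd (tayl p a m) s v = 0) :
    (line (tayl p a m) s v).coeff 2 < 0 := by
  obtain ⟨hle, heq⟩ := T.conePair.second_order hs h0 (hord s hphis hs0 hs h0) h1
  refine lt_of_le_of_ne hle fun h2 => ?_
  obtain ⟨hl, -⟩ := heq h2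
  have hall := T.conePair.line_subset hs hl fun τ hτ => by
    refine ⟨e, (hord _ ?_ ?_ hτ ?_).ne'⟩
    · rw [dd_add, dd_smul, hphis, hphiv]; ring
    · intro h
      exact hvs (-τ) (by rw [neg_smul]; exact eq_neg_of_add_eq_zero_left h)
    · rw [← eval_line, hl, Polynomial.eval_zero]
  have hlim : ∀ σ : ℝ, σ • v ∈ tcone p e a m := by
    intro σ
    have hc : Continuous fun c : ℝ => c • s + σ • v := by fun_prop
    have ht : Tendsto (fun c : ℝ => c • s + σ • v) (𝓝[>] 0) (𝓝 (σ • v)) := by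
      simpa using (hc.tendsto 0).mono_left nhdsWithin_le_nhds
    refine T.conePair.isClosed.mem_of_tendsto ht ?_
    filter_upwards [self_mem_nhdsWithin] with c hc0
    have hc0 : (0 : ℝ) < c := hc0
    have := T.conePair.smul_mem c hc0.le _ (hall (σ / c))
    rwa [smul_add, smul_smul, mul_div_cancel₀ _ hc0.ne'] at this
  have hv : v ∈ tcone p e a m := by simpa using hlim 1
  have hnv : -v ∈ tcone p e a m := by simpa using hlim (-1)
  have hv00 : MvPolynomial.eval v (tayl p a m) = 0 := by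
    set P := fun c : ℝ => MvPolynomial.eval (c • s + v) (tayl p a m)
    have hc : Continuous P := (MvPolynomial.continuous_eval _).comp (by fun_prop)
    have := congrFun (Continuous.ext_on (dense_compl_singleton (0 : ℝ)) hc
      (continuous_const (y := (0 : ℝ))) fun c hc0 => by
        have hc0 : c ≠ 0 := hc0
        show MvPolynomial.eval (c • s + v) (tayl p a m) = 0
        rw [show c • s + v = c • (s + c⁻¹ • v) by
          rw [smul_add, smul_smul, mul_inv_cancel₀ hc0, one_smul],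
          eval_smul_of_isHomogeneous T.tayl_hom, ← eval_line, hl]
        simp) 0
    simpa [P] using this
  exact tangent_pointed T hm hv (hord v hphiv hv0 hv hv00) hnv

theorem tangent_support_pos (T : TanSetting p e d a m) (hm : 2 ≤ m)
    (hord : ∀ s : Fin n → ℝ, dd p e s = 0 → s ≠ 0 → s ∈ tcone p e a m →
        MvPolynomial.eval s (tayl p a m) = 0 → 0 < dd (tayl p a m) s e)
    {u u₀ : Fin n → ℝ} (hu : u ∈ tcone p e a m) (hu₀ : u₀ ∈ tcone p e a m)
    (hpu : dd p e u = 0) (hpu₀ : dd p e u₀ = 0) (hn : ∑ i, u i ^ 2 = 1)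
    (hn₀ : ∑ i, u₀ i ^ 2 = 1) (h0 : MvPolynomial.eval u₀ (tayl p a m) = 0) (hne : u ≠ u₀) :
    0 < dd (tayl p a m) u₀ u := by
  refine lt_of_le_of_ne (T.conePair.dd_nonneg hu₀ h0 hu) fun h => ?_
  have hu00 : u₀ ≠ 0 := by rintro rfl; simp at hn₀
  have hu0 : u ≠ 0 := by rintro rfl; simp at hn
  have hvs : ∀ c : ℝ, u₀ ≠ c • u := by
    intro c hc
    have hc2 : c ^ 2 = 1 := by
      have : ∑ i, u₀ i ^ 2 = c ^ 2 * ∑ i, u i ^ 2 := by
        rw [hc, Finset.mul_sum]
        exact Finset.sum_congr rfl fun i _ => by simp [mul_pow]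
      rw [hn₀, hn, mul_one] at this
      exact this.symm
    rcases sq_eq_one_iff.mp hc2 with rfl | rfl
    · exact hne (by simpa using hc.symm)
    · exact tangent_pointed T hm hu₀ (hord u₀ hpu₀ hu00 hu₀ h0)
        (by rw [hc]; simpa using hu)
  have hneg := tangent_curvature T hm hord hu₀ hpu₀ hu00 h0 hpu hu0 hvs h.symm
  have hnn : 0 ≤ (line (tayl p a m) u₀ u).coeff 2 := by
    refine coeff_nonneg_of_low ?_ ?_
    · intro j hj
      interval_cases j
      · rw [coeff_line_zero, h0]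
      · rw [coeff_line_one, ← h]
    · filter_upwards [self_mem_nhdsWithin] with t ht
      have ht : (0 : ℝ) < t := ht
      rw [eval_line]
      exact T.conePair.nonneg _ (T.conePair.add_mem _ hu₀ _ (T.conePair.smul_mem t ht.le _ hu))
  linarith

end tangent

/-- where the ray `x + ℝ e` enters the cone. -/
theorem exit_point (S : Setting p e d) {x : Fin n → ℝ} {l : ℝ}
    (hl : x + l • e ∉ hypCone p e) :
    ∃ σ, l < σ ∧ x + σ • e ∈ hypCone p e ∧ MvPolynomial.eval (x + σ • e) p = 0 ∧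
      ∀ τ, x + τ • e ∈ hypCone p e → σ ≤ τ := by
  set J : Set ℝ := {σ | x + σ • e ∈ hypCone p e}
  have hc : Continuous fun σ : ℝ => x + σ • e := by fun_prop
  have hJc : IsClosed J := S.base.isClosed_hypCone.preimage hc
  have hup : ∀ σ ∈ J, ∀ τ, σ ≤ τ → τ ∈ J := by
    intro σ hσ τ hτ
    have := S.base.add_cone hσ (S.base.smul_cone (show 0 ≤ τ - σ by linarith)
      (S.base.int_subset S.base.e_mem))
    show x + τ • e ∈ hypCone p e
    rwa [add_assoc, ← add_smul, add_sub_cancel] at this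
  have hne : J.Nonempty := by
    have hc2 : Continuous fun z : ℝ => z • x + e := by fun_prop
    have hev : ∀ᶠ z in 𝓝[>] (0 : ℝ), z • x + e ∈ intCone p e :=
      ((hc2.tendsto 0).mono_left nhdsWithin_le_nhds).eventually
        (S.base.isOpen_intCone.mem_nhds (by simpa using S.base.e_mem))
    obtain ⟨z, h1, hz⟩ := (hev.and (self_mem_nhdsWithin (a := (0 : ℝ)) (s := Set.Ioi 0))).exists
    have hz : (0 : ℝ) < z := hz
    have := S.base.smul_cone (inv_pos.mpr hz).le (S.base.int_subset h1)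
    rw [smul_add, smul_smul, inv_mul_cancel₀ hz.ne', one_smul] at this
    exact ⟨z⁻¹, this⟩
  have hlow : ∀ σ ∈ J, l < σ := fun σ hσ => by
    by_contra hh
    push Not at hh
    exact hl (hup σ hσ l hh)
  have hbdd : BddBelow J := ⟨l, fun σ hσ => (hlow σ hσ).le⟩
  have hmem := hJc.csInf_mem hne hbdd
  refine ⟨sInf J, hlow _ hmem, hmem, ?_, fun τ hτ => csInf_le hbdd hτ⟩
  by_contra hne0
  have hint := S.base.mem_int_of_ne hmem hne0
  have hev : ∀ᶠ σ in 𝓝[<] sInf J, x + σ • e ∈ intCone p e :=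
    ((hc.tendsto _).mono_left nhdsWithin_le_nhds).eventually
      (S.base.isOpen_intCone.mem_nhds hint)
  obtain ⟨σ, h1, h2⟩ := (hev.and (self_mem_nhdsWithin (s := Set.Iio (sInf J)))).exists
  exact absurd (csInf_le hbdd (show σ ∈ J from S.base.int_subset h1)) (not_le.mpr h2)

end Setting

end Vale.Agent.P256
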