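import Vale.Agent.P256.Extend
import Vale.Agent.P256.Slice

/-!
From a lift for the factors to a lift for a product of pullbacks.
-/

namespace Vale.Agent.P256

open Matrix

/-- The cone of a hyperbolic form in one variable is a spectrahedral shadow. -/
theorem isShadow_one_var {q : MvPolynomial (Fin 1) ℝ} {e : Fin 1 → ℝ} {d : ℕ}
    (H : HypSetting q e d) : IsSpectrahedralShadow (hypCone q e) := by
  rcases Nat.eq_zero_or_pos d with rfl | hd
  · have hall : hypCone q e = Set.univ := by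
      refine Set.eq_univ_of_forall fun x t ht => ?_
      have h := H.eval_smul (0 : ℝ) (t • e - x)
      have h2 := H.eval_smul (0 : ℝ) e
      rw [pow_zero, one_mul, zero_smul] at h h2
      exact absurd (ht ▸ h) (by rw [h2]; exact H.hyp.1.ne')
    rw [hall]
    exact isShadow_univ
  have he : e 0 ≠ 0 := fun h => H.hyp.1.ne' (by
    have h0 := H.eval_smul (0 : ℝ) e
    rw [zero_smul, zero_pow hd.ne', zero_mul] at h0
    rwa [show e = 0 from funext fun i => by rwa [Subsingleton.elim i 0]])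
  refine isShadow_of_affine (U := Empty) (J := Unit) 0 (fun _ => Matrix.of fun _ _ => e 0) 0 isSymm_zero
    (fun _ => rfl) (fun j => j.elim) fun x => ?_
  have hx : x = (x 0 / e 0) • e := funext fun i => by
    rw [Subsingleton.elim i 0]; simp [he]
  have hcone : x ∈ hypCone q e ↔ 0 ≤ x 0 / e 0 := by
    have key : ∀ t : ℝ, MvPolynomial.eval (t • e - x) q = 0 ↔ t = x 0 / e 0 := fun t => by
      nth_rw 1 [hx]
      rw [← sub_smul, H.eval_smul, mul_eq_zero, or_iff_left H.hyp.1.ne', pow_eq_zero_iff hd.ne',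
        sub_eq_zero]
    exact ⟨fun h => h _ ((key _).2 rfl), fun h t ht => (key t).1 ht ▸ h⟩
  have hmat : (0 : Matrix Unit Unit ℝ) + ∑ i, x i • (fun _ : Fin 1 => (Matrix.of fun _ _ => e 0 :
      Matrix Unit Unit ℝ)) i + ∑ j : Empty, (0 : Empty → ℝ) j • (0 : Empty → Matrix Unit Unit ℝ) j
        = diagonal fun _ => x 0 * e 0 := by
    ext
    simp
  rw [hcone]
  constructor
  · intro h
    refine ⟨0, ?_⟩
    rw [hmat, posSemidef_diagonal_iff]
    intro _
    have : x 0 * e 0 = x 0 / e 0 * (e 0) ^ 2 := by field_simp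
    rw [this]
    positivity
  · rintro ⟨u, hu⟩
    rw [Subsingleton.elim u 0, hmat, posSemidef_diagonal_iff] at hu
    have h := hu ()
    rw [show x 0 / e 0 = x 0 * e 0 / (e 0) ^ 2 by field_simp]
    exact div_nonneg h (sq_nonneg _)

/-- A product of pullbacks of forms with shadow cones has a shadow cone. -/
theorem isShadow_of_factors {n : ℕ} {ι : Type*} [Fintype ι] {p : MvPolynomial (Fin n) ℝ}
    (e : Fin n → ℝ) (m : ι → ℕ) (q : ∀ i, MvPolynomial (Fin (m i)) ℝ)
    (L : ∀ i, (Fin n → ℝ) →ₗ[ℝ] Fin (m i) → ℝ)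
    (hp : ∀ x, MvPolynomial.eval x p = ∏ i, MvPolynomial.eval (L i x) (q i))
    (h : ∀ i, IsSpectrahedralShadow (hypCone (q i) (L i e))) :
    IsSpectrahedralShadow (hypCone p e) := by
  have hK : hypCone p e = ⋂ i ∈ (Finset.univ : Finset ι), (L i) ⁻¹' hypCone (q i) (L i e) := by
    ext x
    simp only [hypCone, Set.mem_iInter, Set.mem_preimage, Set.mem_ofPred_eq, hp,
      Finset.prod_eq_zero_iff, Finset.mem_univ, true_and, map_sub, map_smul, forall_true_left]
    exact ⟨fun h i t ht => h t ⟨i, ht⟩, fun h t ⟨i, ht⟩ => h i t ht⟩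
  rw [hK]
  exact isShadow_iInter _ fun i _ => (h i).preimage (L i)

/-- If the forms of the class of pointed cones with ordinary singular rays have shadow cones, so
does every product of pullbacks of such forms and of linear forms. -/
theorem isShadow_of_class
    (hcore : ∀ {m : ℕ} {q : MvPolynomial (Fin m) ℝ} {f : Fin m → ℝ} {d : ℕ}, Setting q f d →
      3 ≤ m → IsSpectrahedralShadow (hypCone q f))
    {n : ℕ} {ι : Type*} [Fintype ι] {p : MvPolynomial (Fin n) ℝ} (e : Fin n → ℝ) (m : ι → ℕ)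
    (q : ∀ i, MvPolynomial (Fin (m i)) ℝ) (L : ∀ i, (Fin n → ℝ) →ₗ[ℝ] Fin (m i) → ℝ)
    (d : ι → ℕ) (hp : ∀ x, MvPolynomial.eval x p = ∏ i, MvPolynomial.eval (L i x) (q i))
    (hhyp : ∀ i, HypSetting (q i) (L i e) (d i))
    (hclass : ∀ i, m i = 1 ∨ 3 ≤ m i ∧
      (∀ x ∈ hypCone (q i) (L i e), -x ∈ hypCone (q i) (L i e) → x = 0) ∧
      ∀ a ∈ hypCone (q i) (L i e), a ≠ 0 →
        (∀ j, MvPolynomial.eval a (MvPolynomial.pderiv j (q i)) = 0) →
          IsOrdinarySingular (q i) (L i e) a) :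
    IsSpectrahedralShadow (hypCone p e) := by
  refine isShadow_of_factors e m q L hp fun i => ?_
  rcases hclass i with h1 | ⟨h3, hpt, hord⟩
  · have key : ∀ {k : ℕ} (q : MvPolynomial (Fin k) ℝ) (f : Fin k → ℝ), k = 1 →
        HypSetting q f (d i) → IsSpectrahedralShadow (hypCone q f) := by
      rintro k q f rfl H
      exact isShadow_one_var H
    exact key _ _ h1 (hhyp i)
  · exact hcore ⟨hhyp i, hpt, hord⟩ h3

end Vale.Agent.P256
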