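import Mathlib
import Vale.Agent.P256.Slice
import Vale.Agent.P256.Contact
import Vale.Agent.P256.Sep

/-!
The slack kernel factorises near every pair of boundary points.
-/

namespace Vale.Agent.P256

open MvPolynomial Filter Topology

variable {n : ℕ}

theorem quad_outer {ι : Type} [Fintype ι] (g h z : ι → ℝ) :
    ∑ i, ∑ j, g i * h j * (z i * z j) = (∑ i, g i * z i) * ∑ j, h j * z j := by
  rw [Finset.sum_mul_sum]
  exact Finset.sum_congr rfl fun i _ => Finset.sum_congr rfl fun j _ => by ring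

/-- a large multiple of a penalty makes a form positive definite. -/
theorem exists_penalty {ι : Type} [Fintype ι] (M : ι → ι → ℝ) (R : (ι → ℝ) → ℝ)
    (hR : Continuous R) (hR0 : ∀ w, 0 ≤ R w) (hR2 : ∀ (c : ℝ) w, R (c • w) = c ^ 2 * R w)
    (h : ∀ w, w ≠ 0 → R w = 0 → 0 < ∑ i, ∑ j, M i j * (w i * w j)) :
    ∃ κ : ℝ, ∀ w, w ≠ 0 → 0 < (∑ i, ∑ j, M i j * (w i * w j)) + κ * R w := by
  set Q : (ι → ℝ) → ℝ := fun w => ∑ i, ∑ j, M i j * (w i * w j) with hQ
  have hQc : Continuous Q := by fun_prop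
  have hQ2 : ∀ (c : ℝ) w, Q (c • w) = c ^ 2 * Q w := by
    intro c w
    simp only [hQ, Pi.smul_apply, smul_eq_mul, Finset.mul_sum]
    exact Finset.sum_congr rfl fun i _ => Finset.sum_congr rfl fun j _ => by ring
  set C : Set (ι → ℝ) := Metric.sphere 0 1 ∩ {w | Q w ≤ 0}
  have hC : IsCompact C := (isCompact_sphere _ _).inter_right (isClosed_le hQc continuous_const)
  have key : ∃ κ : ℝ, 0 ≤ κ ∧ ∀ w ∈ Metric.sphere (0 : ι → ℝ) 1, 0 < Q w + κ * R w := by
    rcases C.eq_empty_or_nonempty with hE | hne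
    · refine ⟨0, le_rfl, fun w hw => ?_⟩
      simp only [zero_mul, add_zero]
      by_contra hh
      push Not at hh
      exact (Set.eq_empty_iff_forall_notMem.mp hE w) ⟨hw, hh⟩
    obtain ⟨w0, hw0, hmin⟩ := hC.exists_isMinOn hne hR.continuousOn
    obtain ⟨w1, hw1, hmin'⟩ := hC.exists_isMinOn hne hQc.continuousOn
    have hne0 : ∀ w ∈ Metric.sphere (0 : ι → ℝ) 1, w ≠ 0 := fun w hw h0 => by
      subst h0; simp at hw
    have hr : 0 < R w0 := by
      refine lt_of_le_of_ne (hR0 w0) fun h0 => ?_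
      have := h w0 (hne0 w0 hw0.1) h0.symm
      exact absurd hw0.2 (not_le.mpr this)
    refine ⟨(-Q w1 + 1) / R w0, div_nonneg (by linarith [hw1.2.out]) hr.le, fun w hw => ?_⟩
    have hκ : 0 ≤ (-Q w1 + 1) / R w0 := div_nonneg (by linarith [hw1.2.out]) hr.le
    by_cases hq : 0 < Q w
    · linarith [mul_nonneg hκ (hR0 w)]
    · push Not at hq
      have h1 : Q w1 ≤ Q w := hmin' (show w ∈ C from ⟨hw, hq⟩)
      have h2 : R w0 ≤ R w := hmin (show w ∈ C from ⟨hw, hq⟩)
      have h3 : -Q w1 + 1 ≤ (-Q w1 + 1) / R w0 * R w := by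
        rw [div_mul_eq_mul_div, le_div_iff₀ hr]
        exact mul_le_mul_of_nonneg_left h2 (by linarith [hw1.2.out])
      linarith
  obtain ⟨κ, -, hκ⟩ := key
  refine ⟨κ, fun w hw => ?_⟩
  have hn : 0 < ‖w‖ := norm_pos_iff.mpr hw
  have := hκ (‖w‖⁻¹ • w) (by
    rw [mem_sphere_zero_iff_norm, norm_smul, norm_inv, norm_norm, inv_mul_cancel₀ hn.ne'])
  rw [hQ2, hR2] at this
  have hpos : 0 < (‖w‖⁻¹) ^ 2 := by positivity
  exact pos_of_mul_pos_right
    (show 0 < (‖w‖⁻¹) ^ 2 * (Q w + κ * R w) by linarith) hpos.le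

theorem SOSKer.empty_left {α β : Type} {V : Set β} {S : α → β → ℝ} :
    SOSKer (∅ : Set α) V S :=
  SOSKer.zero.congr fun _ hx => absurd hx (Set.notMem_empty _)

/-- Euclidean length of `x - a`. -/
noncomputable def lam (a x : Fin n → ℝ) : ℝ := Real.sqrt (∑ i, (x i - a i) ^ 2)

/-- direction of `x - a`. -/
noncomputable def dirTo (a x : Fin n → ℝ) : Fin n → ℝ := (lam a x)⁻¹ • (x - a)

/-- unit vectors of the slice direction space. -/
def dirSphere (p : MvPolynomial (Fin n) ℝ) (e : Fin n → ℝ) : Set (Fin n → ℝ) :=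
  {u | dd p e u = 0 ∧ ∑ i, u i ^ 2 = 1}

/-- the filter of boundary points tending to `a` from direction `u`. -/
noncomputable def dirFilter (p : MvPolynomial (Fin n) ℝ) (e a u : Fin n → ℝ) :
    Filter (Fin n → ℝ) :=
  𝓝[bd p e \ {a}] a ⊓ Filter.comap (dirTo a) (𝓝 u)

theorem isCompact_dirSphere (p : MvPolynomial (Fin n) ℝ) (e : Fin n → ℝ) :
    IsCompact (dirSphere p e) := by
  refine Metric.isCompact_of_isClosed_isBounded ((isClosed_eq ((continuous_dd p).comp
    (continuous_const.prodMk continuous_id)) continuous_const).inter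
    (isClosed_eq (by fun_prop) continuous_const)) ?_
  refine (Metric.isBounded_iff_subset_closedBall (0 : Fin n → ℝ)).mpr ⟨1, fun w hw => ?_⟩
  rw [mem_closedBall_zero_iff, pi_norm_le_iff_of_nonneg zero_le_one]
  intro i
  have : w i ^ 2 ≤ 1 := hw.2 ▸ Finset.single_le_sum (f := fun i => w i ^ 2)
    (fun j _ => sq_nonneg _) (Finset.mem_univ i)
  rw [Real.norm_eq_abs]
  exact (sq_le_one_iff_abs_le_one _).mp this

theorem lam_pos {a x : Fin n → ℝ} (h : x ≠ a) : 0 < lam a x := by
  refine Real.sqrt_pos.mpr ?_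
  obtain ⟨i, hi⟩ := Function.ne_iff.mp h
  exact Finset.sum_pos' (fun j _ => sq_nonneg _)
    ⟨i, Finset.mem_univ i, pow_two_pos_of_ne_zero (sub_ne_zero.mpr hi)⟩

theorem add_lam_dir {a x : Fin n → ℝ} (h : x ≠ a) : a + lam a x • dirTo a x = x := by
  rw [dirTo, smul_smul, mul_inv_cancel₀ (lam_pos h).ne', one_smul, add_sub_cancel]

theorem dir_mem {p : MvPolynomial (Fin n) ℝ} {e a x : Fin n → ℝ} (ha : a ∈ bd p e)
    (hx : x ∈ bd p e) (h : x ≠ a) : dirTo a x ∈ dirSphere p e := by
  refine ⟨?_, ?_⟩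
  · rw [dirTo, dd_smul, dd_sub, hx.2.2, ha.2.2, sub_self, mul_zero]
  · simp only [dirTo, Pi.smul_apply, Pi.sub_apply, smul_eq_mul, mul_pow, ← Finset.mul_sum]
    rw [inv_pow, lam, Real.sq_sqrt (Finset.sum_nonneg fun i _ => sq_nonneg _)]
    refine inv_mul_cancel₀ ?_
    obtain ⟨i, hi⟩ := Function.ne_iff.mp h
    exact (Finset.sum_pos' (fun j _ => sq_nonneg (x j - a j))
      ⟨i, Finset.mem_univ i, pow_two_pos_of_ne_zero (sub_ne_zero.mpr hi)⟩).ne'

theorem tendsto_dirFilter (p : MvPolynomial (Fin n) ℝ) (e a u : Fin n → ℝ) :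
    Tendsto (fun x => (Fin.cons (lam a x) (dirTo a x) : Fin (n + 1) → ℝ)) (dirFilter p e a u)
      (𝓝 (Fin.cons 0 u)) := by
  have h1 : Tendsto (lam a) (dirFilter p e a u) (𝓝 0) := by
    have hc : Continuous (lam a) := Real.continuous_sqrt.comp (by fun_prop)
    have := (hc.tendsto a).mono_left
      (inf_le_left.trans nhdsWithin_le_nhds : dirFilter p e a u ≤ 𝓝 a)
    simpa [lam, dirFilter] using this
  have h2 : Tendsto (dirTo a) (dirFilter p e a u) (𝓝 u) :=
    tendsto_comap.mono_left inf_le_right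
  exact (continuous_cons.tendsto ((0 : ℝ), u)).comp (h1.prodMk_nhds h2)

theorem eventually_dirFilter (p : MvPolynomial (Fin n) ℝ) (e a u : Fin n → ℝ) :
    ∀ᶠ x in dirFilter p e a u, x ∈ bd p e ∧ x ≠ a :=
  (inf_le_left : dirFilter p e a u ≤ 𝓝[bd p e \ {a}] a)
    (eventually_mem_nhdsWithin.mono fun _ hx => ⟨hx.1, hx.2⟩)

/-- the coefficient of `dλ`. -/
noncomputable def Pl (p : MvPolynomial (Fin n) ℝ) (a : Fin n → ℝ) (m d : ℕ)
    (w : Fin (n + 1) → ℝ) : ℝ :=
  MvPolynomial.eval w (MvPolynomial.pderiv 0 (blow p a m d))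

/-- the coefficients of `du`. -/
noncomputable def Gu (p : MvPolynomial (Fin n) ℝ) (a : Fin n → ℝ) (m d : ℕ) (i : Fin n)
    (w : Fin (n + 1) → ℝ) : ℝ :=
  MvPolynomial.eval w (MvPolynomial.pderiv i.succ (blow p a m d))

theorem dd_blow (p : MvPolynomial (Fin n) ℝ) (a : Fin n → ℝ) (m d : ℕ) (w : Fin (n + 1) → ℝ)
    (c : ℝ) (v : Fin n → ℝ) :
    dd (blow p a m d) w (Fin.cons c v) = c * Pl p a m d w + ∑ i, v i * Gu p a m d i w := by
  rw [dd, Fin.sum_univ_succ]
  simp [Pl, Gu]

namespace TanSetting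

variable {p : MvPolynomial (Fin n) ℝ} {e a : Fin n → ℝ} {d m : ℕ}

theorem Gu_zero (T : TanSetting p e d a m) (u v : Fin n → ℝ) :
    ∑ i, v i * Gu p a m d i (Fin.cons 0 u) = dd (tayl p a m) u v := by
  rw [← coeff_line_one (tayl p a m), ← T.line_blow_zero, coeff_line_one, dd_blow]
  ring

theorem Pl_zero (T : TanSetting p e d a m) (u : Fin n → ℝ) :
    Pl p a m d (Fin.cons 0 u) = MvPolynomial.eval u (tayl p a (m + 1)) := by
  have h : line p a u = Polynomial.X ^ m * line (blow p a m d) (Fin.cons 0 u) (Fin.cons 1 0) := by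
    refine Polynomial.funext fun t => ?_
    rw [eval_line, T.eval_blow, Polynomial.eval_mul, Polynomial.eval_pow, Polynomial.eval_X,
      eval_line, bev]
    congr 3
    funext i
    refine Fin.cases ?_ (fun k => ?_) i <;> simp
  rw [tayl, ← coeff_line, h, show m + 1 = 1 + m by ring, Polynomial.coeff_X_pow_mul,
    coeff_line_one, dd_blow]
  simp

theorem slack_eq (T : TanSetting p e d a m) (hm : 1 ≤ m) {x y : Fin n → ℝ} {l l₀ : ℝ}
    {u u₀ : Fin n → ℝ} (hx : x = a + l • u) (hy : y = a + l₀ • u₀) (hl₀ : l₀ ≠ 0)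
    (hbev : bev p a m d l₀ u₀ = 0) (hpy : MvPolynomial.eval y p = 0) :
    dd p y x = l₀ ^ (m - 1) * (l * (∑ i, (u i - u₀ i) * Gu p a m d i (Fin.cons l₀ u₀))
      + (l - l₀) * l₀ * Pl p a m d (Fin.cons l₀ u₀)) := by
  have hpow : l₀ ^ m = l₀ ^ (m - 1) * l₀ := by rw [← pow_succ]; congr 1; omega
  have h1 : ∀ v : Fin n → ℝ,
      dd p y v = l₀ ^ (m - 1) * ∑ i, v i * Gu p a m d i (Fin.cons l₀ u₀) := by
    intro v
    have := dd_eq_of_eval_line (q := p) (x := y) (v := l₀ • v)
      (Polynomial.C (l₀ ^ m) * line (blow p a m d) (Fin.cons l₀ u₀) (Fin.cons 0 v)) fun t => by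
        rw [Polynomial.eval_mul, Polynomial.eval_C, eval_line,
          show y + t • l₀ • v = a + l₀ • (u₀ + t • v) by rw [hy]; funext i; simp; ring,
          T.eval_blow, bev]
        congr 3
        funext i
        refine Fin.cases ?_ (fun k => ?_) i <;> simp
    rw [dd_smul, Polynomial.coeff_C_mul, coeff_line_one, dd_blow, zero_mul, zero_add, hpow] at this
    exact mul_left_cancel₀ hl₀ (by linear_combination this)
  have h2 : dd p y u₀ = l₀ ^ m * Pl p a m d (Fin.cons l₀ u₀) := by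
    rw [dd_eq_of_eval_line (q := p) ((Polynomial.C l₀ + Polynomial.X) ^ m *
      line (blow p a m d) (Fin.cons l₀ u₀) (Fin.cons 1 0)) fun t => by
        rw [Polynomial.eval_mul, Polynomial.eval_pow, eval_line,
          show y + t • u₀ = a + (l₀ + t) • u₀ by rw [hy]; funext i; simp; ring,
          T.eval_blow, bev]
        simp only [Polynomial.eval_add, Polynomial.eval_C, Polynomial.eval_X]
        congr 3
        funext i
        refine Fin.cases ?_ (fun k => ?_) i <;> simp,
      Polynomial.mul_coeff_one, coeff_line_one, dd_blow, coeff_line_zero]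
    have hb : MvPolynomial.eval (Fin.cons l₀ u₀) (blow p a m d) = 0 := hbev
    rw [hb, Polynomial.coeff_zero_eq_eval_zero]
    simp
  have hxy : x = y + (l • (u - u₀) + (l - l₀) • u₀) := by
    rw [hx, hy]; funext i; simp; ring
  rw [hxy, dd_add, dd_add, dd_smul, dd_smul, euler T.base.hom, hpy, h1, h2, hpow]
  simp only [Pi.sub_apply]
  ring

end TanSetting

namespace Setting

variable {p : MvPolynomial (Fin n) ℝ} {e : Fin n → ℝ} {d : ℕ}

theorem slack_nonneg (S : Setting p e d) {x y : Fin n → ℝ} (hx : x ∈ hypCone p e)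
    (hy : y ∈ bd p e) : 0 ≤ dd p y x :=
  S.base.conePair.dd_nonneg hy.1 hy.2.1 hx

/-- distinct points: the kernel is positive. -/
theorem local_kernel_distinct (S : Setting p e d) {a' a : Fin n → ℝ} (ha' : a' ∈ bd p e)
    (ha : a ∈ bd p e) (hne : a' ≠ a) :
    ∃ U ∈ 𝓝[bd p e] a', ∃ V ∈ 𝓝[bd p e] a, SOSKer U (V ∩ {y | grad p y ≠ 0})
      (fun x y => ∑ i, x i * grad p y i) := by
  classical
  set nrm : (Fin n → ℝ) → ℝ := fun y => Real.sqrt (∑ i, grad p y i ^ 2) with hnrm
  set N : (Fin n → ℝ) → Fin n → ℝ := fun y => (nrm y)⁻¹ • grad p y with hN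
  set Γ : Set ((Fin n → ℝ) × (Fin n → ℝ)) := {z | z.1 ∈ bd p e ∧ (∑ i, z.1 i * z.2 i = 0) ∧
    (∑ i, z.2 i ^ 2 = 1) ∧ ∀ x ∈ hypCone p e, 0 ≤ ∑ i, x i * z.2 i}
  have hΓc : IsClosed Γ := by
    refine (S.isCompact_bd.isClosed.preimage continuous_fst).inter
      ((isClosed_eq (by fun_prop) continuous_const).inter
      ((isClosed_eq (by fun_prop) continuous_const).inter ?_))
    have hAll : {z : (Fin n → ℝ) × (Fin n → ℝ) | ∀ x ∈ hypCone p e, 0 ≤ ∑ i, x i * z.2 i}
        = ⋂ x ∈ hypCone p e, {z | 0 ≤ ∑ i, x i * z.2 i} := by ext z; simp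
    show IsClosed {z : (Fin n → ℝ) × (Fin n → ℝ) | ∀ x ∈ hypCone p e, 0 ≤ ∑ i, x i * z.2 i}
    rw [hAll]
    exact isClosed_biInter fun x _ => isClosed_le continuous_const (by fun_prop)
  have hΓcomp : IsCompact Γ := by
    refine (S.isCompact_bd.prod (isCompact_closedBall (0 : Fin n → ℝ) 1)).of_isClosed_subset
      hΓc fun z hz => ⟨hz.1, ?_⟩
    rw [mem_closedBall_zero_iff, pi_norm_le_iff_of_nonneg zero_le_one]
    intro i
    have : z.2 i ^ 2 ≤ 1 := hz.2.2.1 ▸ Finset.single_le_sum (f := fun i => z.2 i ^ 2)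
      (fun j _ => sq_nonneg _) (Finset.mem_univ i)
    rw [Real.norm_eq_abs]
    exact (sq_le_one_iff_abs_le_one _).mp this
  have hmem : ∀ y ∈ bd p e, grad p y ≠ 0 → (y, N y) ∈ Γ ∧ 0 < nrm y ∧
      ∀ i, grad p y i = nrm y * N y i := by
    intro y hy hg
    have hsum : 0 < ∑ i, grad p y i ^ 2 := by
      obtain ⟨i, hi⟩ := Function.ne_iff.mp hg
      exact Finset.sum_pos' (fun j _ => sq_nonneg _)
        ⟨i, Finset.mem_univ i, pow_two_pos_of_ne_zero (by simpa using hi)⟩
    have hr : 0 < nrm y := Real.sqrt_pos.mpr hsum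
    refine ⟨⟨hy, ?_, ?_, fun x hx => ?_⟩, hr, fun i => ?_⟩
    · show ∑ i, y i * N y i = 0
      have := euler S.base.hom y
      rw [hy.2.1, mul_zero, dd_eq_sum] at this
      simp only [hN, Pi.smul_apply, smul_eq_mul, mul_left_comm _ (nrm y)⁻¹, ← Finset.mul_sum,
        this, mul_zero]
    · show ∑ i, N y i ^ 2 = 1
      simp only [hN, Pi.smul_apply, smul_eq_mul, mul_pow, ← Finset.mul_sum]
      rw [inv_pow, hnrm, Real.sq_sqrt hsum.le, inv_mul_cancel₀ hsum.ne']
    · show 0 ≤ ∑ i, x i * N y i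
      simp only [hN, Pi.smul_apply, smul_eq_mul, mul_left_comm _ (nrm y)⁻¹, ← Finset.mul_sum]
      exact mul_nonneg (inv_nonneg.mpr hr.le) (by simpa [dd_eq_sum] using S.slack_nonneg hx hy)
    · simp only [hN, Pi.smul_apply, smul_eq_mul, ← mul_assoc, mul_inv_cancel₀ hr.ne', one_mul]
  have hval : Continuous fun z : (Fin n → ℝ) × (Fin n → ℝ) => ∑ i, a' i * z.2 i := by fun_prop
  have hbad : IsCompact (Prod.fst '' (Γ ∩ {z | ∑ i, a' i * z.2 i ≤ 0})) :=
    (hΓcomp.inter_right (isClosed_le hval continuous_const)).image continuous_fst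
  have hanot : a ∉ Prod.fst '' (Γ ∩ {z | ∑ i, a' i * z.2 i ≤ 0}) := by
    rintro ⟨z, ⟨⟨-, h1, h2, h3⟩, h4⟩, rfl⟩
    refine absurd h4 (not_le.mpr (S.support_pos ha ha' hne ?_ h3 h1))
    intro h0
    simp [h0] at h2
  obtain ⟨r, hr, hball⟩ := Metric.mem_nhds_iff.mp (hbad.isClosed.isOpen_compl.mem_nhds hanot)
  obtain ⟨δ, hδ, hδle⟩ : ∃ δ > 0, ∀ z ∈ Γ ∩ (Metric.closedBall a (r / 2) ×ˢ Set.univ),
      δ ≤ ∑ i, a' i * z.2 i := by
    set Γ' := Γ ∩ (Metric.closedBall a (r / 2) ×ˢ Set.univ)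
    have hc : IsCompact Γ' :=
      hΓcomp.inter_right (Metric.isClosed_closedBall.prod isClosed_univ)
    rcases Γ'.eq_empty_or_nonempty with h | hne'
    · exact ⟨1, one_pos, fun z hz => absurd hz (by rw [h]; exact Set.notMem_empty z)⟩
    · obtain ⟨z, hz, hmin⟩ := hc.exists_isMinOn hne' hval.continuousOn
      refine ⟨∑ i, a' i * z.2 i, ?_, fun w hw => hmin hw⟩
      by_contra hle
      push Not at hle
      refine hball ?_ ⟨z, ⟨hz.1, hle⟩, rfl⟩
      rw [Metric.mem_ball]
      have := hz.2.1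
      rw [Metric.mem_closedBall] at this
      linarith
  set ε := δ / (n + 1) with hεdef
  have hε : 0 < ε := by positivity
  refine ⟨Metric.ball a' ε ∩ bd p e,
    inter_mem (nhdsWithin_le_nhds (Metric.ball_mem_nhds _ hε)) self_mem_nhdsWithin,
    Metric.closedBall a (r / 2) ∩ bd p e,
    inter_mem (nhdsWithin_le_nhds (Metric.closedBall_mem_nhds _ (by linarith))) self_mem_nhdsWithin,
    ?_⟩
  set U := Metric.ball a' ε ∩ bd p e
  set V := (Metric.closedBall a (r / 2) ∩ bd p e) ∩ {y | grad p y ≠ 0}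
  have h1 : SOSKer U V (fun _ _ => (1 : ℝ)) := SOSKer.const zero_le_one
  have hN1 : ∀ y ∈ V, ∀ i, |N y i| ≤ 1 := fun y hy i => by
    have := (hmem y hy.1.2 hy.2).1.2.2.1
    have h' : N y i ^ 2 ≤ 1 := this ▸ Finset.single_le_sum (f := fun i => N y i ^ 2)
      (fun j _ => sq_nonneg _) (Finset.mem_univ i)
    exact (sq_le_one_iff_abs_le_one _).mp h'
  have hξ : ∀ x ∈ U, ∀ i, |x i - a' i| ≤ ε := fun x hx i => by
    have h' := Metric.mem_ball.mp hx.1
    have := dist_le_pi_dist x a' i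
    rw [Real.dist_eq] at this
    linarith
  have hterm : ∀ i, SOSKer U V (fun x y => (x i - a' i) * N y i + ε) := fun i => by
    refine ((h1.weight (a := fun x => (ε + (x i - a' i)) / 2) (b := fun y => 1 + N y i)
      (fun x hx => ?_) (fun y hy => ?_)).add
      (h1.weight (a := fun x => (ε - (x i - a' i)) / 2) (b := fun y => 1 - N y i)
      (fun x hx => ?_) (fun y hy => ?_))).congr (fun x _ y _ => by ring)
    · linarith [abs_le.mp (hξ x hx i)]
    · linarith [abs_le.mp (hN1 y hy i)]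
    · linarith [abs_le.mp (hξ x hx i)]
    · linarith [abs_le.mp (hN1 y hy i)]
  have hrest : SOSKer U V (fun _ y => (∑ i, a' i * N y i) - n * ε) := by
    refine (h1.weight (a := fun _ => 1) (b := fun y => (∑ i, a' i * N y i) - n * ε)
      (fun _ _ => zero_le_one) fun y hy => ?_).congr (fun x _ y _ => by ring)
    have h' := hδle (y, N y) ⟨(hmem y hy.1.2 hy.2).1, hy.1.1, Set.mem_univ _⟩
    have h'' : (n : ℝ) * ε ≤ δ := by
      rw [hεdef, ← mul_div_assoc, div_le_iff₀ (by positivity)]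
      nlinarith
    simp only at h'
    linarith
  refine (((SOSKer.sum Finset.univ fun i _ => hterm i).add hrest).weight (a := fun _ => 1)
    (b := nrm) (fun _ _ => zero_le_one) fun y _ => Real.sqrt_nonneg _).congr fun x _ y hy => ?_
  simp only [(hmem y hy.1.2 hy.2).2.2, Finset.sum_add_distrib, sub_mul, Finset.sum_sub_distrib,
    Finset.sum_const, Finset.card_univ, Fintype.card_fin, nsmul_eq_mul,
    mul_left_comm _ (nrm y), ← Finset.mul_sum]
  ring

/-- the smooth incidence. -/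
theorem local_kernel_smooth (S : Setting p e d) {a : Fin n → ℝ} (ha : a ∈ bd p e)
    (hg : grad p a ≠ 0) :
    ∃ U ∈ 𝓝[bd p e] a, ∃ V ∈ 𝓝[bd p e] a, SOSKer U (V ∩ {y | grad p y ≠ 0})
      (fun x y => ∑ i, x i * grad p y i) := by
  obtain ⟨M, hMc, hMs, hM⟩ := exists_taylor p
  set φ := grad p e with hφ
  obtain ⟨κ, hκ⟩ := exists_penalty (fun i j => -M i j a a)
    (fun w => (∑ i, grad p a i * w i) ^ 2 + (∑ i, φ i * w i) ^ 2) (by fun_prop)
    (fun w => add_nonneg (sq_nonneg _) (sq_nonneg _))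
    (fun c w => by
      simp only [Pi.smul_apply, smul_eq_mul, mul_left_comm _ c, ← Finset.mul_sum]; ring)
    (fun w hw h0 => by
      obtain ⟨h1, h2⟩ := (add_eq_zero_iff_of_nonneg (sq_nonneg _) (sq_nonneg _)).mp h0
      have hc := S.curvature ha hg (v := w)
        (by rw [dd_eq_sum]; simpa [mul_comm] using pow_eq_zero_iff two_ne_zero |>.mp h2) hw
        (by rw [dd_eq_sum]; simpa [mul_comm] using pow_eq_zero_iff two_ne_zero |>.mp h1)
      rw [← taylor_diag p M hMc hM] at hc
      simp only [neg_mul, Finset.sum_neg_distrib]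
      linarith)
  set l : Filter (Fin n → ℝ) := 𝓝[bd p e] a
  have hid : Tendsto (fun x : Fin n → ℝ => x) l (𝓝 a) := nhdsWithin_le_nhds
  have hMst := hMs _ _ l l (fun x => x) (fun y => y) a a hid hid
  have hgy : ∀ i, SepTendsto l l (fun _ y => grad p y i) (grad p a i) := fun i =>
    SepTendsto.of_right (((MvPolynomial.continuous_eval _).tendsto a).comp hid)
  have hv : ∀ i, SepTendsto l l (fun x y : Fin n → ℝ => x i - y i) 0 := fun i =>
    ((SepTendsto.of_left (tendsto_pi_nhds.mp hid i)).sub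
      (SepTendsto.of_right (tendsto_pi_nhds.mp hid i))).congr (fun _ _ => rfl) (sub_self _).symm
  have hLz : SepTendsto l l (fun x y => ∑ i, grad p y i * (x i - y i)) 0 :=
    (SepTendsto.sum Finset.univ fun i _ => (hgy i).mul (hv i)).congr (fun _ _ => rfl) (by simp)
  set Mf : Fin n → Fin n → (Fin n → ℝ) → (Fin n → ℝ) → ℝ := fun i j x y =>
    (κ * (∑ k, grad p y k * (x k - y k)) - 1) * M i j y x
      + κ * (grad p y i * grad p y j) + κ * (φ i * φ j)
  obtain ⟨U, hU, V, hV, h⟩ := exists_SOSKer_gram (l := l) (l' := l)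
    (fun i x y => x i - y i) (fun i => (hv i).isSep) Mf
    (fun i j => -M i j a a + κ * (grad p a i * grad p a j) + κ * (φ i * φ j))
    (fun i j => ((((hLz.const_mul κ).sub (SepTendsto.const 1)).mul (hMst i j)).add
      (((hgy i).mul (hgy j)).const_mul κ)).add
      ((SepTendsto.const (φ i * φ j)).const_mul κ) |>.congr (fun _ _ => rfl) (by ring))
    (fun w hw => by
      have := hκ w hw
      refine lt_of_lt_of_eq this ?_
      simp only [add_mul, Finset.sum_add_distrib, mul_assoc κ, ← Finset.mul_sum, quad_outer]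
      ring)
  refine ⟨U ∩ bd p e, inter_mem hU self_mem_nhdsWithin, V ∩ bd p e,
    inter_mem hV self_mem_nhdsWithin,
    (h.mono Set.inter_subset_left fun y hy => hy.1.1).congr fun x hx y hy => ?_⟩
  have hT := hM y x
  rw [hx.2.2.1, hy.1.2.2.1, zero_add, dd_eq_sum] at hT
  have hLx : ∑ i, x i * grad p y i = ∑ i, grad p y i * (x i - y i) := by
    have he := euler S.base.hom y
    rw [hy.1.2.2.1, mul_zero, dd_eq_sum] at he
    calc ∑ i, x i * grad p y i = (∑ i, x i * grad p y i) - ∑ i, y i * grad p y i := by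
          rw [he, sub_zero]
      _ = _ := by
          rw [← Finset.sum_sub_distrib]
          exact Finset.sum_congr rfl fun i _ => by ring
  have hphi : ∑ i, φ i * (x i - y i) = 0 := by
    have h1 := hx.2.2.2
    have h2 := hy.1.2.2.2
    rw [dd_eq_sum] at h1 h2
    calc _ = (∑ i, x i * grad p e i) - ∑ i, y i * grad p e i := by
          rw [← Finset.sum_sub_distrib]
          exact Finset.sum_congr rfl fun i _ => by rw [hφ]; ring
      _ = 0 := by rw [h1, h2, sub_self]
  simp only [Pi.sub_apply, mul_comm (_ - _) (grad p y _)] at hT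
  simp only [Mf, add_mul, Finset.sum_add_distrib, mul_assoc κ, ← Finset.mul_sum, quad_outer,
    hphi, mul_assoc (κ * _ - 1)]
  rw [hLx]
  linear_combination (κ * (∑ k, grad p y k * (x k - y k)) - 1) * hT

/-- the boundary directions of the tangent cone at a singular point. -/
theorem dir_cases {a : Fin n → ℝ} {m : ℕ}
    (T : TanSetting p e d a m) (u : Fin n → ℝ) :
    (u ∈ tcone p e a m ∧ MvPolynomial.eval u (tayl p a m) = 0) ∨ dirFilter p e a u = ⊥ := by
  by_cases h1 : u ∈ tcone p e a m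
  · by_cases h2 : MvPolynomial.eval u (tayl p a m) = 0
    · exact Or.inl ⟨h1, h2⟩
    · refine Or.inr (empty_mem_iff_bot.mp ?_)
      have ht : Tendsto (fun x => bev p a m d (lam a x) (dirTo a x)) (dirFilter p e a u)
          (𝓝 (MvPolynomial.eval u (tayl p a m))) := by
        rw [← T.bev_zero]
        exact ((MvPolynomial.continuous_eval (blow p a m d)).tendsto _).comp
          (tendsto_dirFilter p e a u)
      have hev := (ht.eventually_ne h2).and (eventually_dirFilter p e a u)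
      refine mem_of_superset hev fun x hx => ?_
      obtain ⟨hne, hxb, hxa⟩ := hx
      have := hxb.2.1
      rw [← add_lam_dir hxa, T.eval_blow] at this
      exact hne ((mul_eq_zero.mp this).resolve_left (pow_ne_zero _ (lam_pos hxa).ne'))
  · refine Or.inr (empty_mem_iff_bot.mp ?_)
    have ht : Tendsto (dirTo a) (dirFilter p e a u) (𝓝 u) :=
      tendsto_comap.mono_left inf_le_right
    have hev := (ht.eventually (T.isClosed_tcone.isOpen_compl.mem_nhds h1)).and
      (eventually_dirFilter p e a u)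
    refine mem_of_superset hev fun x hx => ?_
    obtain ⟨hne, hxb, hxa⟩ := hx
    refine hne (T.feas_subset ⟨lam a x, lam_pos hxa, ?_⟩)
    rw [add_lam_dir hxa]
    exact hxb.1

/-- data at a boundary direction of the tangent cone. -/
theorem dir_data {a : Fin n → ℝ} {m : ℕ} (T : TanSetting p e d a m)
    (hs : ∀ s : Fin n → ℝ, dd p e s = 0 → s ≠ 0 → s ∈ tcone p e a m →
        MvPolynomial.eval s (tayl p a m) = 0 →
        0 < dd (tayl p a m) s e ∧ ∃ t : ℝ, MvPolynomial.eval (a + t • s) p ≠ 0)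
    {u : Fin n → ℝ} (hu : u ∈ dirSphere p e) (hut : u ∈ tcone p e a m)
    (h0 : MvPolynomial.eval u (tayl p a m) = 0) :
    Pl p a m d (Fin.cons 0 u) < 0 := by
  have hu0 : u ≠ 0 := by
    rintro rfl
    simp [dirSphere] at hu
  obtain ⟨he, hline⟩ := hs u hu.1 hu0 hut h0
  rw [T.Pl_zero]
  exact lt_of_le_of_ne (T.next_nonpos hut h0 he) (T.next_ne_zero h0 he hline)

/-- the kernel along two boundary directions at a singular point. -/
theorem dir_kernel (S : Setting p e d) {a : Fin n → ℝ} {m : ℕ} (hm : 2 ≤ m) (ha : a ∈ bd p e)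
    (T : TanSetting p e d a m)
    (hs : ∀ s : Fin n → ℝ, dd p e s = 0 → s ≠ 0 → s ∈ tcone p e a m →
        MvPolynomial.eval s (tayl p a m) = 0 →
        0 < dd (tayl p a m) s e ∧ ∃ t : ℝ, MvPolynomial.eval (a + t • s) p ≠ 0)
    {u u₀ : Fin n → ℝ} (hu : u ∈ dirSphere p e) (hu₀ : u₀ ∈ dirSphere p e) :
    ∃ U ∈ dirFilter p e a u, ∃ V ∈ dirFilter p e a u₀,
      SOSKer U V (fun x y => ∑ i, x i * grad p y i) := by
  rcases dir_cases T u with ⟨hut, hu0⟩ | hbot
  swap
  · exact ⟨∅, by rw [hbot]; exact mem_bot, Set.univ, univ_mem, SOSKer.empty_left⟩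
  rcases dir_cases T u₀ with ⟨hut₀, hu00⟩ | hbot
  swap
  · refine ⟨Set.univ, univ_mem, ∅, by rw [hbot]; exact mem_bot, ?_⟩
    exact SOSKer.zero.congr fun _ _ _ hy => absurd hy (Set.notMem_empty _)
  have hord : ∀ s : Fin n → ℝ, dd p e s = 0 → s ≠ 0 → s ∈ tcone p e a m →
      MvPolynomial.eval s (tayl p a m) = 0 → 0 < dd (tayl p a m) s e :=
    fun s h1 h2 h3 h4 => (hs s h1 h2 h3 h4).1
  have hPl := dir_data T hs hu₀ hut₀ hu00
  set l := dirFilter p e a u
  set l' := dirFilter p e a u₀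
  set cx : (Fin n → ℝ) → Fin (n + 1) → ℝ := fun x => Fin.cons (lam a x) (dirTo a x)
  have hcx : Tendsto cx l (𝓝 (Fin.cons 0 u)) := tendsto_dirFilter p e a u
  have hcy : Tendsto cx l' (𝓝 (Fin.cons 0 u₀)) := tendsto_dirFilter p e a u₀
  have hlam : Tendsto (fun x => lam a x) l (𝓝 0) := by simpa [cx] using tendsto_pi_nhds.mp hcx 0
  have hlam' : Tendsto (fun x => lam a x) l' (𝓝 0) := by
    simpa [cx] using tendsto_pi_nhds.mp hcy 0
  have hdirx : ∀ i, Tendsto (fun x => dirTo a x i) l (𝓝 (u i)) := fun i => by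
    simpa [cx] using tendsto_pi_nhds.mp hcx i.succ
  have hdiry : ∀ i, Tendsto (fun x => dirTo a x i) l' (𝓝 (u₀ i)) := fun i => by
    simpa [cx] using tendsto_pi_nhds.mp hcy i.succ
  have hPlst : SepTendsto l l' (fun _ y => Pl p a m d (cx y)) (Pl p a m d (Fin.cons 0 u₀)) :=
    SepTendsto.of_right (((MvPolynomial.continuous_eval _).tendsto _).comp hcy)
  have hGst : ∀ i, SepTendsto l l' (fun _ y => Gu p a m d i (cx y))
      (Gu p a m d i (Fin.cons 0 u₀)) := fun i =>
    SepTendsto.of_right (((MvPolynomial.continuous_eval _).tendsto _).comp hcy)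
  set W : Set (Fin n → ℝ) := {x | x ∈ bd p e ∧ x ≠ a}
  have hW : W ∈ l := eventually_dirFilter p e a u
  have hW' : W ∈ l' := eventually_dirFilter p e a u₀
  -- the reduced kernel
  set F : (Fin n → ℝ) → (Fin n → ℝ) → ℝ := fun x y =>
    lam a x * (∑ i, (dirTo a x i - dirTo a y i) * Gu p a m d i (cx y))
      + (lam a x - lam a y) * lam a y * Pl p a m d (cx y) with hF
  have hS : ∀ x ∈ W, ∀ y ∈ W, ∑ i, x i * grad p y i = 1 * lam a y ^ (m - 1) * F x y := by
    intro x hx y hy
    rw [← dd_eq_sum, one_mul]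
    refine T.slack_eq (by omega) (add_lam_dir hx.2).symm (add_lam_dir hy.2).symm
      (lam_pos hy.2).ne' ?_ hy.1.2.1
    have := hy.1.2.1
    rw [← add_lam_dir hy.2, T.eval_blow] at this
    exact (mul_eq_zero.mp this).resolve_left (pow_ne_zero _ (lam_pos hy.2).ne')
  suffices h : ∃ U ∈ l, ∃ V ∈ l', SOSKer U V F by
    obtain ⟨U, hU, V, hV, h⟩ := h
    refine ⟨U ∩ W, inter_mem hU hW, V ∩ W, inter_mem hV hW', ?_⟩
    exact ((h.mono Set.inter_subset_left Set.inter_subset_left).weight (a := fun _ => 1)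
      (b := fun y => lam a y ^ (m - 1)) (fun _ _ => zero_le_one)
      (fun y _ => pow_nonneg (Real.sqrt_nonneg _) _)).congr fun x hx y hy => hS x hx.2 y hy.2
  by_cases hne : u = u₀
  swap
  · set F1 : (Fin n → ℝ) → (Fin n → ℝ) → ℝ := fun x y =>
      (∑ i, (dirTo a x i - dirTo a y i) * Gu p a m d i (cx y))
        + lam a y * Pl p a m d (cx y)
    have hF1 : SepTendsto l l' F1 (dd (tayl p a m) u₀ u) := by
      refine ((SepTendsto.sum Finset.univ fun i _ =>
        ((SepTendsto.of_left (hdirx i)).sub (SepTendsto.of_right (hdiry i))).mul (hGst i)).add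
        ((SepTendsto.of_right hlam').mul hPlst)).congr (fun _ _ => rfl) ?_
      simp only [sub_mul, Finset.sum_sub_distrib, T.Gu_zero, zero_mul, add_zero]
      rw [euler T.tayl_hom, hu00, mul_zero, sub_zero]
    obtain ⟨U1, hU1, V1, hV1, h1⟩ := exists_SOSKer_pos hF1
      (tangent_support_pos T hm hord hut hut₀ hu.1 hu₀.1 hu.2 hu₀.2 hu00 hne)
    obtain ⟨U2, hU2, V2, hV2, h2⟩ := exists_SOSKer_pos hPlst.neg (neg_pos.mpr hPl)
    refine ⟨U1 ∩ U2, inter_mem hU1 hU2, V1 ∩ V2, inter_mem hV1 hV2, ?_⟩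
    have k1 := (h1.mono (U' := U1 ∩ U2) (V' := V1 ∩ V2) Set.inter_subset_left
      Set.inter_subset_left).weight (a := fun x => lam a x) (b := fun _ => 1)
      (fun x _ => Real.sqrt_nonneg _) (fun _ _ => zero_le_one)
    have k2 := (h2.mono (U' := U1 ∩ U2) (V' := V1 ∩ V2) Set.inter_subset_right
      Set.inter_subset_right).weight (a := fun _ => 1) (b := fun y => lam a y ^ 2)
      (fun _ _ => zero_le_one) (fun y _ => sq_nonneg _)
    exact (k1.add k2).congr fun x _ y _ => by simp only [hF, F1]; ring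
  subst hne
  obtain ⟨M, hMc, hMs, hM⟩ := exists_taylor (blow p a m d)
  set φ := grad p e with hφ
  set g0 : Fin n → ℝ := fun i => Gu p a m d i (Fin.cons 0 u)
  set w0 : Fin (n + 1) → ℝ := Fin.cons 0 u
  obtain ⟨κ, hκ⟩ := exists_penalty (fun i j : Fin n => -M i.succ j.succ w0 w0)
    (fun w => (∑ i, g0 i * w i) ^ 2 + (2 * (∑ i, u i * w i) ^ 2 + (∑ i, φ i * w i) ^ 2))
    (by fun_prop)
    (fun w => add_nonneg (sq_nonneg _) (add_nonneg (mul_nonneg zero_le_two (sq_nonneg _)) (sq_nonneg _)))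
    (fun c w => by
      simp only [Pi.smul_apply, smul_eq_mul, mul_left_comm _ c, ← Finset.mul_sum]; ring)
    (fun w hw h0 => by
      obtain ⟨h1, h23⟩ := (add_eq_zero_iff_of_nonneg (sq_nonneg _) (add_nonneg (mul_nonneg zero_le_two (sq_nonneg _)) (sq_nonneg _))).mp h0
      obtain ⟨h2, h3⟩ := (add_eq_zero_iff_of_nonneg (mul_nonneg zero_le_two (sq_nonneg _)) (sq_nonneg _)).mp h23
      have hu0' : u ≠ 0 := by
        rintro rfl
        simp [dirSphere] at hu
      have hnotpar : ∀ c : ℝ, u ≠ c • w := fun c hc => by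
        have huw : ∑ i, u i * w i = 0 := by simpa using h2
        have : ∑ i, u i ^ 2 = c * ∑ i, u i * w i := by
          rw [Finset.mul_sum]
          refine Finset.sum_congr rfl fun i _ => ?_
          rw [congrFun hc i]; simp; ring
        rw [hu.2, huw, mul_zero] at this
        exact one_ne_zero this
      have hc := tangent_curvature T hm hord hut hu.1 hu0' hu0 (v := w)
        (by rw [dd_eq_sum]; simpa [mul_comm] using pow_eq_zero_iff two_ne_zero |>.mp h3) hw hnotpar
        (by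
          rw [← T.Gu_zero]
          simpa [g0, mul_comm] using pow_eq_zero_iff two_ne_zero |>.mp h1)
      rw [← T.line_blow_zero, ← taylor_diag _ M hMc hM] at hc
      simp only [Fin.sum_univ_succ, Fin.cons_zero, Fin.cons_succ, zero_mul, mul_zero,
        zero_add, Finset.sum_const_zero] at hc
      simp only [neg_mul, Finset.sum_neg_distrib]
      linarith)
  have hMst := hMs _ _ l l' cx cx w0 w0 hcx hcy
  have hsq : Tendsto (fun x => Real.sqrt (lam a x)) l (𝓝 0) := by
    simpa [Function.comp_def] using (Real.continuous_sqrt.tendsto 0).comp hlam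
  have hdu : ∀ i, SepTendsto l l' (fun x y => dirTo a x i - dirTo a y i) 0 := fun i =>
    ((SepTendsto.of_left (hdirx i)).sub (SepTendsto.of_right (hdiry i))).congr (fun _ _ => rfl)
      (sub_self _).symm
  set dl : (Fin n → ℝ) → (Fin n → ℝ) → ℝ := fun x y => lam a x - lam a y
  set v : Option (Fin n) → (Fin n → ℝ) → (Fin n → ℝ) → ℝ := fun o x y =>
    o.elim (dl x y) fun i => Real.sqrt (lam a x) * (dirTo a x i - dirTo a y i)
  have hv : ∀ o, IsSep (v o) := by
    rintro (_ | i)
    · exact ((SepTendsto.of_left (l' := l') hlam).sub (SepTendsto.of_right hlam')).isSep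
    · exact ((SepTendsto.of_left (l' := l') hsq).mul (hdu i)).isSep
  set μ : (Fin n → ℝ) → (Fin n → ℝ) → ℝ := fun x y =>
    κ * (∑ k, Gu p a m d k (cx y) * (dirTo a x k - dirTo a y k)) - 1
  set ν : (Fin n → ℝ) → (Fin n → ℝ) → ℝ := fun x y =>
    ∑ k, dirTo a y k * (dirTo a x k - dirTo a y k)
  have hμ : SepTendsto l l' μ (-1) :=
    ((((SepTendsto.sum Finset.univ fun k _ => (hGst k).mul (hdu k)).const_mul κ).sub
      (SepTendsto.const 1))).congr (fun _ _ => rfl) (by simp)
  have hν : SepTendsto l l' ν 0 :=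
    (SepTendsto.sum Finset.univ fun k _ => (SepTendsto.of_right (hdiry k)).mul (hdu k)).congr
      (fun _ _ => rfl) (by simp)
  set Mf : Option (Fin n) → Option (Fin n) → (Fin n → ℝ) → (Fin n → ℝ) → ℝ := fun o o' x y =>
    o.elim
      (o'.elim (-Pl p a m d (cx y) + lam a x * (μ x y * M 0 0 (cx y) (cx x)))
        fun j => Real.sqrt (lam a x) * (μ x y * M 0 j.succ (cx y) (cx x)
          + κ * (Pl p a m d (cx y) * Gu p a m d j (cx y))))
      fun i => o'.elim (Real.sqrt (lam a x) * (μ x y * M i.succ 0 (cx y) (cx x)))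
        fun j => μ x y * M i.succ j.succ (cx y) (cx x)
          + κ * (Gu p a m d i (cx y) * Gu p a m d j (cx y))
          + 2 * κ * (dirTo a y i * dirTo a y j) + κ * (ν x y * if i = j then 1 else 0)
          + κ * (φ i * φ j) with hMf
  set M0 : Option (Fin n) → Option (Fin n) → ℝ := fun o o' =>
    o.elim (o'.elim (-Pl p a m d w0) fun _ => 0)
      fun i => o'.elim 0 fun j => -M i.succ j.succ w0 w0 + κ * (g0 i * g0 j)
        + 2 * κ * (u i * u j) + κ * (φ i * φ j) with hM0
  have hMM : ∀ o o', SepTendsto l l' (Mf o o') (M0 o o') := by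
    rintro (_ | i) (_ | j)
    · exact ((hPlst.neg).add ((SepTendsto.of_left hlam).mul (hμ.mul (hMst 0 0)))).congr
        (fun _ _ => rfl) (by simp [hM0, w0])
    · exact ((SepTendsto.of_left hsq).mul ((hμ.mul (hMst 0 j.succ)).add
        ((hPlst.mul (hGst j)).const_mul κ))).congr (fun _ _ => rfl) (by simp [hM0])
    · exact ((SepTendsto.of_left hsq).mul (hμ.mul (hMst i.succ 0))).congr (fun _ _ => rfl)
        (by simp [hM0])
    · exact ((((hμ.mul (hMst i.succ j.succ)).add (((hGst i).mul (hGst j)).const_mul κ)).add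
        (((SepTendsto.of_right (hdiry i)).mul (SepTendsto.of_right (hdiry j))).const_mul
          (2 * κ))).add ((hν.mul (SepTendsto.const (if i = j then 1 else 0))).const_mul κ)).add
        ((SepTendsto.const (φ i * φ j)).const_mul κ) |>.congr (fun _ _ => rfl)
        (by simp [hM0, g0, w0])
  obtain ⟨U, hU, V, hV, h⟩ := exists_SOSKer_gram v hv Mf M0 hMM (fun w hw => by
    set w' : Fin n → ℝ := fun i => w (some i)
    have hsplit : ∑ o, ∑ o', M0 o o' * (w o * w o') = -Pl p a m d w0 * (w none * w none)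
        + ((∑ i, ∑ j, -M i.succ j.succ w0 w0 * (w' i * w' j)) + κ * ((∑ i, g0 i * w' i) ^ 2
          + (2 * (∑ i, u i * w' i) ^ 2 + (∑ i, φ i * w' i) ^ 2))) := by
      simp only [hM0, Fintype.sum_option, Option.elim_none, Option.elim_some, zero_mul,
        Finset.sum_const_zero, add_zero, zero_add, add_mul, Finset.sum_add_distrib,
        mul_assoc κ, mul_assoc (2 * κ), ← Finset.mul_sum, quad_outer, w']
      ring
    rw [hsplit]
    by_cases hw' : w' = 0
    · have hw0 : w none ≠ 0 := by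
        intro h0
        refine hw (funext fun o => ?_)
        rcases o with _ | i
        · exact h0
        · exact congrFun hw' i
      simp only [hw', Pi.zero_apply, mul_zero, Finset.sum_const_zero, add_zero, mul_zero, sq]
      exact mul_pos (neg_pos.mpr hPl) (mul_self_pos.mpr hw0)
    · have := hκ w' hw'
      have h2 : 0 ≤ -Pl p a m d w0 * (w none * w none) :=
        mul_nonneg (neg_nonneg.mpr hPl.le) (mul_self_nonneg _)
      linarith)
  refine ⟨U ∩ W, inter_mem hU hW, V ∩ W, inter_mem hV hW',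
    (h.mono Set.inter_subset_left Set.inter_subset_left).congr fun x hx y hy => ?_⟩
  obtain ⟨hxb, hxa⟩ := hx.2
  obtain ⟨hyb, hya⟩ := hy.2
  have hbev : ∀ z : Fin n → ℝ, z ∈ bd p e → z ≠ a →
      MvPolynomial.eval (cx z) (blow p a m d) = 0 := by
    intro z hz hza
    have := hz.2.1
    rw [← add_lam_dir hza, T.eval_blow] at this
    exact (mul_eq_zero.mp this).resolve_left (pow_ne_zero _ (lam_pos hza).ne')
  set du : Fin n → ℝ := fun i => dirTo a x i - dirTo a y i with hdu'
  have hz : ∀ i, cx x i - cx y i = (Fin.cons (dl x y) du : Fin (n + 1) → ℝ) i :=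
    Fin.cases (by simp [cx, dl]) (fun k => by simp [cx, hdu'])
  have hE := hM (cx y) (cx x)
  rw [hbev x hxb hxa, hbev y hyb hya, zero_add,
    show cx x - cx y = Fin.cons (dl x y) du from funext hz, dd_blow] at hE
  simp only [hz, Fin.sum_univ_succ, Fin.cons_zero, Fin.cons_succ] at hE
  have hunit : 2 * (∑ k, dirTo a y k * du k) + ∑ k, du k ^ 2 = 0 := by
    have h1 := (dir_mem ha hxb hxa).2
    have h2 := (dir_mem ha hyb hya).2
    calc _ = ∑ k, (dirTo a x k ^ 2 - dirTo a y k ^ 2) := by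
          rw [Finset.mul_sum, ← Finset.sum_add_distrib]
          exact Finset.sum_congr rfl fun k _ => by simp [hdu']; ring
      _ = 0 := by rw [Finset.sum_sub_distrib, h1, h2, sub_self]
  have hphi : ∑ k, φ k * du k = 0 := by
    have h1 := (dir_mem ha hxb hxa).1
    have h2 := (dir_mem ha hyb hya).1
    rw [dd_eq_sum] at h1 h2
    calc _ = (∑ k, dirTo a x k * grad p e k) - ∑ k, dirTo a y k * grad p e k := by
          rw [← Finset.sum_sub_distrib]
          exact Finset.sum_congr rfl fun k _ => by simp [hdu', hφ]; ring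
      _ = 0 := by rw [h1, h2, sub_self]
  have hsql : Real.sqrt (lam a x) * Real.sqrt (lam a x) = lam a x :=
    Real.mul_self_sqrt (Real.sqrt_nonneg _)
  set G := ∑ k, Gu p a m d k (cx y) * du k with hG
  set U0 := ∑ k, dirTo a y k * du k with hU0
  set P := Pl p a m d (cx y)
  set sl := Real.sqrt (lam a x)
  set l1 := lam a x with hl1
  have hG' : ∑ i, (dirTo a x i - dirTo a y i) * Gu p a m d i (cx y) = G :=
    Finset.sum_congr rfl fun k _ => by simp [hdu']; ring
  have hGc : ∑ i, du i * Gu p a m d i (cx y) = G :=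
    Finset.sum_congr rfl fun k _ => mul_comm _ _
  rw [hGc] at hE
  simp only [Finset.sum_add_distrib] at hE
  set A00 := M 0 0 (cx y) (cx x)
  set A01 := ∑ j, M 0 j.succ (cx y) (cx x) * du j with hA01
  set A10 := ∑ i, M i.succ 0 (cx y) (cx x) * du i with hA10
  set A11 := ∑ i, ∑ j, M i.succ j.succ (cx y) (cx x) * (du i * du j) with hA11
  have e01 : ∑ j, M 0 j.succ (cx y) (cx x) * (dl x y * du j) = dl x y * A01 := by
    rw [hA01, Finset.mul_sum]; exact Finset.sum_congr rfl fun j _ => by ring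
  have e10 : ∑ i, M i.succ 0 (cx y) (cx x) * (du i * dl x y) = dl x y * A10 := by
    rw [hA10, Finset.mul_sum]; exact Finset.sum_congr rfl fun j _ => by ring
  rw [e01, e10] at hE
  have p00 : Mf none none x y * (v none x y * v none x y)
      = (-P + l1 * (μ x y * A00)) * (dl x y * dl x y) := rfl
  have p01 : ∑ j, Mf none (some j) x y * (v none x y * v (some j) x y)
      = l1 * (μ x y * (dl x y * A01) + κ * (P * G) * dl x y) := by
    simp only [hMf, v, Option.elim_none, Option.elim_some, hA01, hG, Finset.mul_sum, Finset.sum_mul,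
      ← Finset.sum_add_distrib]
    exact Finset.sum_congr rfl fun j _ => by rw [← hsql]; ring
  have p10 : ∑ i, Mf (some i) none x y * (v (some i) x y * v none x y)
      = l1 * (μ x y * (dl x y * A10)) := by
    simp only [hMf, v, Option.elim_none, Option.elim_some, hA10, Finset.mul_sum]
    exact Finset.sum_congr rfl fun j _ => by rw [← hsql]; ring
  have p11 : ∑ i, ∑ j, Mf (some i) (some j) x y * (v (some i) x y * v (some j) x y)
      = l1 * (μ x y * A11 + κ * G ^ 2 + 2 * κ * U0 ^ 2 + κ * (ν x y * ∑ k, du k ^ 2)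
        + κ * (∑ k, φ k * du k) ^ 2) := by
    have hδ : ∑ i, ∑ j, (if i = j then (1 : ℝ) else 0) * (du i * du j) = ∑ k, du k ^ 2 := by
      refine Finset.sum_congr rfl fun i _ => ?_
      simp [sq]
    have step : ∀ i j, Mf (some i) (some j) x y * (v (some i) x y * v (some j) x y)
        = l1 * ((μ x y * M i.succ j.succ (cx y) (cx x)
          + κ * (Gu p a m d i (cx y) * Gu p a m d j (cx y))
          + 2 * κ * (dirTo a y i * dirTo a y j) + κ * (ν x y * if i = j then 1 else 0)
          + κ * (φ i * φ j)) * (du i * du j)) := by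
      intro i j
      simp only [hMf, v, Option.elim_some, hdu']
      rw [← hsql]
      ring
    simp only [step, ← Finset.mul_sum]
    congr 1
    simp only [add_mul, Finset.sum_add_distrib, mul_assoc κ, mul_assoc (2 * κ),
      mul_assoc (μ x y), mul_assoc (ν x y), ← Finset.mul_sum, quad_outer, hδ]
    rw [← hG, ← hU0, ← hA11]
    ring
  have hνU : ν x y = U0 := rfl
  have hμG : μ x y = κ * G - 1 := rfl
  simp only [Fintype.sum_option, Finset.sum_add_distrib]
  rw [p00, p01, p10, p11, hνU, hμG, hphi]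
  simp only [hF]
  rw [hG']
  linear_combination (-(l1) * (1 - κ * G)) * hE + (-(κ) * l1 * U0) * hunit

/-- the singular incidence. -/
theorem local_kernel_singular (S : Setting p e d) {a : Fin n → ℝ} (ha : a ∈ bd p e)
    (hg : grad p a = 0) :
    ∃ U ∈ 𝓝[bd p e] a, ∃ V ∈ 𝓝[bd p e] a, SOSKer U (V ∩ {y | grad p y ≠ 0})
      (fun x y => ∑ i, x i * grad p y i) := by
  classical
  obtain ⟨m, hm, T, hs⟩ := S.singular_data ha hg
  have H := fun (z : (Fin n → ℝ) × (Fin n → ℝ)) (hz : z ∈ dirSphere p e ×ˢ dirSphere p e) =>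
    dir_kernel S hm ha T hs hz.1 hz.2
  choose U hU V hV hk using H
  choose P hP Q hQ hPQ using fun z hz => mem_inf_iff_superset.mp (hU z hz)
  choose P' hP' Q' hQ' hPQ' using fun z hz => mem_inf_iff_superset.mp (hV z hz)
  choose N hN hNs using fun z hz => mem_comap.mp (hQ z hz)
  choose N' hN' hNs' using fun z hz => mem_comap.mp (hQ' z hz)
  obtain ⟨t, hcov⟩ := ((isCompact_dirSphere p e).prod (isCompact_dirSphere p e)).elim_nhds_subcover'
    (fun z hz => N z hz ×ˢ N' z hz) (fun z hz => prod_mem_nhds (hN z hz) (hN' z hz))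
  set PP : Set (Fin n → ℝ) := ⋂ z ∈ t, P z.1 z.2 ∩ P' z.1 z.2
  have hPP : PP ∈ 𝓝[bd p e \ {a}] a :=
    (biInter_finset_mem t).mpr fun z _ => inter_mem (hP z.1 z.2) (hP' z.1 z.2)
  have hins : insert a PP ∩ bd p e ∈ 𝓝[bd p e] a := by
    refine inter_mem ?_ self_mem_nhdsWithin
    obtain ⟨O, hO, hOs⟩ := mem_nhdsWithin_iff_exists_mem_nhds_inter.mp hPP
    refine mem_nhdsWithin_iff_exists_mem_nhds_inter.mpr ⟨O, hO, fun x hx => ?_⟩
    by_cases hxa : x = a
    · exact Set.mem_insert_iff.mpr (Or.inl hxa)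
    · exact Set.mem_insert_of_mem a (hOs ⟨hx.1, hx.2, hxa⟩)
  refine ⟨_, hins, _, hins, ?_⟩
  set X := insert a PP ∩ bd p e
  set Y := X ∩ {y | grad p y ≠ 0}
  refine SOSKer.glue (ι := Option ↥(dirSphere p e ×ˢ dirSphere p e)) (insert none (t.image some))
    (fun o => o.elim {a} fun z => U z.1 z.2) (fun o => o.elim Set.univ fun z => V z.1 z.2)
    (fun o _ => ?_) fun x hx y hy => ?_
  · rcases o with _ | z
    · refine ((SOSKer.const zero_le_one).weight (a := fun _ => 1)
        (b := fun y => ∑ i, a i * grad p y i) (fun _ _ => zero_le_one) fun y hy => ?_).congr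
        fun x hx y _ => ?_
      · rw [← dd_eq_sum]; exact S.slack_nonneg ha.1 hy.2.1.2
      · rw [show x = a from hx.1]; ring
    · exact (hk z.1 z.2).mono Set.inter_subset_left Set.inter_subset_left
  · by_cases hxa : x = a
    · exact ⟨none, Finset.mem_insert_self _ _, hxa, Set.mem_univ _⟩
    have hya : y ≠ a := fun h => hy.2 (h ▸ hg)
    have hxP : x ∈ PP := (Set.mem_insert_iff.mp hx.1).resolve_left hxa
    have hyP : y ∈ PP := (Set.mem_insert_iff.mp hy.1.1).resolve_left hya
    obtain ⟨z, hz, hzm⟩ := Set.mem_iUnion₂.mp (Set.mem_of_subset_of_mem hcov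
      (show (dirTo a x, dirTo a y) ∈ dirSphere p e ×ˢ dirSphere p e from
        ⟨dir_mem ha hx.2 hxa, dir_mem ha hy.1.2 hya⟩))
    refine ⟨some z, Finset.mem_insert_of_mem (Finset.mem_image_of_mem _ hz), ?_, ?_⟩
    · exact hPQ z.1 z.2 ⟨(Set.mem_iInter₂.mp hxP z hz).1, hNs z.1 z.2 hzm.1⟩
    · exact hPQ' z.1 z.2 ⟨(Set.mem_iInter₂.mp hyP z hz).2, hNs' z.1 z.2 hzm.2⟩

/-- the slack kernel factorises locally. -/
theorem local_kernel (S : Setting p e d) {a' a : Fin n → ℝ} (ha' : a' ∈ bd p e)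
    (ha : a ∈ bd p e) :
    ∃ U ∈ 𝓝[bd p e] a', ∃ V ∈ 𝓝[bd p e] a, SOSKer U (V ∩ {y | grad p y ≠ 0})
      (fun x y => ∑ i, x i * grad p y i) := by
  by_cases hne : a' = a
  · subst hne
    by_cases hg : grad p a' = 0
    · exact S.local_kernel_singular ha hg
    · exact S.local_kernel_smooth ha hg
  · exact S.local_kernel_distinct ha' ha hne

/-- singular boundary points are isolated. -/
theorem isolated_singular (S : Setting p e d) {a : Fin n → ℝ} (ha : a ∈ bd p e)
    (hg : grad p a = 0) : ∀ᶠ y in 𝓝[bd p e \ {a}] a, grad p y ≠ 0 := by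
  classical
  obtain ⟨m, hm, T, hs⟩ := S.singular_data ha hg
  have H : ∀ u ∈ dirSphere p e, {y | grad p y ≠ 0} ∈ dirFilter p e a u := by
    intro u hu
    rcases dir_cases T u with ⟨hut, hu0⟩ | hbot
    swap
    · rw [hbot]; exact mem_bot
    have hPl := dir_data T hs hu hut hu0
    have ht : Tendsto (fun y => Pl p a m d (Fin.cons (lam a y) (dirTo a y)))
        (dirFilter p e a u) (𝓝 (Pl p a m d (Fin.cons 0 u))) :=
      ((MvPolynomial.continuous_eval _).tendsto _).comp (tendsto_dirFilter p e a u)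
    filter_upwards [ht.eventually_ne hPl.ne, eventually_dirFilter p e a u] with y hy hy'
    intro hg0
    obtain ⟨hyb, hya⟩ := hy'
    have hb := hyb.2.1
    rw [← add_lam_dir hya, T.eval_blow] at hb
    have hbev := (mul_eq_zero.mp hb).resolve_left (pow_ne_zero m (lam_pos hya).ne')
    -- derivative along the direction
    have := T.slack_eq (by omega) (x := a + (lam a y + 1) • dirTo a y) rfl
      (add_lam_dir hya).symm (lam_pos hya).ne' hbev hyb.2.1
    rw [dd_eq_sum, hg0] at this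
    simp only [Pi.zero_apply, mul_zero, Finset.sum_const_zero, sub_self, zero_mul, add_sub_cancel_left,
      one_mul, zero_add] at this
    rcases mul_eq_zero.mp this.symm with h | h
    · exact pow_ne_zero _ (lam_pos hya).ne' h
    · exact hy ((mul_eq_zero.mp h).resolve_left (lam_pos hya).ne')
  choose P hP Q hQ hPQ using fun u hu => mem_inf_iff_superset.mp (H u hu)
  choose N hN hNs using fun u hu => mem_comap.mp (hQ u hu)
  obtain ⟨t, hcov⟩ := (isCompact_dirSphere p e).elim_nhds_subcover' (fun u hu => N u hu)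
    (fun u hu => hN u hu)
  refine mem_of_superset (inter_mem ((biInter_finset_mem t).mpr fun u _ => hP u.1 u.2)
    self_mem_nhdsWithin) fun y hy => ?_
  obtain ⟨hyP, hyb, hya⟩ := hy
  obtain ⟨u, hu, hum⟩ := Set.mem_iUnion₂.mp (Set.mem_of_subset_of_mem hcov (dir_mem ha hyb hya))
  exact hPQ u.1 u.2 ⟨Set.mem_iInter₂.mp hyP u hu, hNs u.1 u.2 hum⟩

end Setting

end Vale.Agent.P256
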