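import Vale.Agent.P256.Criterion
import Mathlib.Analysis.Matrix.Order
import Mathlib.Topology.Compactness.Compact
import Mathlib.Topology.Algebra.Ring.Real

/-!
Finite sum-of-squares decompositions are local: positivity of the coefficient form near a point is
enough, and a finite cover by rectangles suffices.
-/

namespace Vale.Agent.P256

open Matrix Finset Topology Filter

variable {α β : Type*} {A A' : Set α} {B B' : Set β} {h h₁ h₂ F F₁ F₂ : α → β → ℝ}

namespace FiniteRankOn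

theorem of_fintype {κ : Type*} [Fintype κ] (f : κ → α → ℝ) (g : κ → β → ℝ)
    (hh : ∀ x ∈ A, ∀ b ∈ B, h x b = ∑ j, f j x * g j b) : FiniteRankOn A B h :=
  ⟨Fintype.card κ, fun j => f ((Fintype.equivFin κ).symm j),
    fun j => g ((Fintype.equivFin κ).symm j), fun x hx b hb => by
      rw [hh x hx b hb]
      exact Fintype.sum_equiv (Fintype.equivFin κ) _ _ (fun j => by simp)⟩

theorem congr (hh : FiniteRankOn A B h₁) (he : ∀ x ∈ A, ∀ b ∈ B, h₂ x b = h₁ x b) :
    FiniteRankOn A B h₂ := by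
  obtain ⟨r, f, g, hfg⟩ := hh
  exact ⟨r, f, g, fun x hx b hb => by rw [he x hx b hb, hfg x hx b hb]⟩

theorem mono (hh : FiniteRankOn A B h) (hA : A' ⊆ A) (hB : B' ⊆ B) : FiniteRankOn A' B' h := by
  obtain ⟨r, f, g, hfg⟩ := hh
  exact ⟨r, f, g, fun x hx b hb => hfg x (hA hx) b (hB hb)⟩

theorem prod (f : α → ℝ) (g : β → ℝ) : FiniteRankOn A B fun x b => f x * g b :=
  ⟨1, fun _ => f, fun _ => g, by simp⟩

theorem of_left (f : α → ℝ) : FiniteRankOn A B fun x _ => f x :=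
  (prod f fun _ => 1).congr (by simp)

theorem of_right (g : β → ℝ) : FiniteRankOn A B fun _ b => g b :=
  (prod (fun _ => 1) g).congr (by simp)

theorem add (h1 : FiniteRankOn A B h₁) (h2 : FiniteRankOn A B h₂) :
    FiniteRankOn A B fun x b => h₁ x b + h₂ x b := by
  obtain ⟨r, f, g, hfg⟩ := h1
  obtain ⟨r', f', g', hfg'⟩ := h2
  exact of_fintype (Sum.elim f f') (Sum.elim g g') fun x hx b hb => by
    simp [hfg x hx b hb, hfg' x hx b hb]

theorem mul (h1 : FiniteRankOn A B h₁) (h2 : FiniteRankOn A B h₂) :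
    FiniteRankOn A B fun x b => h₁ x b * h₂ x b := by
  obtain ⟨r, f, g, hfg⟩ := h1
  obtain ⟨r', f', g', hfg'⟩ := h2
  refine of_fintype (fun j : Fin r × Fin r' => fun x => f j.1 x * f' j.2 x)
    (fun j b => g j.1 b * g' j.2 b) fun x hx b hb => ?_
  simp only [hfg x hx b hb, hfg' x hx b hb, Finset.sum_mul_sum, Fintype.sum_prod_type]
  exact Finset.sum_congr rfl fun i _ => Finset.sum_congr rfl fun j _ => by ring

theorem sum {κ : Type*} [Fintype κ] {h : κ → α → β → ℝ} (hh : ∀ k, FiniteRankOn A B (h k)) :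
    FiniteRankOn A B fun x b => ∑ k, h k x b := by
  choose r f g hfg using hh
  refine of_fintype (fun j : Σ k, Fin (r k) => f j.1 j.2) (fun j => g j.1 j.2) fun x hx b hb => ?_
  rw [Fintype.sum_sigma]
  exact Finset.sum_congr rfl fun k _ => hfg k x hx b hb

end FiniteRankOn

namespace SosOn

theorem of_fintype {κ : Type*} [Fintype κ] (h : κ → α → β → ℝ)
    (hr : ∀ k, FiniteRankOn A B (h k)) (hh : ∀ x ∈ A, ∀ b ∈ B, F x b = ∑ k, h k x b ^ 2) :
    SosOn A B F :=
  ⟨Fintype.card κ, fun j => h ((Fintype.equivFin κ).symm j), fun _ => hr _, fun x hx b hb => by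
    rw [hh x hx b hb]
    exact Fintype.sum_equiv (Fintype.equivFin κ) _ _ (fun j => by simp)⟩

theorem congr (hh : SosOn A B F₁) (he : ∀ x ∈ A, ∀ b ∈ B, F₂ x b = F₁ x b) : SosOn A B F₂ := by
  obtain ⟨k, h, hr, hF⟩ := hh
  exact ⟨k, h, hr, fun x hx b hb => by rw [he x hx b hb, hF x hx b hb]⟩

theorem mono (hh : SosOn A B F) (hA : A' ⊆ A) (hB : B' ⊆ B) : SosOn A' B' F := by
  obtain ⟨k, h, hr, hF⟩ := hh
  exact ⟨k, h, fun i => (hr i).mono hA hB, fun x hx b hb => hF x (hA hx) b (hB hb)⟩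

theorem sq (hh : FiniteRankOn A B h) : SosOn A B fun x b => h x b ^ 2 :=
  ⟨1, fun _ => h, fun _ => hh, by simp⟩

theorem sum {κ : Type*} [Fintype κ] {F : κ → α → β → ℝ} (hh : ∀ k, SosOn A B (F k)) :
    SosOn A B fun x b => ∑ k, F k x b := by
  choose r h hr hF using hh
  refine of_fintype (fun j : Σ k, Fin (r k) => h j.1 j.2) (fun j => hr j.1 j.2) fun x hx b hb => ?_
  rw [Fintype.sum_sigma]
  exact Finset.sum_congr rfl fun k _ => hF k x hx b hb

theorem add (h1 : SosOn A B F₁) (h2 : SosOn A B F₂) :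
    SosOn A B fun x b => F₁ x b + F₂ x b := by
  obtain ⟨k, h, hr, hF⟩ := h1
  obtain ⟨k', h', hr', hF'⟩ := h2
  refine of_fintype (Sum.elim h h') (by rintro (j | j) <;> simp [hr, hr']) fun x hx b hb => ?_
  simp [hF x hx b hb, hF' x hx b hb]

theorem mul_sq (hh : SosOn A B F) (hg : FiniteRankOn A B h₁) :
    SosOn A B fun x b => h₁ x b ^ 2 * F x b := by
  obtain ⟨k, h, hr, hF⟩ := hh
  refine of_fintype (fun j x b => h₁ x b * h j x b) (fun j => hg.mul (hr j)) fun x hx b hb => ?_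
  simp [hF x hx b hb, Finset.mul_sum, mul_pow]

theorem mul_left (hh : SosOn A B F) {f : α → ℝ} (hf : ∀ x ∈ A, 0 ≤ f x) :
    SosOn A B fun x b => f x * F x b :=
  (hh.mul_sq (FiniteRankOn.of_left fun x => √(f x))).congr fun x hx b _ => by
    rw [Real.sq_sqrt (hf x hx)]

theorem mul_right (hh : SosOn A B F) {g : β → ℝ} (hg : ∀ b ∈ B, 0 ≤ g b) :
    SosOn A B fun x b => g b * F x b :=
  (hh.mul_sq (FiniteRankOn.of_right fun b => √(g b))).congr fun x _ b hb => by
    rw [Real.sq_sqrt (hg b hb)]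

/-- On a single point of the first variable nonnegativity is enough. -/
theorem of_subsingleton_left (hA : A.Subsingleton) (hF : ∀ x ∈ A, ∀ b ∈ B, 0 ≤ F x b) :
    SosOn A B F := by
  rcases A.eq_empty_or_nonempty with rfl | ⟨a, ha⟩
  · exact ⟨0, finZeroElim, nofun, by simp⟩
  · exact (sq (FiniteRankOn.of_right fun b => √(F a b))).congr fun x hx b hb => by
      rw [hA hx ha, Real.sq_sqrt (hF a ha b hb)]

/-- On a single point of the second variable nonnegativity is enough. -/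
theorem of_subsingleton_right (hB : B.Subsingleton) (hF : ∀ x ∈ A, ∀ b ∈ B, 0 ≤ F x b) :
    SosOn A B F := by
  rcases B.eq_empty_or_nonempty with rfl | ⟨a, ha⟩
  · exact ⟨0, finZeroElim, nofun, by simp⟩
  · exact (sq (FiniteRankOn.of_left fun x => √(F x a))).congr fun x hx b hb => by
      rw [hB hb ha, Real.sq_sqrt (hF x hx a ha)]

/-- A finite cover by rectangles glues decompositions. -/
theorem glue {κ : Type*} [Fintype κ] (R : κ → Set α) (S : κ → Set β)
    (hs : ∀ i, SosOn (A ∩ R i) (B ∩ S i) F)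
    (hc : ∀ x ∈ A, ∀ b ∈ B, ∃ i, x ∈ R i ∧ b ∈ S i) : SosOn A B F := by
  classical
  choose r h hr hF using hs
  have hne : ∀ P : Finset κ × Finset κ, ∃ i : Option κ,
      (∀ j, i = some j → j ∈ P.1 ∧ j ∈ P.2) ∧ (i = none → P.1 ∩ P.2 = ∅) := by
    intro P
    rcases (P.1 ∩ P.2).eq_empty_or_nonempty with he | ⟨j, hj⟩
    · exact ⟨none, by simp, fun _ => he⟩
    · exact ⟨some j, fun l hl => by cases hl; simpa using hj, by simp⟩
  choose c hc1 hc2 using hne
  let pa : α → Finset κ := fun x => Finset.univ.filter fun i => x ∈ R i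
  let pb : β → Finset κ := fun b => Finset.univ.filter fun i => b ∈ S i
  let ha : Finset κ → α → ℝ := fun P x => if pa x = P then 1 else 0
  let hb : Finset κ → β → ℝ := fun P b => if pb b = P then 1 else 0
  have hterm : ∀ P : Finset κ × Finset κ,
      SosOn A B fun x b => (ha P.1 x * hb P.2 b) ^ 2 * F x b := by
    intro P
    rcases hcP : c P with _ | i
    · refine SosOn.congr (F₁ := fun _ _ => 0) ⟨0, finZeroElim, nofun, by simp⟩
        fun x hx b hb' => ?_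
      by_cases hxb : pa x = P.1 ∧ pb b = P.2
      · obtain ⟨i, hi⟩ := hc x hx b hb'
        have : i ∈ P.1 ∩ P.2 := by
          rw [← hxb.1, ← hxb.2]; simp [pa, pb, hi]
        simp [hc2 P hcP] at this
      · rcases not_and_or.mp hxb with h0 | h0 <;> simp [ha, hb, h0]
    · have hfr : ∀ j, ∃ g : α → β → ℝ, FiniteRankOn A B g ∧
          ∀ x ∈ A, ∀ b ∈ B, g x b = ha P.1 x * hb P.2 b * h i j x b := by
        intro j
        obtain ⟨s, f, g, hfg⟩ := hr i j
        refine ⟨fun x b => ∑ l, (ha P.1 x * f l x) * (hb P.2 b * g l b),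
          ⟨s, fun l x => ha P.1 x * f l x, fun l b => hb P.2 b * g l b, fun x _ b _ => rfl⟩,
          fun x hx b hb' => ?_⟩
        by_cases hxb : pa x = P.1 ∧ pb b = P.2
        · have hi := hc1 P i hcP
          rw [← hxb.1, ← hxb.2] at hi
          simp only [pa, pb, Finset.mem_filter, Finset.mem_univ, true_and] at hi
          rw [hfg x ⟨hx, hi.1⟩ b ⟨hb', hi.2⟩]
          simp [ha, hb, hxb.1, hxb.2]
        · rcases not_and_or.mp hxb with h0 | h0 <;> simp [ha, hb, h0]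
      choose g hg hge using hfr
      refine of_fintype g hg fun x hx b hb' => ?_
      simp only [hge _ x hx b hb', mul_pow, ← Finset.mul_sum]
      by_cases hxb : pa x = P.1 ∧ pb b = P.2
      · have hi := hc1 P i hcP
        rw [← hxb.1, ← hxb.2] at hi
        simp only [pa, pb, Finset.mem_filter, Finset.mem_univ, true_and] at hi
        rw [hF i x ⟨hx, hi.1⟩ b ⟨hb', hi.2⟩]
      · rcases not_and_or.mp hxb with h0 | h0 <;> simp [ha, hb, h0]
  refine (sum hterm).congr fun x _ b _ => ?_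
  rw [Finset.sum_eq_single (pa x, pb b)]
  · simp [ha, hb]
  · intro P _ hP
    by_cases h1 : pa x = P.1
    · have h2 : ¬ pb b = P.2 := fun h2 => hP (Prod.ext h1.symm h2.symm)
      simp [hb, h2]
    · simp [ha, h1]
  · simp

/-- Locality: a decomposition near every point of a compact set of parameters gives a global
one. -/
theorem of_local {P Q : Type*} [TopologicalSpace P] [TopologicalSpace Q] {C : Set P} {D : Set Q}
    (hC : IsCompact C) (hD : IsCompact D) (φ : α → P) (ψ : β → Q)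
    (hφ : ∀ x ∈ A, φ x ∈ C) (hψ : ∀ b ∈ B, ψ b ∈ D)
    (hloc : ∀ p ∈ C, ∀ q ∈ D, ∃ U ∈ 𝓝 p, ∃ V ∈ 𝓝 q, SosOn (A ∩ φ ⁻¹' U) (B ∩ ψ ⁻¹' V) F) :
    SosOn A B F := by
  choose U hU V hV hs using hloc
  obtain ⟨t, hcov⟩ := (hC.prod hD).elim_nhds_subcover'
    (fun z hz => U z.1 hz.1 z.2 hz.2 ×ˢ V z.1 hz.1 z.2 hz.2)
    (fun z hz => prod_mem_nhds (hU _ _ _ _) (hV _ _ _ _))
  refine glue (κ := t) (fun z => φ ⁻¹' U z.1.1.1 z.1.2.1 z.1.1.2 z.1.2.2)
    (fun z => ψ ⁻¹' V z.1.1.1 z.1.2.1 z.1.1.2 z.1.2.2) (fun z => hs _ _ _ _) fun x hx b hb => ?_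
  obtain ⟨z, hz, hzmem⟩ :=
    Set.mem_iUnion₂.mp (Set.mem_of_subset_of_mem hcov
      (show (φ x, ψ b) ∈ C ×ˢ D from ⟨hφ x hx, hψ b hb⟩))
  exact ⟨⟨z, hz⟩, hzmem.1, hzmem.2⟩

end SosOn

/-- Quadratic forms with positive values near a compact sphere are sums of squares. -/
lemma exists_factor {ι : Type*} [Fintype ι] {M : Matrix ι ι ℝ} (h : ∀ v, 0 ≤ v ⬝ᵥ M *ᵥ v) :
    ∃ S : Matrix ι ι ℝ, ∀ v, v ⬝ᵥ M *ᵥ v = ∑ r, (∑ q, S r q * v q) ^ 2 := by
  classical
  let N : Matrix ι ι ℝ := (1 / 2 : ℝ) • (M + Mᵀ)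
  have hN : ∀ v, v ⬝ᵥ N *ᵥ v = v ⬝ᵥ M *ᵥ v := fun v => by
    simp only [N, smul_mulVec, dotProduct_smul, add_mulVec, dotProduct_add, smul_eq_mul]
    rw [show v ⬝ᵥ Mᵀ *ᵥ v = v ⬝ᵥ M *ᵥ v by
      rw [mulVec_transpose, dotProduct_comm, ← dotProduct_mulVec]]
    ring
  have hpsd : N.PosSemidef := by
    refine PosSemidef.of_dotProduct_mulVec_nonneg ?_ fun v => by
      rw [star_trivial, hN]; exact h v
    simp [N, IsHermitian, conjTranspose_eq_transpose_of_trivial, add_comm]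
  open scoped MatrixOrder in
  obtain ⟨S, hS⟩ := CStarAlgebra.nonneg_iff_eq_star_mul_self.mp hpsd.nonneg
  refine ⟨S, fun v => ?_⟩
  rw [← hN v, hS, star_eq_conjTranspose, conjTranspose_eq_transpose_of_trivial,
    ← mulVec_mulVec, dotProduct_mulVec, vecMul_transpose]
  simp [dotProduct, mulVec, sq]

/-- Positivity of a quadratic form persists nearby. -/
lemma eventually_form_nonneg {P ι : Type*} [TopologicalSpace P] [Fintype ι]
    {M : P → Matrix ι ι ℝ} {p0 : P} (hM : ∀ i j, ContinuousAt (fun p => M p i j) p0)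
    (h : ∀ v, v ≠ 0 → 0 < v ⬝ᵥ M p0 *ᵥ v) : ∀ᶠ p in 𝓝 p0, ∀ v, 0 ≤ v ⬝ᵥ M p *ᵥ v := by
  have hK : IsCompact (Metric.sphere (0 : ι → ℝ) 1) := isCompact_sphere _ _
  have he : ∀ᶠ p in 𝓝 p0, ∀ v ∈ Metric.sphere (0 : ι → ℝ) 1, 0 < v ⬝ᵥ M p *ᵥ v := by
    refine hK.eventually_forall_of_forall_eventually fun v hv => ?_
    have hc : ContinuousAt (fun z : P × (ι → ℝ) => z.2 ⬝ᵥ M z.1 *ᵥ z.2) (p0, v) := by
      simp only [dotProduct, mulVec]
      refine tendsto_finsetSum _ fun i _ => Filter.Tendsto.mul ?_ (tendsto_finsetSum _ fun j _ =>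
        Filter.Tendsto.mul ?_ ?_)
      · exact ((continuous_apply i).comp continuous_snd).continuousAt
      · exact ContinuousAt.comp (g := fun p => M p i j) (hM i j) continuousAt_fst
      · exact ((continuous_apply j).comp continuous_snd).continuousAt
    refine hc.eventually (eventually_gt_nhds (h v ?_))
    intro h0; simp [h0] at hv
  refine he.mono fun p hp v => ?_
  rcases eq_or_ne v 0 with rfl | hv
  · simp
  have hpos : 0 < ‖v‖ := norm_pos_iff.mpr hv
  have := hp (‖v‖⁻¹ • v) (by simp [norm_smul, hpos.ne'])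
  rw [mulVec_smul, smul_dotProduct, dotProduct_smul, smul_eq_mul, smul_eq_mul] at this
  exact (pos_of_mul_pos_right (pos_of_mul_pos_right this (by positivity)) (by positivity)).le

/-- A form whose finite-rank coefficient matrix is positive definite at a point is, near that
point, a sum of squares of finite-rank functions. -/
theorem sosOn_near_of_posDef {P Q ι κ : Type*} [TopologicalSpace P] [TopologicalSpace Q]
    [Fintype ι] [Fintype κ] (φ : α → P) (ψ : β → Q) {p0 : P} {q0 : Q}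
    (f : κ → ι → ι → P → ℝ) (g : κ → ι → ι → Q → ℝ)
    (hf : ∀ k i j, ContinuousAt (f k i j) p0) (hg : ∀ k i j, ContinuousAt (g k i j) q0)
    (w : ι → α → β → ℝ) (hw : ∀ i, FiniteRankOn A B (w i))
    (hpos : ∀ v, v ≠ 0 → 0 < v ⬝ᵥ (Matrix.of fun i j => ∑ k, f k i j p0 * g k i j q0) *ᵥ v) :
    ∃ U ∈ 𝓝 p0, ∃ V ∈ 𝓝 q0, SosOn (A ∩ φ ⁻¹' U) (B ∩ ψ ⁻¹' V) fun x b =>
      ∑ i, ∑ j, (∑ k, f k i j (φ x) * g k i j (ψ b)) * w i x b * w j x b := by
  classical
  let M0 : Matrix ι ι ℝ := Matrix.of fun i j => ∑ k, f k i j p0 * g k i j q0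
  let MA : P → Matrix ι ι ℝ := fun p => Matrix.of fun i j =>
    M0 i j / 2 + ∑ k, (f k i j p - f k i j p0) * g k i j q0
      - if i = j then (∑ k, ∑ l, (f k i l p - f k i l p0) ^ 2) / 2 else 0
  let MB : Q → Matrix ι ι ℝ := fun q => Matrix.of fun i j =>
    M0 i j / 2 + ∑ k, f k i j p0 * (g k i j q - g k i j q0)
      - if i = j then (∑ k, ∑ l, (g k l i q - g k l i q0) ^ 2) / 2 else 0
  have hhalf : ∀ v, v ≠ 0 → 0 < v ⬝ᵥ ((1 / 2 : ℝ) • M0) *ᵥ v := fun v hv => by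
    rw [smul_mulVec, dotProduct_smul, smul_eq_mul]; exact mul_pos one_half_pos (hpos v hv)
  have hA0 : MA p0 = (1 / 2 : ℝ) • M0 := by ext i j; simp [MA]; ring
  have hB0 : MB q0 = (1 / 2 : ℝ) • M0 := by ext i j; simp [MB]; ring
  have eA := eventually_form_nonneg (M := MA) (p0 := p0)
    (fun i j => by simp only [MA, of_apply]; split_ifs <;> fun_prop) (by rw [hA0]; exact hhalf)
  have eB := eventually_form_nonneg (M := MB) (p0 := q0)
    (fun i j => by simp only [MB, of_apply]; split_ifs <;> fun_prop) (by rw [hB0]; exact hhalf)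
  choose SA hSA using fun p : {p // ∀ v, 0 ≤ v ⬝ᵥ MA p *ᵥ v} => exists_factor p.2
  choose SB hSB using fun q : {q // ∀ v, 0 ≤ v ⬝ᵥ MB q *ᵥ v} => exists_factor q.2
  refine ⟨_, eA, _, eB, ?_⟩
  set A' := A ∩ φ ⁻¹' {p | ∀ v, 0 ≤ v ⬝ᵥ MA p *ᵥ v}
  set B' := B ∩ ψ ⁻¹' {q | ∀ v, 0 ≤ v ⬝ᵥ MB q *ᵥ v}
  let sa : ι → ι → α → ℝ := fun r i x =>
    if hx : ∀ v, 0 ≤ v ⬝ᵥ MA (φ x) *ᵥ v then SA ⟨φ x, hx⟩ r i else 0
  let sb : ι → ι → β → ℝ := fun r i b =>
    if hb : ∀ v, 0 ≤ v ⬝ᵥ MB (ψ b) *ᵥ v then SB ⟨ψ b, hb⟩ r i else 0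
  have hw' : ∀ i, FiniteRankOn A' B' (w i) := fun i =>
    (hw i).mono Set.inter_subset_left Set.inter_subset_left
  have s1 : SosOn A' B' fun x b => ∑ r, (∑ i, sa r i x * w i x b) ^ 2 :=
    SosOn.sum fun r => SosOn.sq (FiniteRankOn.sum fun i => (FiniteRankOn.of_left _).mul (hw' i))
  have s2 : SosOn A' B' fun x b => ∑ r, (∑ i, sb r i b * w i x b) ^ 2 :=
    SosOn.sum fun r => SosOn.sq (FiniteRankOn.sum fun i => (FiniteRankOn.of_right _).mul (hw' i))
  have s3 : SosOn A' B' fun x b => ∑ i, ∑ j, ∑ k, 1 / 2 *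
      ((f k i j (φ x) - f k i j p0) * w i x b + (g k i j (ψ b) - g k i j q0) * w j x b) ^ 2 :=
    SosOn.sum fun i => SosOn.sum fun j => SosOn.sum fun k =>
      (SosOn.sq (((FiniteRankOn.of_left fun x => f k i j (φ x) - f k i j p0).mul (hw' i)).add
        ((FiniteRankOn.of_right fun b => g k i j (ψ b) - g k i j q0).mul (hw' j)))).mul_left
          (f := fun _ => 1 / 2) (fun _ _ => by norm_num)
  refine ((s1.add s2).add s3).congr fun x hx b hb => ?_
  have hx' : ∀ v, 0 ≤ v ⬝ᵥ MA (φ x) *ᵥ v := hx.2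
  have hb' : ∀ v, 0 ≤ v ⬝ᵥ MB (ψ b) *ᵥ v := hb.2
  simp only [sa, sb, dif_pos hx', dif_pos hb', ← hSA ⟨φ x, hx'⟩ (fun i => w i x b),
    ← hSB ⟨ψ b, hb'⟩ (fun i => w i x b)]
  set W := fun i => w i x b
  have quad : ∀ M : Matrix ι ι ℝ, W ⬝ᵥ M *ᵥ W = ∑ i, ∑ j, M i j * W i * W j := fun M => by
    simp only [dotProduct, mulVec, Finset.mul_sum]
    exact Finset.sum_congr rfl fun i _ => Finset.sum_congr rfl fun j _ => by ring
  have hA2 : W ⬝ᵥ MA (φ x) *ᵥ W = ∑ i, ∑ j,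
      ((M0 i j / 2 + ∑ k, (f k i j (φ x) - f k i j p0) * g k i j q0) * W i * W j
        - (∑ k, (f k i j (φ x) - f k i j p0) ^ 2) / 2 * W i * W i) := by
    rw [quad]
    simp only [MA, of_apply, sub_mul, ite_mul, zero_mul, Finset.sum_sub_distrib,
      Finset.sum_ite_eq, Finset.mem_univ, if_true]
    congr 1
    refine Finset.sum_congr rfl fun i _ => ?_
    rw [Finset.sum_comm, Finset.sum_div, Finset.sum_mul, Finset.sum_mul]
  have hB2 : W ⬝ᵥ MB (ψ b) *ᵥ W = ∑ i, ∑ j,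
      ((M0 i j / 2 + ∑ k, f k i j p0 * (g k i j (ψ b) - g k i j q0)) * W i * W j
        - (∑ k, (g k i j (ψ b) - g k i j q0) ^ 2) / 2 * W j * W j) := by
    rw [quad]
    simp only [MB, of_apply, sub_mul, ite_mul, zero_mul, Finset.sum_sub_distrib,
      Finset.sum_ite_eq, Finset.mem_univ, if_true]
    congr 1
    rw [Finset.sum_comm (f := fun i j => (∑ k, (g k i j (ψ b) - g k i j q0) ^ 2) / 2 * W j * W j)]
    refine Finset.sum_congr rfl fun i _ => ?_
    rw [Finset.sum_comm, Finset.sum_div, Finset.sum_mul, Finset.sum_mul]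
  rw [hA2, hB2, ← Finset.sum_add_distrib, ← Finset.sum_add_distrib]
  refine Finset.sum_congr rfl fun i _ => ?_
  rw [← Finset.sum_add_distrib, ← Finset.sum_add_distrib]
  refine Finset.sum_congr rfl fun j _ => ?_
  simp only [M0, of_apply, Finset.sum_div, Finset.sum_mul, add_mul, ← Finset.sum_add_distrib,
    ← Finset.sum_sub_distrib]
  exact Finset.sum_congr rfl fun k _ => by ring

end Vale.Agent.P256
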