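import Vale.Agent.P256.Defs
import Vale.Agent.P256.Sep
import Vale.Agent.P256.Localize

/-!
The semidefinite lift given by a finite factorisation of the slack kernel, and its locality.
-/

namespace Vale.Agent.P256

open Filter Topology Matrix

variable {α β : Type}

/-- A factorisation with positive semidefinite matrices is a sum of squares of finite-rank
functions. -/
theorem SOSKer.sosOn {U : Set α} {V : Set β} {S : α → β → ℝ} (h : SOSKer U V S) :
    SosOn U V S := by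
  classical
  obtain ⟨J, _, f, G, hG, hs⟩ := h
  choose T hT using fun y : {y // y ∈ V} =>
    exists_factor (M := G y.1) fun v => by simpa using (hG y.1 y.2).dotProduct_mulVec_nonneg v
  let t : J → J → β → ℝ := fun r q y => if hy : y ∈ V then T ⟨y, hy⟩ r q else 0
  refine SosOn.of_fintype (fun r x y => ∑ q, t r q y * f x q) (fun r => FiniteRankOn.sum fun q =>
    (FiniteRankOn.of_right (t r q)).mul (FiniteRankOn.of_left fun x => f x q)) fun x hx y hy => ?_
  simp only [t, dif_pos hy, ← hT ⟨y, hy⟩ (f x), hs x hx y hy, dotProduct, mulVec, Finset.mul_sum]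
  exact Finset.sum_congr rfl fun i _ => Finset.sum_congr rfl fun j _ => by ring

/-- A cone whose slack on a generating set and a complete family of nonnegative functionals
factorises is a spectrahedral shadow. -/
theorem isShadow_of_kernel {n : ℕ} (K X : Set (Fin n → ℝ)) (Y : Set β) (b : β → Fin n → ℝ)
    (h : SOSKer X Y (fun x y => ∑ i, x i * b y i))
    (hsound : ∀ x, (∀ y ∈ Y, 0 ≤ ∑ i, x i * b y i) → x ∈ K)
    (hgen : ∀ x ∈ K, ∃ (k : ℕ) (c : Fin k → ℝ) (xs : Fin k → Fin n → ℝ),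
      (∀ i, 0 ≤ c i) ∧ (∀ i, xs i ∈ X) ∧ x = ∑ i, c i • xs i)
    (hKY : ∀ x ∈ K, ∀ y ∈ Y, 0 ≤ ∑ i, x i * b y i) : IsSpectrahedralShadow K :=
  isShadow_of_sosOn b (fun x => ⟨fun hx y hy => hKY x hx y hy, fun hx => hsound x hx⟩) hgen
    h.sosOn

/-- Factorisations are local on compact rectangles. -/
theorem SOSKer.of_compact [TopologicalSpace α] [TopologicalSpace β] {C : Set α} {D Y : Set β}
    {S : α → β → ℝ} (hC : IsCompact C) (hD : IsCompact D)
    (hloc : ∀ a ∈ C, ∀ a2 ∈ D, ∃ U ∈ 𝓝[C] a, ∃ V ∈ 𝓝[D] a2, SOSKer U (V ∩ Y) S) :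
    SOSKer C (Y ∩ D) S := by
  choose U hU V hV hs using hloc
  choose U' hU' hUsub using fun a ha a2 ha2 => mem_nhdsWithin_iff_exists_mem_nhds_inter.mp
    (hU a ha a2 ha2)
  choose V' hV' hVsub using fun a ha a2 ha2 => mem_nhdsWithin_iff_exists_mem_nhds_inter.mp
    (hV a ha a2 ha2)
  obtain ⟨t, hcov⟩ := (hC.prod hD).elim_nhds_subcover'
    (fun z hz => U' z.1 hz.1 z.2 hz.2 ×ˢ V' z.1 hz.1 z.2 hz.2)
    (fun z hz => prod_mem_nhds (hU' _ _ _ _) (hV' _ _ _ _))
  refine SOSKer.glue (ι := ↥(C ×ˢ D)) t (fun z => U' z.1.1 z.2.1 z.1.2 z.2.2)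
    (fun z => V' z.1.1 z.2.1 z.1.2 z.2.2) (fun z _ => ?_) fun x hx y hy => ?_
  · refine (hs z.1.1 z.2.1 z.1.2 z.2.2).mono (fun x hx => hUsub _ _ _ _ hx) fun y hy => ?_
    exact ⟨hVsub _ _ _ _ ⟨hy.1, hy.2.2⟩, hy.2.1⟩
  · obtain ⟨z, hz, hzmem⟩ := Set.mem_iUnion₂.mp
      (Set.mem_of_subset_of_mem hcov (show (x, y) ∈ C ×ˢ D from ⟨hx, hy.2⟩))
    exact ⟨z, hz, hzmem.1, hzmem.2⟩

end Vale.Agent.P256
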