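import Vale.Agent.P256.Slice
import Vale.Agent.P256.Shadow

/-!
From local factorisations of the slack kernel to a spectrahedral shadow.
-/

namespace Vale.Agent.P256

open MvPolynomial Filter Topology

variable {n : ℕ}

namespace Setting

variable {p : MvPolynomial (Fin n) ℝ} {e : Fin n → ℝ} {d : ℕ}

theorem e_ne_zero (S : Setting p e d) (hn : 3 ≤ n) : e ≠ 0 := by
  intro he
  have hne : ∀ x : Fin n → ℝ, MvPolynomial.eval (-x) p ≠ 0 := fun x h0 => by
    have := S.base.hyp.2 x Complex.I ?_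
    · simp at this
    · have e1 : (fun i => Complex.I * (e i : ℂ) - (x i : ℂ)) = cvec (-x) := by
        funext i; simp [he, cvec]
      rw [MvPolynomial.aeval_def, ← MvPolynomial.eval_map, e1]
      have := cev_cvec p (-x)
      rw [h0, Complex.ofReal_zero] at this
      exact this
  have hall : ∀ x : Fin n → ℝ, x ∈ hypCone p e := fun x t ht => by
    simp [he, hne x] at ht
  have := S.pointed (Pi.single ⟨0, by omega⟩ 1) (hall _) (hall _)
  simpa using congrFun this ⟨0, by omega⟩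

theorem phi_e_pos (S : Setting p e d) (hn : 3 ≤ n) : 0 < dd p e e :=
  S.phi_pos (S.base.int_subset S.base.e_mem) (S.e_ne_zero hn)

theorem dd_e_pos_of_smooth (S : Setting p e d) {a : Fin n → ℝ} (ha : a ∈ bd p e)
    (hg : grad p a ≠ 0) : 0 < dd p a e := by
  obtain ⟨w, hw⟩ := exists_dd_ne hg
  exact S.base.conePair.dd_pos ha.1 ha.2.1 hw

/-- the ray point of a boundary point of the cone. -/
theorem normalise (S : Setting p e d) {u : Fin n → ℝ} (hu : u ∈ hypCone p e)
    (h0 : MvPolynomial.eval u p = 0) (hpos : 0 < dd p e u) : (dd p e u)⁻¹ • u ∈ bd p e :=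
  ⟨S.base.smul_cone (inv_nonneg.mpr hpos.le) hu, by rw [S.base.eval_smul, h0, mul_zero],
    by rw [dd_smul, inv_mul_cancel₀ hpos.ne']⟩

/-- near any boundary point there are other boundary points. -/
theorem exists_bd_near (S : Setting p e d) (hn : 3 ≤ n) {a : Fin n → ℝ} (ha : a ∈ bd p e)
    {W : Set (Fin n → ℝ)} (hW : W ∈ 𝓝 a) : ∃ y ∈ bd p e, y ≠ a ∧ y ∈ W := by
  set c := dd p e e with hc
  have hcpos : 0 < c := S.phi_e_pos hn
  obtain ⟨v, hv, hvw⟩ : ∃ v : Fin n → ℝ, dd p e v = 0 ∧ ∀ t : ℝ, v ≠ t • (c • a - e) := by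
    by_contra hcon
    push Not at hcon
    have htop : Submodule.span ℝ (Set.range ![a, c • a - e]) = ⊤ := by
      refine eq_top_iff.mpr fun v _ => ?_
      obtain ⟨t, ht⟩ := hcon (v - dd p e v • a) (by rw [dd_sub, dd_smul, ha.2.2]; ring)
      rw [show v = dd p e v • a + t • (c • a - e) by rw [← ht]; abel]
      exact add_mem (Submodule.smul_mem _ _ (Submodule.subset_span ⟨0, rfl⟩))
        (Submodule.smul_mem _ _ (Submodule.subset_span ⟨1, rfl⟩))
    have h2 := finrank_range_le_card (R := ℝ) ![a, c • a - e]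
    rw [Set.finrank, htop, finrank_top, Module.finrank_fin_fun, Fintype.card_fin] at h2
    omega
  have hg : ContinuousAt
      (fun q : ℝ × ℝ => (1 + q.2 * c)⁻¹ • (a + q.1 • v + q.2 • e)) ((0 : ℝ), (0 : ℝ)) := by
    refine ((continuous_const.add (continuous_snd.mul continuous_const)).continuousAt.inv₀
      (by simp)).smul (Continuous.continuousAt ?_)
    fun_prop
  obtain ⟨δ, hδ, hball⟩ := Metric.eventually_nhds_iff.mp (hg.eventually_mem
    (show W ∈ 𝓝 _ by simpa using hW))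
  set η := min (δ / 2) (1 / (2 * c))
  have hη : 0 < η := lt_min (by linarith) (by positivity)
  have hout : a + (-η) • e ∉ hypCone p e := fun h => by
    have := S.base.cone_add_int h (S.base.smul_int hη S.base.e_mem)
    rw [add_assoc, ← add_smul, neg_add_cancel, zero_smul, add_zero] at this
    exact (S.base.pos this).ne' ha.2.1
  have hin : a + η • e ∈ intCone p e := S.base.cone_add_int ha.1 (S.base.smul_int hη S.base.e_mem)
  have hc1 : Continuous fun ε : ℝ => a + ε • v + (-η) • e := by fun_prop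
  have hc2 : Continuous fun ε : ℝ => a + ε • v + η • e := by fun_prop
  have e1 : ∀ᶠ ε in 𝓝 (0 : ℝ), a + ε • v + (-η) • e ∉ hypCone p e :=
    (hc1.tendsto 0).eventually (S.base.isClosed_hypCone.isOpen_compl.mem_nhds (by simpa using hout))
  have e2 : ∀ᶠ ε in 𝓝 (0 : ℝ), a + ε • v + η • e ∈ intCone p e :=
    (hc2.tendsto 0).eventually (S.base.isOpen_intCone.mem_nhds (by simpa using hin))
  obtain ⟨ε, ⟨⟨ho, hi⟩, hεlt⟩, hε0⟩ :=
    ((((e1.and e2).and (eventually_lt_nhds (show (0 : ℝ) < δ / 2 by linarith))).filter_mono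
      nhdsWithin_le_nhds).and (self_mem_nhdsWithin (a := (0 : ℝ)) (s := Set.Ioi 0))).exists
  have hε : (0 : ℝ) < ε := hε0
  obtain ⟨σ, hσ1, hu, hu0, hmin⟩ := S.exit_point ho
  have hσ2 : σ ≤ η := hmin η (S.base.int_subset hi)
  have hφ : dd p e (a + ε • v + σ • e) = 1 + σ * c := by
    rw [dd_add, dd_add, dd_smul, dd_smul, ha.2.2, hv, mul_zero, add_zero]
  have hσc : 0 < 1 + σ * c := by
    have hle : η * c ≤ 1 / 2 := by
      calc η * c ≤ 1 / (2 * c) * c := mul_le_mul_of_nonneg_right (min_le_right _ _) hcpos.le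
        _ = 1 / 2 := by field_simp
    nlinarith [mul_lt_mul_of_pos_right hσ1 hcpos]
  have hy := S.normalise hu hu0 (hφ ▸ hσc)
  rw [hφ] at hy
  refine ⟨_, hy, fun h => ?_, hball (y := (ε, σ)) ?_⟩
  · rw [inv_smul_eq_iff₀ hσc.ne'] at h
    refine hvw (σ / ε) ?_
    funext i
    have := congrFun h i
    simp only [Pi.add_apply, Pi.smul_apply, smul_eq_mul, Pi.sub_apply] at this ⊢
    field_simp
    linarith
  · have h1 : η ≤ δ / 2 := min_le_left _ _
    rw [Prod.dist_eq]
    simp only [dist_zero_right, Real.norm_eq_abs, max_lt_iff, abs_lt]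
    refine ⟨⟨?_, ?_⟩, ?_, ?_⟩ <;> linarith

theorem sosOn_slack (S : Setting p e d)
    (hloc : ∀ a' ∈ bd p e, ∀ a ∈ bd p e, ∃ U ∈ 𝓝[bd p e] a', ∃ V ∈ 𝓝[bd p e] a,
      SOSKer U (V ∩ {y | grad p y ≠ 0}) fun x y => ∑ i, x i * grad p y i) :
    SosOn (insert ((dd p e e)⁻¹ • e) (bd p e)) (insert e {y | y ∈ bd p e ∧ grad p y ≠ 0})
      fun x y => dd p y x := by
  have hc : 0 ≤ (dd p e e)⁻¹ := inv_nonneg.mpr (S.phi_nonneg (S.base.int_subset S.base.e_mem))
  have hehat : (dd p e e)⁻¹ • e ∈ hypCone p e :=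
    S.base.smul_cone hc (S.base.int_subset S.base.e_mem)
  have hX : insert ((dd p e e)⁻¹ • e) (bd p e) ⊆ hypCone p e :=
    Set.insert_subset hehat fun x hx => hx.1
  have hnn : ∀ x ∈ hypCone p e, ∀ y ∈ insert e {y | y ∈ bd p e ∧ grad p y ≠ 0},
      0 ≤ dd p y x := by
    intro x hx y hy
    rcases hy with rfl | ⟨hy, -⟩
    · exact S.phi_nonneg hx
    · exact S.base.conePair.dd_nonneg hy.1 hy.2.1 hx
  refine SosOn.glue (κ := Fin 3) ![{(dd p e e)⁻¹ • e}, Set.univ, bd p e]
    ![Set.univ, {e}, {y | y ∈ bd p e ∧ grad p y ≠ 0}] (fun i => ?_) fun x hx y hy => ?_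
  · fin_cases i
    · exact SosOn.of_subsingleton_left (Set.subsingleton_singleton.anti Set.inter_subset_right)
        fun x hx y hy => hnn x (hX hx.1) y hy.1
    · exact SosOn.of_subsingleton_right (Set.subsingleton_singleton.anti Set.inter_subset_right)
        fun x hx y hy => hnn x (hX hx.1) y hy.1
    · exact (SOSKer.of_compact S.isCompact_bd S.isCompact_bd hloc).sosOn.mono
        Set.inter_subset_right fun y hy => ⟨hy.2.2, hy.2.1⟩
  · rcases hx with rfl | hx
    · exact ⟨0, rfl, trivial⟩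
    rcases hy with rfl | hy
    · exact ⟨1, trivial, rfl⟩
    · exact ⟨2, hx, hy⟩

theorem mem_of_slack_nonneg (S : Setting p e d) (hn : 3 ≤ n)
    (hiso : ∀ a ∈ bd p e, grad p a = 0 →
      ∀ᶠ y in 𝓝[bd p e \ {a}] a, grad p y ≠ 0)
    {x : Fin n → ℝ} (hx : ∀ y ∈ insert e {y | y ∈ bd p e ∧ grad p y ≠ 0}, 0 ≤ dd p y x) :
    x ∈ hypCone p e := by
  by_contra hxK
  obtain ⟨σ, hσ, hu, hu0, -⟩ := S.exit_point (x := x) (l := 0) (by simpa using hxK)
  have hc := S.phi_e_pos hn
  have hφ : 0 < dd p e (x + σ • e) := by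
    have h1 : 0 ≤ dd p e x := hx e (Set.mem_insert _ _)
    rw [dd_add, dd_smul]
    linarith [mul_pos hσ hc]
  set r := dd p e (x + σ • e)
  have ha := S.normalise hu hu0 hφ
  set a := r⁻¹ • (x + σ • e)
  have hxa : x = r • a - σ • e := by
    rw [smul_smul, mul_inv_cancel₀ hφ.ne', one_smul]; abel
  have hslack : ∀ y ∈ bd p e, grad p y ≠ 0 → σ * dd p y e ≤ r * dd p y (a - y) := by
    intro y hy hg
    have h := hx y (Set.mem_insert_of_mem _ ⟨hy, hg⟩)
    rw [hxa, dd_sub, dd_smul p y a r, dd_smul p y e σ] at h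
    rw [dd_sub, euler S.base.hom, hy.2.1]
    linarith
  by_cases hg : grad p a = 0
  · set k := 2 * r / σ
    have hcont : Continuous fun y : Fin n → ℝ => e - k • (a - y) := by fun_prop
    have hW : {y | e - k • (a - y) ∈ intCone p e} ∈ 𝓝 a :=
      (hcont.tendsto a).eventually (S.base.isOpen_intCone.mem_nhds (by simpa using S.base.e_mem))
    obtain ⟨N, hN, hNsub⟩ := mem_nhdsWithin_iff_exists_mem_nhds_inter.mp (hiso a ha hg)
    obtain ⟨y, hy, hya, hy1, hy2⟩ := S.exists_bd_near hn ha (Filter.inter_mem hW hN)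
    have hgy : grad p y ≠ 0 := hNsub ⟨hy2, hy, hya⟩
    have h1 := S.base.conePair.dd_nonneg hy.1 hy.2.1 (S.base.int_subset hy1)
    rw [dd_sub, dd_smul] at h1
    have h2 := hslack y hy hgy
    have h3 := S.dd_e_pos_of_smooth hy hgy
    have hk : k * σ = 2 * r := by rw [div_mul_cancel₀ _ hσ.ne']
    nlinarith [mul_le_mul_of_nonneg_left h1 hσ.le, mul_pos hσ h3, mul_pos hφ hσ]
  · have h := hslack a ha hg
    rw [sub_self] at h
    have h0 : dd p a 0 = 0 := by simp [dd]
    rw [h0, mul_zero] at h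
    nlinarith [mul_pos hσ (S.dd_e_pos_of_smooth ha hg)]

theorem generated (S : Setting p e d) (hn : 3 ≤ n) {x : Fin n → ℝ} (hx : x ∈ hypCone p e) :
    ∃ (k : ℕ) (c : Fin k → ℝ) (xs : Fin k → Fin n → ℝ), (∀ i, 0 ≤ c i) ∧
      (∀ i, xs i ∈ insert ((dd p e e)⁻¹ • e) (bd p e)) ∧ x = ∑ i, c i • xs i := by
  have hc := S.phi_e_pos hn
  set c := dd p e e
  set l := -(dd p e x) / c - 1
  have hl : x + l • e ∉ hypCone p e := fun h => by
    have := S.phi_nonneg h
    rw [dd_add, dd_smul, sub_mul, div_mul_cancel₀ _ hc.ne'] at this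
    linarith
  obtain ⟨σ, -, hu, hu0, hmin⟩ := S.exit_point hl
  have hσ : σ ≤ 0 := hmin 0 (by simpa using hx)
  set u := x + σ • e
  have hxu : x = u + (-σ * c) • (c⁻¹ • e) := by
    rw [smul_smul, mul_assoc, mul_inv_cancel₀ hc.ne', mul_one]; simp only [u]; module
  rcases (S.phi_nonneg hu).eq_or_lt with h0 | hpos
  · have hu00 : u = 0 := by
      by_contra h
      exact (S.phi_pos hu h).ne h0
    exact ⟨1, ![-σ * c], ![c⁻¹ • e], by simp [mul_nonpos_iff, hσ, hc.le],
      by simp, by rw [Fin.sum_univ_one]; simpa [hu00] using hxu⟩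
  · refine ⟨2, ![dd p e u, -σ * c], ![(dd p e u)⁻¹ • u, c⁻¹ • e], ?_, ?_, ?_⟩
    · intro i; fin_cases i
      · exact hpos.le
      · exact mul_nonneg (by linarith) hc.le
    · intro i; fin_cases i
      · exact Set.mem_insert_of_mem _ (S.normalise hu hu0 hpos)
      · exact Set.mem_insert _ _
    · rw [Fin.sum_univ_two]
      simp only [Matrix.cons_val_zero, Matrix.cons_val_one]
      rw [smul_smul, mul_inv_cancel₀ hpos.ne', one_smul]
      exact hxu

/-- local factorisations of the slack and isolation of the singular boundary rays give a lift. -/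
theorem isShadow (S : Setting p e d) (hn : 3 ≤ n)
    (hloc : ∀ a' ∈ bd p e, ∀ a ∈ bd p e, ∃ U ∈ 𝓝[bd p e] a', ∃ V ∈ 𝓝[bd p e] a,
      SOSKer U (V ∩ {y | grad p y ≠ 0}) fun x y => ∑ i, x i * grad p y i)
    (hiso : ∀ a ∈ bd p e, grad p a = 0 → ∀ᶠ y in 𝓝[bd p e \ {a}] a, grad p y ≠ 0) :
    IsSpectrahedralShadow (hypCone p e) := by
  refine isShadow_of_sosOn (grad p) (fun x => ?_) (fun x hx => S.generated hn hx)
    ((S.sosOn_slack hloc).congr fun x _ y _ => (dd_eq_sum p y x).symm)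
  constructor
  · intro hx y hy
    have : 0 ≤ dd p y x := by
      rcases hy with rfl | ⟨hy, -⟩
      · exact S.phi_nonneg hx
      · exact S.base.conePair.dd_nonneg hy.1 hy.2.1 hx
    exact this
  · exact fun h => S.mem_of_slack_nonneg hn hiso h

end Setting

end Vale.Agent.P256
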