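import Mathlib.Algebra.Polynomial.Splits
import Mathlib.Analysis.SpecialFunctions.Pow.Real
import Mathlib.Topology.Algebra.Polynomial
import Mathlib.Tactic.Linarith
import Mathlib.Tactic.Ring
import Mathlib.Tactic.FieldSimp

/-!
A real-rooted polynomial stays comparable to its constant term as long as its first two
coefficients are.
-/

namespace Vale.Agent.P256

open Polynomial Filter Topology

/-- The polynomial with prescribed reciprocal roots and constant term one. -/
noncomputable def recipProd (σ : Multiset ℝ) : ℝ[X] := (σ.map fun s => 1 - C s * X).prod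

lemma recipProd_coeff : ∀ σ : Multiset ℝ, (recipProd σ).coeff 0 = 1 ∧
    (recipProd σ).coeff 1 ^ 2 - 2 * (recipProd σ).coeff 2 = (σ.map fun s => s ^ 2).sum := by
  intro σ
  induction σ using Multiset.induction_on with
  | empty => simp [recipProd, coeff_one]
  | cons a σ ih =>
    obtain ⟨h0, h2⟩ := ih
    have e : recipProd (a ::ₘ σ) = (1 - C a * X) * recipProd σ := by simp [recipProd]
    have c1 : ∀ n, ((1 - C a * X) * recipProd σ).coeff (n + 1)
        = (recipProd σ).coeff (n + 1) - a * (recipProd σ).coeff n := by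
      intro n
      rw [sub_mul, one_mul, mul_assoc, coeff_sub, coeff_C_mul, coeff_X_mul]
    have z : ((1 - C a * X) * recipProd σ).coeff 0 = 1 := by
      rw [mul_coeff_zero, h0]; simp
    refine ⟨by rw [e]; exact z, ?_⟩
    rw [e, c1 1, c1 0, h0, Multiset.map_cons, Multiset.sum_cons, ← h2]
    ring

lemma abs_eval_recipProd_le (s M : ℝ) : ∀ σ : Multiset ℝ, (∀ a ∈ σ, |a| ≤ M) →
    |(recipProd σ).eval s| ≤ (1 + |s| * M) ^ σ.card := by
  intro σ
  induction σ using Multiset.induction_on with
  | empty => intro _; simp [recipProd]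
  | cons a σ ih =>
    intro h
    have e : recipProd (a ::ₘ σ) = (1 - C a * X) * recipProd σ := by simp [recipProd]
    rw [e, eval_mul, abs_mul, Multiset.card_cons, pow_succ']
    have ha := h a (Multiset.mem_cons_self a σ)
    have h1 : |(1 - C a * X).eval s| ≤ 1 + |s| * M := by
      simp only [eval_sub, eval_one, eval_mul, eval_C, eval_X]
      refine le_trans (abs_sub _ _) ?_
      rw [abs_one, abs_mul, mul_comm |a| |s|]
      exact add_le_add le_rfl (mul_le_mul_of_nonneg_left ha (abs_nonneg s))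
    exact mul_le_mul h1 (ih fun b hb => h b (Multiset.mem_cons_of_mem hb)) (abs_nonneg _)
      (le_trans (abs_nonneg _) h1)

/-- A split polynomial with nonzero constant term is that term times a reciprocal product. -/
lemma eq_recipProd {r : ℝ[X]} (hr : r.Splits) (h0 : r.coeff 0 ≠ 0) :
    ∃ σ : Multiset ℝ, σ.card ≤ r.natDegree ∧ r = C (r.coeff 0) * recipProd σ := by
  have e := hr.eq_prod_roots
  refine ⟨r.roots.map fun x => x⁻¹, by rw [Multiset.card_map]; exact card_roots' r, ?_⟩
  have key : ∀ m : Multiset ℝ, (0 : ℝ) ∉ m → (m.map fun x => X - C x).prod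
      = C ((m.map fun x => -x).prod) * recipProd (m.map fun x => x⁻¹) := by
    intro m
    induction m using Multiset.induction_on with
    | empty => intro _; simp [recipProd]
    | cons a m ih =>
      intro hm
      rw [Multiset.mem_cons, not_or] at hm
      obtain ⟨ha, hm⟩ := hm
      have ha : a ≠ 0 := fun h => ha h.symm
      simp only [recipProd, Multiset.map_cons, Multiset.prod_cons, C_mul] at ih ⊢
      rw [ih hm]
      have : X - C a = C (-a) * (1 - C a⁻¹ * X) := by
        rw [mul_sub, mul_one, ← mul_assoc, ← C_mul]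
        simp [ha]; ring
      rw [this]
      ring
  have hz : (0 : ℝ) ∉ r.roots := fun h => h0 (by
    rw [coeff_zero_eq_eval_zero]; exact (mem_roots'.mp h).2)
  rw [key _ hz, ← mul_assoc, ← C_mul] at e
  have hc : r.coeff 0 = r.leadingCoeff * (r.roots.map fun x => -x).prod := by
    conv_lhs => rw [e]
    rw [coeff_C_mul, (recipProd_coeff _).1, mul_one]
  rw [hc]; exact e

/-- A real-rooted polynomial is bounded by its constant term, given its next two coefficients. -/
theorem abs_eval_le_of_splits {r : ℝ[X]} (hr : r.Splits) {N : ℕ} (hN : r.natDegree ≤ N)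
    {M : ℝ} (hM : 0 ≤ M) (h1 : |r.coeff 1| ≤ M * |r.coeff 0|)
    (h2 : |r.coeff 2| ≤ M * |r.coeff 0|) (s : ℝ) :
    |r.eval s| ≤ |r.coeff 0| * (1 + |s| * (M + 1)) ^ N ∨ r.coeff 0 = 0 := by
  rcases eq_or_ne (r.coeff 0) 0 with h0 | h0
  · exact Or.inr h0
  refine Or.inl ?_
  obtain ⟨σ, hσ, e⟩ := eq_recipProd hr h0
  obtain ⟨-, hsq⟩ := recipProd_coeff σ
  have hpos : 0 < |r.coeff 0| := abs_pos.mpr h0
  have hb : ∀ n, |r.coeff n| ≤ M * |r.coeff 0| → |(recipProd σ).coeff n| ≤ M := by
    intro n hn
    rw [e, coeff_C_mul, abs_mul, mul_comm M] at hn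
    rw [coeff_C_mul, (recipProd_coeff σ).1, mul_one] at hn
    exact le_of_mul_le_mul_left hn hpos
  have b1 := hb 1 h1
  have b2 := abs_le.mp (hb 2 h2)
  have hall : ∀ a ∈ σ, |a| ≤ M + 1 := by
    intro a ha
    have h3 : a ^ 2 ≤ (σ.map fun t => t ^ 2).sum := Multiset.single_le_sum
      (fun x hx => by obtain ⟨t, -, rfl⟩ := Multiset.mem_map.mp hx; exact sq_nonneg t) _
      (Multiset.mem_map_of_mem (fun t : ℝ => t ^ 2) ha)
    rw [← hsq] at h3
    have h4 : (recipProd σ).coeff 1 ^ 2 ≤ M ^ 2 := by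
      rw [← sq_abs]; exact pow_le_pow_left₀ (abs_nonneg _) b1 2
    exact abs_le_of_sq_le_sq (by nlinarith [b2.1]) (by linarith)
  conv_lhs => rw [e]
  rw [eval_mul, eval_C, abs_mul]
  refine mul_le_mul_of_nonneg_left (le_trans (abs_eval_recipProd_le s (M + 1) σ hall) ?_)
    (abs_nonneg _)
  exact pow_le_pow_right₀ (by nlinarith [abs_nonneg s]) (le_trans hσ hN)

/-- A family of real-rooted polynomials whose first three coefficients vanish with the parameter,
the constant one to first order only, degenerates to the zero polynomial. -/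
theorem flat_of_splits {r : ℝ[X][X]} {δ : ℝ} (hδ : 0 < δ)
    (hsplit : ∀ ε ∈ Set.Ioo 0 δ, (r.map (evalRingHom ε)).Splits)
    (h0 : (r.coeff 0).coeff 1 ≠ 0) (hj : ∀ j < 3, (r.coeff j).coeff 0 = 0) :
    r.map (evalRingHom 0) = 0 := by
  set g : ℕ → ℝ[X] := fun j => (r.coeff j).divX with hg
  have hfac : ∀ j < 3, ∀ ε : ℝ, (r.coeff j).eval ε = ε * (g j).eval ε := fun j hj' ε => by
    conv_lhs => rw [← X_mul_divX_add (r.coeff j), hj j hj']
    simp [hg]
  have hc : (g 0).eval 0 ≠ 0 := by
    rw [← coeff_zero_eq_eval_zero, hg]; simpa [coeff_divX] using h0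
  set c := |(g 0).eval 0| with hcdef
  have hc0 : 0 < c := abs_pos.mpr hc
  set M := (|(g 1).eval 0| + |(g 2).eval 0| + 1) * (2 / c) with hM
  have hM0 : 0 ≤ M := by positivity
  have ev : ∀ᶠ ε in 𝓝[>] (0 : ℝ), ε ∈ Set.Ioo 0 δ ∧ c / 2 ≤ |(g 0).eval ε|
      ∧ |(g 1).eval ε| ≤ |(g 1).eval 0| + |(g 2).eval 0| + 1
      ∧ |(g 2).eval ε| ≤ |(g 1).eval 0| + |(g 2).eval 0| + 1 := by
    have t : ∀ j, Tendsto (fun ε => |(g j).eval ε|) (𝓝[>] 0) (𝓝 |(g j).eval 0|) := fun j =>
      (((g j).continuous.tendsto 0).abs).mono_left nhdsWithin_le_nhds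
    filter_upwards [Ioo_mem_nhdsGT hδ, (t 0).eventually (eventually_ge_nhds (by linarith : c / 2 < c)),
      (t 1).eventually (eventually_le_nhds (show |(g 1).eval 0|
        < |(g 1).eval 0| + |(g 2).eval 0| + 1 by linarith [abs_nonneg ((g 2).eval 0)])),
      (t 2).eventually (eventually_le_nhds (show |(g 2).eval 0|
        < |(g 1).eval 0| + |(g 2).eval 0| + 1 by linarith [abs_nonneg ((g 1).eval 0)]))]
      with ε a b c d using ⟨a, b, c, d⟩
  have zero : ∀ s : ℝ, (r.map (evalRingHom 0)).eval s = 0 := by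
    intro s
    set K := (1 + |s| * (M + 1)) ^ r.natDegree
    have cont : Tendsto (fun ε => |(r.map (evalRingHom ε)).eval s|) (𝓝[>] 0)
        (𝓝 |(r.map (evalRingHom 0)).eval s|) := by
      have e : ∀ ε, (r.map (evalRingHom ε)).eval s = (r.eval (C s)).eval ε := fun ε => by
        rw [eval_map, ← coe_evalRingHom ε, ← eval₂_at_apply, coe_evalRingHom, eval_C]
      simp only [e]
      exact (((r.eval (C s)).continuous.tendsto 0).abs).mono_left nhdsWithin_le_nhds
    have small : Tendsto (fun ε => |(r.coeff 0).eval ε| * K) (𝓝[>] 0) (𝓝 0) := by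
      have := ((((r.coeff 0).continuous.tendsto 0).abs).mono_left
        (nhdsWithin_le_nhds (s := Set.Ioi (0 : ℝ)))).mul_const K
      rwa [← coeff_zero_eq_eval_zero, hj 0 (by norm_num), abs_zero, zero_mul] at this
    refine abs_nonpos_iff.mp (le_of_tendsto_of_tendsto cont small ?_)
    filter_upwards [ev] with ε hε
    obtain ⟨hI, a, b1, b2⟩ := hε
    have bd : ∀ j < 3, |(g j).eval ε| ≤ |(g 1).eval 0| + |(g 2).eval 0| + 1 →
        |(r.map (evalRingHom ε)).coeff j| ≤ M * |(r.map (evalRingHom ε)).coeff 0| := by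
      intro j hj' hb
      simp only [coeff_map, coe_evalRingHom]
      rw [hfac j hj', hfac 0 (by norm_num), abs_mul, abs_mul, mul_left_comm]
      refine mul_le_mul_of_nonneg_left ?_ (abs_nonneg ε)
      refine le_trans hb ?_
      rw [hM, mul_assoc]
      refine le_mul_of_one_le_right (by positivity) ?_
      rw [div_mul_eq_mul_div, le_div_iff₀ hc0]; linarith
    rcases abs_eval_le_of_splits (hsplit ε hI) (natDegree_map_le) hM0 (bd 1 (by norm_num) b1)
      (bd 2 (by norm_num) b2) s with h | h
    · simpa only [coeff_map, coe_evalRingHom] using h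
    · exfalso
      simp only [coeff_map, coe_evalRingHom, hfac 0 (by norm_num)] at h
      rcases mul_eq_zero.mp h with h | h
      · exact hI.1.ne' h
      · rw [h, abs_zero] at a; linarith
  exact zero_of_eval_zero _ zero

end Vale.Agent.P256
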